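import Vale.Agent.P313.DefsTS

/-!
Deterministic machines with one catalytic work tape.
-/

namespace Vale.Agent.P313

/-- The work tape with the word `w` (written with the symbols `e false`, `e true`) in its cells,
the head on the first cell. -/
def Tape.ofWord {Γ : Type} (blank : Γ) (e : Bool → Γ) : List Bool → Tape Γ
  | [] => ⟨[], blank, []⟩
  | b :: w => ⟨[], e b, w.map e⟩

namespace RTM

variable (M : RTM)

/-- The initial configuration with the word `w` on the work tape number `i`; all other work tapes
are empty. -/
def initC (i : Fin M.tapes) (e : Bool → M.Sym) (w : List Bool) : M.Cfg :=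
  ⟨M.start, 0, fun j => if j = i then Tape.ofWord M.blank e w else ⟨[], M.blank, []⟩⟩

/-- The configuration after `t` steps from `c` of a machine without random bits (a halted machine
stays where it is). -/
def runC (x : List Bool) (c : M.Cfg) : ℕ → M.Cfg
  | 0 => c
  | t + 1 =>
    match M.verdict (runC x c t).state with
    | some _ => runC x c t
    | none => M.step x (runC x c t) false

/-- The machine `M` solves the promise problem `(Y, N)`, has no random bits and one catalytic work
tape `i` (with `e false`, `e true` as bits): for every input `x` and every initial content `w` of
the tape `i` with at least `C |x|` bits, `M` halts after at most `T |x|` steps with the verdict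
`true` if `x ∈ Y`, with the verdict `false` if `x ∈ N`, and in all cases with exactly the content
`w` and the initial head position on the tape `i`; at any time the tape `i` consists of the same
`w.length` cells, all of them holding bits; and `M` visits at most `S |x|` cells of each other work
tape, all of which are empty at the start. -/
def CatSolves (Y N : Set (List Bool)) (T S C : ℕ → ℝ) : Prop :=
  M.Deterministic ∧ ∃ (i : Fin M.tapes) (e : Bool → M.Sym), Function.Injective e ∧
    (∀ b, e b ≠ M.blank) ∧
    ∀ x w : List Bool, C x.length ≤ w.length →
      (∃ v : Bool, (x ∈ Y → v = true) ∧ (x ∈ N → v = false) ∧ ∀ t : ℕ, T x.length ≤ t →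
        M.verdict (M.runC x (M.initC i e w) t).state = some v ∧
        (M.runC x (M.initC i e w) t).work i = Tape.ofWord M.blank e w) ∧
      ∀ t : ℕ,
        (∀ j, j ≠ i → (((M.runC x (M.initC i e w) t).work j).cells : ℝ) ≤ S x.length) ∧
        ((M.runC x (M.initC i e w) t).work i).cells = w.length ∧
        ∀ a ∈ ((M.runC x (M.initC i e w) t).work i).left ++
          ((M.runC x (M.initC i e w) t).work i).head ::
          ((M.runC x (M.initC i e w) t).work i).right, ∃ b, a = e b

end RTM

/-- `CatTISP t s u Y N`: the promise problem `(Y, N)` is solved by a deterministic machine with one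
catalytic tape in time `t(n) ^ O(1)`, with `O(s(n))` cells of each other work tape and with a
catalytic tape of `O(u(n))` or more cells, simultaneously. -/
def CatTISP (t s u : ℕ → ℕ) (Y N : Set (List Bool)) : Prop :=
  ∃ (M : RTM) (c : ℕ), M.CatSolves Y N (fun n => (t n : ℝ) ^ c) (fun n => c * s n + c)
    (fun n => c * u n + c)

end Vale.Agent.P313
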