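import Vale.Agent.P313.BundleTS
import Vale.Agent.P313.H463.CatDefs

/-!
Goto programs started with an arbitrary content of the work tape, on deterministic Turing machines
with a catalytic tape.
-/

namespace Vale.Agent.P313.TS

open TMC

/-- The state with empty registers and the bits `c` on the tape. -/
def ini (c : ℕ → Bool) : PS := ⟨fun _ => 0, 0, ⟨c, 0⟩⟩

@[simp] theorem ini_reg (c : ℕ → Bool) (r : ℕ) : (ini c).reg r = 0 := rfl
@[simp] theorem ini_pos (c : ℕ → Bool) : (ini c).pos = 0 := rfl
@[simp] theorem ini_tp (c : ℕ → Bool) : (ini c).tp = ⟨c, 0⟩ := rfl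

/-- Two inputs which differ only in the bound for the head. -/
theorem gstep_mono {code : List Instr} {x y : Inp} (hw : x.word = y.word) (hO : x.O = y.O)
    (hH : x.H ≤ y.H) {c c' : ℕ × PS} (h : gstep code x c = some c') :
    gstep code y c = some c' := by
  unfold gstep at h ⊢
  cases hc : code[c.1]? with
  | none => simp only [hc, reduceCtorEq] at h
  | some ins =>
    rw [hc] at h
    cases ins with
    | inc r => exact h
    | jzdec r l => exact h
    | inL => simp only [hw] at h; exact h
    | inR => simp only [hw] at h; exact h
    | jin f l => simp only [hw] at h; exact h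
    | jmp l => exact h
    | halt b => exact h
    | ora o a => simp only [hO] at h; exact h
    | tL => exact h
    | tR =>
      simp only at h ⊢
      by_cases hh : c.2.tp.head < x.H
      · rw [if_pos hh] at h
        rw [if_pos (by omega)]
        exact h
      · rw [if_neg hh] at h; simp at h
    | tW b => exact h
    | jt l => exact h

theorem GSteps.monoH {code : List Instr} {x y : Inp} (hw : x.word = y.word) (hO : x.O = y.O)
    (hH : x.H ≤ y.H) {n : ℕ} {c c' : ℕ × PS} (h : GSteps code x n c c') :
    GSteps code y n c c' := by
  induction h with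
  | refl => exact GSteps.refl _
  | tail _ h ih => exact GSteps.tail ih (gstep_mono hw hO hH h)

namespace TMC

theorem cells_move (d : Dir) (a : Option Bool) (t : Tape (Option Bool)) :
    t.cells ≤ (Tape.move none d (Tape.write a t)).cells := by
  obtain ⟨l, b, r⟩ := t
  cases d <;> cases l <;> cases r <;> simp [Tape.move, Tape.write, Tape.cells] <;> omega

/-- All cells hold bits. -/
def AllB (t : Tape (Option Bool)) : Prop :=
  ∀ a ∈ t.left ++ t.head :: t.right, ∃ b, a = some b

theorem allB_move {d : Dir} {a : Option Bool} {t : Tape (Option Bool)} (ha : ∃ b, a = some b)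
    (ht : AllB t) (hc : (Tape.move none d (Tape.write a t)).cells = t.cells) :
    AllB (Tape.move none d (Tape.write a t)) := by
  obtain ⟨l, h, r⟩ := t
  unfold AllB at ht ⊢
  simp only [List.mem_append, List.mem_cons] at ht
  cases d with
  | stay =>
    simp only [Tape.move, Tape.write, List.mem_append, List.mem_cons]
    rintro c (hc | hc | hc)
    · exact ht c (Or.inl hc)
    · rw [hc]; exact ha
    · exact ht c (Or.inr (Or.inr hc))
  | left =>
    cases l with
    | nil => simp [Tape.move, Tape.write, Tape.cells] at hc
    | cons b l =>
      simp only [Tape.move, Tape.write, List.mem_append, List.mem_cons]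
      rintro c (hc | hc | hc | hc)
      · exact ht c (Or.inl (List.mem_cons_of_mem _ hc))
      · exact ht c (Or.inl (by rw [hc]; exact List.mem_cons_self))
      · rw [hc]; exact ha
      · exact ht c (Or.inr (Or.inr hc))
  | right =>
    cases r with
    | nil => simp [Tape.move, Tape.write, Tape.cells] at hc
    | cons b r =>
      simp only [Tape.move, Tape.write, List.mem_append, List.mem_cons]
      rintro c ((hc | hc) | hc | hc)
      · rw [hc]; exact ha
      · exact ht c (Or.inl hc)
      · exact ht c (Or.inr (Or.inr (by rw [hc]; exact List.mem_cons_self)))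
      · exact ht c (Or.inr (Or.inr (List.mem_cons_of_mem _ hc)))

/-- What a transition writes on the tape number `K`. -/
theorem trans_last {code : List Instr} {K : ℕ} (hK : ∀ i ∈ code, IOk K i)
    (st : Fin (code.length + 1) × Fin 4) (sy : InSym) (g : Fin (K + 1) → Option Bool)
    (hg : ∃ b, g (Fin.last K) = some b) :
    ∃ b, ((trans code K st sy g).2.2 (Fin.last K)).1 = some b := by
  have h1 : ∀ (r : ℕ) (a : Option Bool) (d : Dir), r < K →
      (onT r a d g (Fin.last K)).1 = g (Fin.last K) := by
    intro r a d hr
    unfold onT
    rw [if_neg (by simp only [Fin.val_last]; omega)]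
  have h2 : (noT g (Fin.last K)).1 = g (Fin.last K) := rfl
  have h3 : ∀ (a : Option Bool) (d : Dir), (onT K a d g (Fin.last K)).1 = a := by
    intro a d
    unfold onT
    rw [if_pos (by simp only [Fin.val_last])]
  unfold trans
  cases hc : code[(st.1 : ℕ)]? with
  | none => simp only [h2]; exact hg
  | some ins =>
    have hins := hK ins (List.mem_of_getElem? hc)
    cases ins with
    | inc r =>
      have hr : r < K := hins
      simp only
      split
      · simp only [h1 _ _ _ hr]; exact hg
      · split <;> simp only [h1 _ _ _ hr] <;> exact hg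
      · split <;> simp only [h1 _ _ _ hr, h2] <;> exact hg
    | jzdec r l =>
      have hr : r < K := hins
      simp only
      split
      · simp only [h1 _ _ _ hr]; exact hg
      · split <;> simp only [h1 _ _ _ hr] <;> exact hg
      · split <;> simp only [h1 _ _ _ hr, h2] <;> exact hg
      · split <;> simp only [h1 _ _ _ hr, h2] <;> exact hg
    | inL => simp only [h2]; exact hg
    | inR => simp only [h2]; exact hg
    | jin f l => simp only; split_ifs <;> simp only [h2] <;> exact hg
    | jmp l => simp only [h2]; exact hg
    | halt b => simp only [h2]; exact hg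
    | ora o a => simp only [h2]; exact hg
    | tL => simp only [h3]; exact ⟨_, rfl⟩
    | tR => simp only [h3]; exact ⟨_, rfl⟩
    | tW b => simp only [h3]; exact ⟨_, rfl⟩
    | jt l => simp only; split_ifs <;> simp only [h2] <;> exact hg

theorem runC_eq (M : RTM) (x : List Bool) (c : M.Cfg) (t : ℕ) :
    M.runC x c t = (nxt M x)^[t] c := by
  induction t with
  | zero => rfl
  | succ t ih =>
    rw [Function.iterate_succ_apply', ← ih]
    unfold nxt
    simp only [RTM.runC]
    cases M.verdict (M.runC x c t).state <;> rfl

theorem cells_nxt {code : List Instr} {K : ℕ} (x : List Bool) (c : (mach code K).Cfg)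
    (j : Fin (mach code K).tapes) :
    (c.work j).cells ≤ ((nxt (mach code K) x c).work j).cells := by
  unfold nxt
  split
  · exact le_rfl
  · exact cells_move _ _ _

theorem cells_iter {code : List Instr} {K : ℕ} (x : List Bool) (c : (mach code K).Cfg)
    (j : Fin (mach code K).tapes) : ∀ s t : ℕ, s ≤ t →
    (((nxt (mach code K) x)^[s] c).work j).cells ≤
      (((nxt (mach code K) x)^[t] c).work j).cells := by
  intro s t hst
  induction t, hst using Nat.le_induction with
  | base => exact le_rfl
  | succ t _ ih =>
    refine ih.trans ?_
    rw [Function.iterate_succ_apply']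
    exact cells_nxt _ _ _

theorem allB_nxt {code : List Instr} {K : ℕ} (hK : ∀ i ∈ code, IOk K i) (x : List Bool)
    (c : (mach code K).Cfg) (h : AllB (c.work (Fin.last K)))
    (hc : ((nxt (mach code K) x c).work (Fin.last K)).cells = (c.work (Fin.last K)).cells) :
    AllB ((nxt (mach code K) x c).work (Fin.last K)) := by
  unfold nxt at hc ⊢
  cases hv : (mach code K).verdict c.state with
  | some b => exact h
  | none =>
    rw [hv] at hc
    refine allB_move ?_ h hc
    exact trans_last hK _ _ _ (h _ (List.mem_append_right _ List.mem_cons_self))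

theorem mrep_word {w : List Bool} (hw : w ≠ []) :
    MRep (w.length - 1) (Tape.ofWord none some w) ⟨fun j => w.getD j false, 0⟩ := by
  cases w with
  | nil => exact absurd rfl hw
  | cons b w =>
    refine ⟨rfl, rfl, ?_, ?_⟩
    · intro i
      show obv ((w.map some).getD i none) = (b :: w).getD (0 + 1 + i) false
      rw [show 0 + 1 + i = i + 1 by ring, List.getD_cons_succ, List.getD_eq_getElem?_getD,
        List.getD_eq_getElem?_getD, List.getElem?_map]
      cases w[i]? <;> rfl
    · show 0 + (w.map some).length ≤ (b :: w).length - 1
      simp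

/-- The tape is determined by its bits if all cells hold bits. -/
theorem word_of_mrep {H : ℕ} {t : Tape (Option Bool)} {w : List Bool} (hw : w ≠ [])
    (h : MRep H t ⟨fun j => w.getD j false, 0⟩) (hb : AllB t) (hc : t.cells = w.length) :
    t = Tape.ofWord none some w := by
  obtain ⟨l, a, r⟩ := t
  have hl : l = [] := by have := h.left; simpa using this
  subst hl
  cases w with
  | nil => exact absurd rfl hw
  | cons b w =>
    have hr : r.length = w.length := by
      simp only [Tape.cells, List.length_nil, zero_add, List.length_cons] at hc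
      omega
    have ha : a = some b := by
      obtain ⟨b', hb'⟩ := hb a (by simp)
      have h2 := h.head
      rw [hb'] at h2 ⊢
      have h3 : b' = b := h2
      rw [h3]
    have hr2 : r = w.map some := by
      apply List.ext_getElem
      · simp [hr]
      · intro i h1 h2
        obtain ⟨b', hb'⟩ := hb (r[i]) (by
          have := List.getElem_mem h1
          simp only [List.nil_append, List.mem_cons]
          right; exact this)
        have h3 := h.right i
        have h4 : (Tape.right ⟨[], a, r⟩).getD i none = r[i] := by
          show r.getD i none = r[i]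
          rw [List.getD_eq_getElem?_getD, List.getElem?_eq_getElem h1]; rfl
        rw [h4, hb'] at h3
        have h5 : b' = (b :: w).getD (0 + 1 + i) false := h3
        rw [show 0 + 1 + i = i + 1 by ring, List.getD_cons_succ, List.getD_eq_getElem?_getD,
          List.getElem?_eq_getElem (by omega)] at h5
        rw [hb', List.getElem_map]
        exact congrArg some h5
    rw [ha, hr2]
    rfl

/-- The initial configuration. -/
def cini (code : List Instr) (K : ℕ) (w : List Bool) : (mach code K).Cfg :=
  mk code K (toPc _ 0, 0) 0
    (fun j => if j = Fin.last K then Tape.ofWord none some w else ⟨[], none, []⟩)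

theorem cini_eq (code : List Instr) (K : ℕ) (w : List Bool) :
    (mach code K).initC (Fin.last K) (some : Bool → Option Bool) w = cini code K w := rfl

theorem sim_cini {code : List Instr} {K N : ℕ} {w : List Bool} (hw : w ≠ []) :
    Sim N (w.length - 1) (cini code K w) (0, ini (fun j => w.getD j false)) := by
  refine ⟨_, rfl, ?_, ?_⟩
  · intro i hi
    refine ⟨[], 0, by omega, ?_, rfl, by simp⟩
    rw [if_neg]
    · rfl
    · intro h
      rw [h] at hi
      simp at hi
  · rw [if_pos rfl]
    exact mrep_word hw

theorem sim_stepsC {code : List Instr} {K N C : ℕ} {x : Inp} (hK : ∀ i ∈ code, IOk K i)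
    (hC1 : Nat.log 2 N + 4 ≤ C) (hC2 : x.H + 1 ≤ C) {c0 : (mach code K).Cfg} {T0 : ℕ → Bool}
    (hc0 : Sim N x.H c0 (0, ini T0)) {n : ℕ} {g0 g : ℕ × PS} (hs : GSteps code x n g0 g)
    (h0 : g0 = (0, ini T0)) :
    n ≤ N → (∀ i, g.2.reg i ≤ n) ∧
      ∃ c', Path (mach code K) x.word C (n * (2 * Nat.log 2 N + 8)) c0 c' ∧
        Sim N x.H c' g := by
  induction hs with
  | refl c =>
    intro _
    subst h0
    refine ⟨fun i => by simp, c0, (Path.refl ?_).mono (by simp), hc0⟩
    obtain ⟨w, rfl, hw, hm⟩ := hc0
    exact sim_ok hw hm hC1 hC2
  | tail hs hg ih =>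
    intro hn
    obtain ⟨hreg, c', hp, hsim⟩ := ih h0 (by omega)
    have hreg' := reg_step hK hg hreg
    refine ⟨hreg', ?_⟩
    obtain ⟨c'', hp', hsim'⟩ := sim_step hK hsim hg (fun i => (hreg' i).trans hn) hC1 hC2
    exact ⟨c'', (hp.trans hp').mono (le_of_eq (by ring)), hsim'⟩

end TMC

/-- Goto programs on machines with a catalytic tape. -/
theorem goto_to_cat (code : List Instr) (hno : ∀ i ∈ code, NoOra i) :
    ∃ (D : RTM) (i : Fin D.tapes) (e : Bool → D.Sym), D.Deterministic ∧ Function.Injective e ∧
    (∀ b, e b ≠ D.blank) ∧
    ∀ (x w : List Bool) (H n pc : ℕ) (s : PS) (b : Bool), H + 1 ≤ w.length →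
      GSteps code (IT x H) n (0, ini (fun j => w.getD j false)) (pc, s) →
      code[pc]? = some (Instr.halt b) → s.tp = ⟨fun j => w.getD j false, 0⟩ →
        (∀ T, n * (2 * Nat.log 2 n + 8) ≤ T →
          D.verdict (D.runC x (D.initC i e w) T).state = some b ∧
          (D.runC x (D.initC i e w) T).work i = Tape.ofWord D.blank e w) ∧
        ∀ t, (∀ j, j ≠ i →
            ((D.runC x (D.initC i e w) t).work j).cells ≤ Nat.log 2 n + 4) ∧
          ((D.runC x (D.initC i e w) t).work i).cells = w.length ∧
          ∀ a ∈ ((D.runC x (D.initC i e w) t).work i).left ++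
            ((D.runC x (D.initC i e w) t).work i).head ::
            ((D.runC x (D.initC i e w) t).work i).right, ∃ b, a = e b := by
  obtain ⟨K, hK⟩ := exists_IOk code hno
  refine ⟨mach code K, Fin.last K, (some : Bool → Option Bool), fun _ => rfl,
    Option.some_injective _, fun b => by
      show (some b : Option Bool) ≠ none
      simp, ?_⟩
  intro x w H n pc s b hHw hs hb hst
  have hw : w ≠ [] := by
    intro h
    rw [h] at hHw
    simp at hHw
  rw [cini_eq]
  simp only [runC_eq]
  have hs' : GSteps code (IT x (w.length - 1)) n (0, ini (fun j => w.getD j false)) (pc, s) :=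
    GSteps.monoH (x := IT x H) (y := IT x (w.length - 1)) rfl rfl
      (by show H ≤ w.length - 1; omega) hs
  obtain ⟨-, c', ⟨t0, ht0T, ht0, hok⟩, hsim⟩ := sim_stepsC (K := K) (N := n)
    (C := Nat.log 2 n + w.length + 4) (x := IT x (w.length - 1)) hK (by omega)
    (by show w.length - 1 + 1 ≤ _; omega) (sim_cini hw) hs' rfl (le_refl n)
  obtain ⟨v, hcv, hv, hm⟩ := hsim
  have hlt : pc < code.length := by
    by_contra hcon
    rw [List.getElem?_eq_none (by omega)] at hb
    simp at hb
  have hpc1 : ((toPc code.length pc : Fin (code.length + 1)) : ℕ) = pc := by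
    simp only [toPc, inf_eq_left]; omega
  have hverd : (mach code K).verdict c'.state = some b := by
    rw [hcv]
    show verd code (toPc code.length pc, 0) = some b
    simp only [verd, hpc1, hb]
  have hfix : ∀ u, (nxt (mach code K) x)^[u] c' = c' := by
    intro u
    induction u with
    | zero => rfl
    | succ u ih =>
      rw [Function.iterate_succ_apply', ih]
      unfold nxt
      rw [hverd]
  have ht0' : (nxt (mach code K) x)^[t0] (cini code K w) = c' := ht0
  have hlate : ∀ t, t0 ≤ t → (nxt (mach code K) x)^[t] (cini code K w) = c' := by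
    intro t ht
    have : t = (t - t0) + t0 := by omega
    rw [this, Function.iterate_add_apply, ht0', hfix]
  -- cells
  have hmono : ∀ t j, (((nxt (mach code K) x)^[t] (cini code K w)).work j).cells ≤
      (c'.work j).cells := by
    intro t j
    rcases le_total t t0 with h | h
    · rw [← ht0']; exact cells_iter x _ j _ _ h
    · rw [hlate t h]
  have hcell0 : ((cini code K w).work (Fin.last K)).cells = w.length := by
    show (if Fin.last K = Fin.last K then Tape.ofWord none some w else ⟨[], none, []⟩ :
      Tape (Option Bool)).cells = w.length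
    rw [if_pos rfl]
    cases w with
    | nil => exact absurd rfl hw
    | cons b w => simp [Tape.ofWord, Tape.cells]; ring
  have hwork : c'.work (Fin.last K) = v (Fin.last K) := by rw [hcv]; rfl
  have hcell1 : (c'.work (Fin.last K)).cells ≤ w.length := by
    rw [hwork]
    have h4 := hm.cells
    have h2 : 1 ≤ w.length := by omega
    have h3 : (IT x (w.length - 1)).H = w.length - 1 := rfl
    rw [h3, Nat.sub_add_cancel h2] at h4
    exact h4
  have hcell : ∀ t, (((nxt (mach code K) x)^[t] (cini code K w)).work (Fin.last K)).cells =
      w.length := by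
    intro t
    apply le_antisymm ((hmono t _).trans hcell1)
    rw [← hcell0]
    exact cells_iter x _ _ 0 t (Nat.zero_le _)
  have hall : ∀ t, AllB (((nxt (mach code K) x)^[t] (cini code K w)).work (Fin.last K)) := by
    intro t
    induction t with
    | zero =>
      show AllB (if Fin.last K = Fin.last K then Tape.ofWord none some w else ⟨[], none, []⟩ :
        Tape (Option Bool))
      rw [if_pos rfl]
      cases w with
      | nil => exact absurd rfl hw
      | cons b w =>
        intro a ha
        simp only [Tape.ofWord, List.nil_append, List.mem_cons, List.mem_map] at ha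
        rcases ha with h | ⟨b', _, h⟩
        · exact ⟨b, h⟩
        · exact ⟨b', h.symm⟩
    | succ t ih =>
      rw [Function.iterate_succ_apply']
      refine allB_nxt hK x _ ih ?_
      have h1 := hcell t
      have h2 := hcell (t + 1)
      rw [Function.iterate_succ_apply'] at h2
      rw [h1, h2]
  refine ⟨fun T hT => ?_, fun t => ⟨fun j hj => ?_, hcell t, hall t⟩⟩
  · have hT0 : t0 ≤ T := ht0T.trans hT
    rw [hlate T hT0]
    refine ⟨hverd, ?_⟩
    have h1 := hall T
    have h2 := hcell T
    rw [hlate T hT0] at h1 h2
    rw [hwork] at h1 h2 ⊢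
    have hst' : ((pc, s) : ℕ × PS).2.tp = ⟨fun j => w.getD j false, 0⟩ := hst
    rw [hst'] at hm
    exact word_of_mrep hw hm h1 h2
  · refine (hmono t j).trans ?_
    have hj' : (j : ℕ) < K := by
      have h1 : (j : ℕ) < K + 1 := j.isLt
      have h2 : (j : ℕ) ≠ K := fun h => hj (Fin.ext (by simpa using h))
      omega
    obtain ⟨l, m, h1, h2, -, h4⟩ := hv j hj'
    have h5 : c'.work j = v j := by rw [hcv]; rfl
    have h6 : (v j).cells ≤ Nat.log 2 n + 4 := by
      rw [h2, cells_rep]
      omega
    rw [h5]
    exact h6

end Vale.Agent.P313.TS
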