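import Vale.Agent.P313.H463.Cat9

/-!
The machine with a catalytic tape.
-/

namespace Vale.Agent.P313

open Finset

namespace TS.Q

/-- The general machine with a catalytic tape: the verdict is `vf x M`, where `M` is the memory
with the last array. -/
theorem cat_gen {π : List Bool → Prm} (hπ : PrmC π)
    (hPK : ∀ k, P313.LF (fun x _ => (2 * (π x).P) ^ (π x).K : P313.Fn k))
    {A0 : List Bool → ℕ → ℕ → ℕ} (hA0L : P313.LF (fun x a => A0 x (a 0) (a 1) : P313.Fn 2))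
    {ks bd : List Bool → ℕ}
    (hks : ∀ k, P313.LF (fun x _ => ks x : P313.Fn k))
    (lg0 : LF (fun I a => ind (bd I.word ≤ a 0) : Fn 1))
    (hbd : ∀ x, (π x).XP ^ (60 * ks x + 15) ≤ bd x)
    (hclip : ∀ x, (π x).Clip) (hA0 : ∀ x, IsAut (A0 x) (π x).N)
    (hiks : ∀ x, 4 * ks x < (π x).XP ^ 5)
    (h2J : ∀ x, 2 ^ (π x).J ≤ (π x).P) (hJT : ∀ x, 0 < (π x).JT) (hk0 : ∀ x, 0 < ks x)
    (hok : ∀ x, ∃ εG : ℝ, (π x).Ok εG) (hok2 : ∀ x, (π x).Ok2 (ks x))
    (hok3 : ∀ x, Cat.Ok3 (π x) (ks x)) {vvI : Inp → ℕ → ℕ} {vf : List Bool → (ℕ → ℕ) → ℕ}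
    (lvv : LF (fun I a => vvI I (a 0) : Fn 1))
    (hvv : ∀ I : Inp, vvI I (bd I.word) = vf I.word (rdI π ks I)) :
    ∃ (D : RTM) (i : Fin D.tapes) (e : Bool → D.Sym) (E : ℕ), D.Deterministic ∧
      Function.Injective e ∧ (∀ b, e b ≠ D.blank) ∧
      ∀ (x w : List Bool) (VP : ℕ → Prop), 3 * (π x).JT * Cat.B1 (π x) + 1 ≤ w.length →
      (∀ M o : ℕ → ℕ, (∀ i, o i < (π x).B) →
        (∀ i ≤ ks x, (π x).XA (A0 x) M ((ks x + 1) % 2) i = Cat.As (π x) (A0 x) o i) →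
        VP (Min.min (vf x M) 1)) →
      (∃ V, VP V ∧ ∀ T, (x.length + bd x + 2) ^ E ≤ T →
        D.verdict (D.runC x (D.initC i e w) T).state = some (decide (V ≠ 0)) ∧
        (D.runC x (D.initC i e w) T).work i = Tape.ofWord D.blank e w) ∧
      ∀ t, (∀ j, j ≠ i → ((D.runC x (D.initC i e w) t).work j).cells ≤
          E * Nat.log 2 (x.length + bd x + 2) + E) ∧
        ((D.runC x (D.initC i e w) t).work i).cells = w.length ∧
        ∀ a ∈ ((D.runC x (D.initC i e w) t).work i).left ++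
          ((D.runC x (D.initC i e w) t).work i).head ::
          ((D.runC x (D.initC i e w) t).work i).right, ∃ b, a = e b := by
  have hT := PrmT.of hπ hPK
  have lks : ∀ k, LF (fun I _ => ks I.word : Fn k) := fun k => LF.ofOld (hks k)
  have lrd := lf_rdI hT lks h2J
  have lX : LF (fun I a => runX π A0 (rdI π ks) I (a 0) (a 1) (a 2) (a 3) (a 4) : Fn 5) :=
    lf_runX hπ hPK hA0L lrd (LF.proj 0) (LF.proj 1) (LF.proj 2) (LF.proj 3) (LF.proj 4)
  have hXP1 : ∀ x, 1 ≤ (π x).XP := fun x => by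
    have := Prm.two_le_XP (q := π x); omega
  have hYXP : ∀ x, (π x).Y ≤ (π x).XP := fun x => by
    unfold Prm.XP
    generalize (π x).N2 = a1
    generalize (π x).Y2 = a2
    generalize ((π x).K + 1) * ((2 * (π x).P) ^ (π x).K * a2) = a3
    generalize 2 ^ (π x).J2 = a4
    omega
  have hXc : ∀ (I : Inp) (Bg a i : ℕ), i ≤ ks I.word →
      (π I.word).XP ^ (60 * ks I.word + 15) ≤ Bg →
      (π I.word).Agr (runX π A0 (rdI π ks) I Bg a i)
        ((π I.word).XA (A0 I.word) (rdI π ks I) a i) := by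
    intro I Bg a i hi hB v hv y hy
    refine runX_eq (hclip _).Y_pos (hclip _).hG (hA0 _) ?_ ?_ hv (lt_of_lt_of_le hy (hYXP _))
    · have := hiks I.word
      (clear * - hi this; omega)
    · refine le_trans (Nat.pow_le_pow_right (hXP1 _) ?_) hB
      omega
  -- the tests
  set GH : Inp → ℕ → ℕ → Prop := fun I Bg d =>
    (π I.word).testHc (runX π A0 (rdI π ks) I Bg) (rdI π ks I)
      (Cat.stg (π I.word).JT (ks I.word) (Cat.da (π I.word) (ks I.word) (I.O 0))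
        (Cat.di (π I.word) (ks I.word) (I.O 0)) (Cat.dh (π I.word) (ks I.word) (I.O 0))
        (Cat.dj (π I.word) (ks I.word) (I.O 0)))
      (Cat.jj (π I.word).JT (ks I.word) (Cat.da (π I.word) (ks I.word) (I.O 0))
        (Cat.di (π I.word) (ks I.word) (I.O 0)) (Cat.dh (π I.word) (ks I.word) (I.O 0))
        (Cat.dj (π I.word) (ks I.word) (I.O 0))) d with hGHd
  set GO : Inp → ℕ → ℕ → Prop := fun I Bg o =>
    (π I.word).testOc (runX π A0 (rdI π ks) I Bg) (rdI π ks I)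
      (Cat.di (π I.word) (ks I.word) (I.O 0)) o with hGOd
  have lGH : LFP (fun I a => GH I (a 0) (a 1) : Inp → (Fin 2 → ℕ) → Prop) :=
    lfp_testHc hT lX lrd (LF.proj 0)
      (lf_stg (lf_JT hT) (lks 2) (lf_da hT lks) (lf_di hT lks) (lf_dh hT lks) (lf_dj hT lks))
      (lf_jj (lf_JT hT) (lks 2) (lf_da hT lks) (lf_di hT lks) (lf_dh hT lks) (lf_dj hT lks))
      (LF.proj 1)
  have lGO : LFP (fun I a => GO I (a 0) (a 1) : Inp → (Fin 2 → ℕ) → Prop) :=
    lfp_testOc hT lX lrd (LF.proj 0) (lf_di hT lks) (LF.proj 1)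
  have lzf := lf_zfF (GH := GH) (GO := GO) (vvI := vvI) hT lks lGH lGO lvv h2J hJT
  have lpf := lf_pfF (m := 1) hT lks
  have lff := lf_ffF (m := 1) hT lks
  have lH : LF (fun I _ => 3 * (π I.word).JT * Cat.B1 (π I.word) : Fn 1) :=
    ((LF.const 3).mul (lf_JT hT)).mul (lf_B1 hT)
  have lS : LF (fun I _ => (Cat.B1 (π I.word) + 1) * Cat.TT (π I.word) (ks I.word) : Fn 1) :=
    (lf_B1 hT).succ.mul (lf_TT hT lks)
  have lfin : LF (fun I _ => Cat.dV (π I.word) (ks I.word) (I.O 0) : Fn 1) := lf_dV hT lks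
  -- the bound for the number
  obtain ⟨zb, hzb⟩ : PB (fun I a => Cat.M1 (π I.word) (ks I.word) * (2 * (2 ^ Cat.B1 (π I.word) *
      (Cat.FB ^ (3 * (π I.word).JT) * a 0))) : Fn 1) :=
    ((lf_M1 hT lks).mul ((LF.const 2).mul ((lf_W hT).mul ((lf_FJ hT h2J).mul
      (LF.proj (k := 1) 0))))).pb
  obtain ⟨D, i, e, E, hD, hinj, hbl, h⟩ := cat_machine lg0 lH lS lfin lff lpf lzf zb
  refine ⟨D, i, e, E, hD, hinj, hbl, fun x w VP hw hv => ?_⟩
  set q := π x with hqd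
  set k := ks x with hkd
  set Bd := bd x with hBd
  set c0 : ℕ → Bool := fun j => w.getD j false with hc0
  obtain ⟨εG, HOk⟩ := hok x
  have hBpos : 0 < q.B := HOk.hB
  -- powers of the number of shifts
  have hBXP : q.B ≤ q.XP := by
    have h1 : q.B ≤ (q.N + 1) * ((q.K + 1) * (2 * q.P) ^ q.K * (q.D * q.B)) := by
      have hP : 0 < (2 * q.P) ^ q.K := Nat.pow_pos (by
        have : 0 < q.P := by unfold Prm.P; positivity
        omega)
      calc q.B ≤ q.D * q.B := Nat.le_mul_of_pos_left _ HOk.hD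
        _ ≤ (q.K + 1) * (2 * q.P) ^ q.K * (q.D * q.B) :=
          Nat.le_mul_of_pos_left _ (Nat.mul_pos (Nat.succ_pos _) hP)
        _ ≤ _ := Nat.le_mul_of_pos_left _ (Nat.succ_pos _)
    unfold Prm.XP
    generalize (q.N + 1) * ((q.K + 1) * (2 * q.P) ^ q.K * (q.D * q.B)) = a0 at h1
    generalize q.N2 = a1
    generalize (q.K + 1) * ((2 * q.P) ^ q.K * q.Y2) = a3
    generalize 2 ^ q.J2 = a4
    omega
  have hBk : q.B ^ k ≤ Bd := by
    calc q.B ^ k ≤ q.XP ^ k := Nat.pow_le_pow_left hBXP k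
      _ ≤ q.XP ^ (60 * k + 15) := Nat.pow_le_pow_right (hXP1 x) (by omega)
      _ ≤ Bd := hbd x
  -- the step
  have hdi : ∀ Z, Cat.di q k Z ≤ k := fun Z => Nat.le_of_lt_succ (Nat.mod_lt _ (Nat.succ_pos _))
  have hstep : ∀ c Z, stepc π ks GH GO vvI (IZ x c Z (3 * q.JT * Cat.B1 q)) Bd =
      Cat.sst q (A0 x) k (vf x) (IZ x c Z (3 * q.JT * Cat.B1 q)).O := by
    intro c Z
    set I := IZ x c Z (3 * q.JT * Cat.B1 q) with hI
    have hIw : I.word = x := rfl
    have hXA : ∀ a i', IsAut (q.XA (A0 x) (rdI π ks I) a i') q.N := fun a i' =>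
      Prm.isAut_XA (hA0 x) _ a i'
    have hagr : ∀ a, ∀ i' ≤ k, q.Agr (runX π A0 (rdI π ks) I Bd a i')
        (q.XA (A0 x) (rdI π ks I) a i') := fun a i' hi' => hXc I Bd a i' hi' (hbd x)
    have hjj : Cat.jj q.JT k (Cat.da q k Z) (Cat.di q k Z) (Cat.dh q k Z) (Cat.dj q k Z) < q.JT := by
      have h0 := hJT x
      unfold Cat.jj
      split_ifs with h1
      · by_contra hc
        unfold Cat.knd at h1
        rw [if_pos (by omega)] at h1
        exact absurd h1 (by norm_num)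
      · change 0 < q.JT at h0
        omega
    have hstg : Cat.stg q.JT k (Cat.da q k Z) (Cat.di q k Z) (Cat.dh q k Z) (Cat.dj q k Z) ≤ k := by
      have := hdi Z
      unfold Cat.stg
      split_ifs <;> omega
    have e1 : GH I Bd = q.TestH (A0 x) (rdI π ks I)
        (Cat.stg q.JT k (Cat.da q k Z) (Cat.di q k Z) (Cat.dh q k Z) (Cat.dj q k Z))
        (Cat.jj q.JT k (Cat.da q k Z) (Cat.di q k Z) (Cat.dh q k Z) (Cat.dj q k Z)) := by
      funext d
      exact propext (Prm.testHc_iff (hclip x) hXA hjj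
        (fun i' hi' => hagr _ i' (hi'.trans hstg)) (fun _ _ => rfl))
    have e2 : GO I Bd = q.TestO (A0 x) (rdI π ks I) (Cat.di q k Z) := by
      funext d
      exact propext (Prm.testOc_iff (hclip x) hXA (hagr _ _ (hdi Z)) (fun _ _ => rfl))
    have e3 : vvI I Bd = vf x (rdI π ks I) := hvv I
    have e4 : Min.min (q.B ^ Cat.di q k Z) (Bd + 1) = q.B ^ Cat.di q k Z :=
      min_eq_left ((Nat.pow_le_pow_right hBpos (hdi Z)).trans (hBk.trans (Nat.le_succ _)))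
    have e5 : Min.min (q.B ^ k) (Bd + 1) = q.B ^ k := min_eq_left (hBk.trans (Nat.le_succ _))
    change gst q k (2 ^ Cat.B1 q / (q.p * q.p)) (2 ^ Cat.B1 q) (GH I Bd) (GO I Bd) (vvI I Bd)
      (Min.min (q.B ^ Cat.di q k Z) (Bd + 1)) (Min.min (q.B ^ k) (Bd + 1))
      (Cat.da q k Z) (Cat.di q k Z) (Cat.dh q k Z) (Cat.dj q k Z) (Cat.dec q k I.O) = _
    rw [e1, e2, e3, e4, e5]
    rfl
  obtain ⟨r1, r2, r3⟩ := Cat.micro_final (q := q) (A0 := A0 x) (k := k)
    (vf := vf x) (x := x) (B := Bd) (VP := VP) (c0 := c0)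
    (pf := fun I _ => Cat.pfu (π I.word) (ks I.word) I.O)
    (ff := fun I _ => Cat.ffu (π I.word) (ks I.word) I.O)
    (zf := fun I a => Cat.zfu (π I.word) (ks I.word) I.O (stepc π ks GH GO vvI I (a 0)))
    ⟨εG, HOk⟩ (hok2 x) (hok3 x) (hA0 x) (hk0 x) (hJT x) hv (fun _ _ => rfl) (fun _ _ => rfl)
    (fun c Z => by
      show Cat.zfu q k _ (stepc π ks GH GO vvI _ Bd) = _
      rw [hstep])
  have hZB : ∀ s ≤ (Cat.B1 q + 1) * Cat.TT q k,
      (czS (fun I _ => Cat.ffu (π I.word) (ks I.word) I.O)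
        (fun I _ => Cat.pfu (π I.word) (ks I.word) I.O)
        (fun I a => Cat.zfu (π I.word) (ks I.word) I.O (stepc π ks GH GO vvI I (a 0)))
        x Bd (3 * q.JT * Cat.B1 q) c0 s).2 ≤ (x.length + Bd + 2) ^ zb := by
    intro s hs
    refine (r1 s hs).le.trans ?_
    have h1 := hzb (I0 x) (fun _ => Bd)
    have hmu : mu (I0 x) (fun _ => Bd : Fin 1 → ℕ) = x.length + Bd + 2 := by
      simp [mu, I0]
    rw [hmu] at h1
    refine le_trans ?_ h1
    exact Nat.mul_le_mul_left _ (Nat.mul_le_mul_left _ (Nat.mul_le_mul_left _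
      (Nat.mul_le_mul_left _ hBk)))
  obtain ⟨u1, u2⟩ := h x w Bd (3 * q.JT * Cat.B1 q) ((Cat.B1 q + 1) * Cat.TT q k) c0
    (fun m hm => ind_false (not_le.2 hm))
    (by
      show ind (Bd ≤ Bd) ≠ 0
      rw [ind_true le_rfl]; norm_num) rfl rfl rfl hw
    (fun s _ => Cat.pfu_lt (hJT x) _) hZB r2
  exact ⟨⟨_, r3, u1⟩, u2⟩

end TS.Q

namespace Cat

/-- The number of symbols leading from `v` to `u`. -/
def scA (q : Prm) (A : ℕ → ℕ → ℕ) (v u : ℕ) : ℕ := #{y ∈ range q.Y | A v y = u}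

/-- The verdict of the final loop. -/
noncomputable def vfM (q : Prm) (A0 : ℕ → ℕ → ℕ) (k T s : ℕ) (M : ℕ → ℕ) : ℕ :=
  TS.ind ((nxtV (scA q (q.XA A0 M ((k + 1) % 2) k)) q.Y q.N)^[T] s = 0)

end Cat

end Vale.Agent.P313
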