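import Vale.Agent.P313.H463.Cat10

/-!
The machine for the final loop, and its parameters.
-/

namespace Vale.Agent.P313

open Finset

namespace TS.Q

/-- The decision procedure as a machine with a catalytic tape. -/
theorem cat_dec {π : List Bool → Prm} (hπ : PrmC π)
    (hPK : ∀ k, P313.LF (fun x _ => (2 * (π x).P) ^ (π x).K : P313.Fn k))
    {A0 : List Bool → ℕ → ℕ → ℕ} (hA0L : P313.LF (fun x a => A0 x (a 0) (a 1) : P313.Fn 2))
    {ks st Tt : List Bool → ℕ}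
    (hks : ∀ k, P313.LF (fun x _ => ks x : P313.Fn k))
    (hst : ∀ k, P313.LF (fun x _ => st x : P313.Fn k))
    (hTt : ∀ k, P313.LF (fun x _ => Tt x : P313.Fn k))
    (hclip : ∀ x, (π x).Clip) (hA0 : ∀ x, IsAut (A0 x) (π x).N) (hN : ∀ x, 1 ≤ (π x).N)
    (hstN : ∀ x, st x ≤ (π x).N) (hiks : ∀ x, 4 * ks x < (π x).XP ^ 5)
    (h2J : ∀ x, 2 ^ (π x).J ≤ (π x).P) (hJT : ∀ x, 0 < (π x).JT) (hk0 : ∀ x, 0 < ks x)
    (hok : ∀ x, ∃ εG : ℝ, (π x).Ok εG) (hok2 : ∀ x, (π x).Ok2 (ks x))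
    (hok3 : ∀ x, Cat.Ok3 (π x) (ks x)) :
    ∃ (D : RTM) (i : Fin D.tapes) (e : Bool → D.Sym) (E : ℕ), D.Deterministic ∧
      Function.Injective e ∧ (∀ b, e b ≠ D.blank) ∧
      ∀ (x w : List Bool) (VP : ℕ → Prop), 3 * (π x).JT * Cat.B1 (π x) + 1 ≤ w.length →
      (∀ M o : ℕ → ℕ, (∀ i, o i < (π x).B) →
        (∀ i ≤ ks x, (π x).XA (A0 x) M ((ks x + 1) % 2) i = Cat.As (π x) (A0 x) o i) →
        VP (Min.min (Cat.vfM (π x) (A0 x) (ks x) (Tt x) (st x) M) 1)) →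
      (∃ V, VP V ∧ ∀ T, (x.length + (π x).XP ^ (60 * ks x + 15) + 2) ^ E ≤ T →
        D.verdict (D.runC x (D.initC i e w) T).state = some (decide (V ≠ 0)) ∧
        (D.runC x (D.initC i e w) T).work i = Tape.ofWord D.blank e w) ∧
      ∀ t, (∀ j, j ≠ i → ((D.runC x (D.initC i e w) t).work j).cells ≤
          E * Nat.log 2 (x.length + (π x).XP ^ (60 * ks x + 15) + 2) + E) ∧
        ((D.runC x (D.initC i e w) t).work i).cells = w.length ∧
        ∀ a ∈ ((D.runC x (D.initC i e w) t).work i).left ++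
          ((D.runC x (D.initC i e w) t).work i).head ::
          ((D.runC x (D.initC i e w) t).work i).right, ∃ b, a = e b := by
  have hT := PrmT.of hπ hPK
  have lks : ∀ k, LF (fun I _ => ks I.word : Fn k) := fun k => LF.ofOld (hks k)
  have lst : ∀ k, LF (fun I _ => st I.word : Fn k) := fun k => LF.ofOld (hst k)
  have lTt : ∀ k, LF (fun I _ => Tt I.word : Fn k) := fun k => LF.ofOld (hTt k)
  have lXP : ∀ k, LF (fun I _ => (π I.word).XP : Fn k) := fun k => XR.lf_XP hπ hPK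
  have lrd := lf_rdI hT lks h2J
  have lg0 : LF (fun I a => ind ((π I.word).XP ^ (60 * ks I.word + 15) ≤ a 0) : Fn 1) :=
    LFP.powLe (lXP 1) (((LF.const 60).mul (lks 1)).add (LF.const 15)) (LF.proj 0)
  have lX : LF (fun I a => runX π A0 (rdI π ks) I (a 0) (a 1) (a 2) (a 3) (a 4) : Fn 5) :=
    lf_runX hπ hPK hA0L lrd (LF.proj 0) (LF.proj 1) (LF.proj 2) (LF.proj 3) (LF.proj 4)
  have hXP1 : ∀ x, 1 ≤ (π x).XP := fun x => by
    have := Prm.two_le_XP (q := π x); omega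
  have hYXP : ∀ x, (π x).Y ≤ (π x).XP := fun x => by
    unfold Prm.XP
    generalize (π x).N2 = a1
    generalize (π x).Y2 = a2
    generalize ((π x).K + 1) * ((2 * (π x).P) ^ (π x).K * a2) = a3
    generalize 2 ^ (π x).J2 = a4
    omega
  set sc : Inp → ℕ → ℕ → ℕ → ℕ := fun I Bg v u => ∑ y ∈ range (π I.word).Y,
    if runX π A0 (rdI π ks) I Bg ((ks I.word + 1) % 2) (ks I.word) v y = u then 1 else 0 with hsc
  set vvI : Inp → ℕ → ℕ := fun I Bg =>
    ind ((P313.nxtV (sc I Bg) (π I.word).Y (π I.word).N)^[Tt I.word] (st I.word) = 0) with hvvd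
  have lsc : ∀ {m : ℕ} {b v u : Fn m}, LF b → LF v → LF u →
      LF (fun I a => sc I (b I a) (v I a) (u I a)) := by
    intro m b v u hb hv hu
    have h1 := LF.cntEq (k := m) (n := fun I _ => (π I.word).Y)
      (f := fun I c => runX π A0 (rdI π ks) I (b I (Fin.tail c)) ((ks I.word + 1) % 2) (ks I.word)
        (v I (Fin.tail c)) (c 0)) (v := u)
      (LF.comp5 lX hb.weak ((lks _).succ.mod (LF.const 2)) (lks _) hv.weak (LF.proj 0))
      (hT.Y _) hu
    refine h1.congr (fun I a => ?_)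
    simp only [Fin.tail_cons, Fin.cons_zero]
    rfl
  have lvv : LF (fun I a => vvI I (a 0) : Fn 1) :=
    LFP.eq (LF.nxtV_iter lsc (LF.proj 0) (hT.Y 1) (hT.N 1) (lst 1) (lTt 1)) LF.zero
  refine cat_gen (bd := fun x => (π x).XP ^ (60 * ks x + 15))
    (vf := fun x => Cat.vfM (π x) (A0 x) (ks x) (Tt x) (st x)) hπ hPK hA0L hks lg0
    (fun _ => le_rfl) hclip hA0 hiks h2J hJT hk0 hok hok2 hok3 lvv (fun I => ?_)
  have hscX : ∀ v ≤ (π I.word).N, ∀ u, sc I ((π I.word).XP ^ (60 * ks I.word + 15)) v u =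
      Cat.scA (π I.word) ((π I.word).XA (A0 I.word) (rdI π ks I) ((ks I.word + 1) % 2)
        (ks I.word)) v u := by
    intro v hv u
    simp only [hsc]
    unfold Cat.scA
    rw [card_filter]
    refine sum_congr rfl fun y hy => ?_
    have h1 : runX π A0 (rdI π ks) I ((π I.word).XP ^ (60 * ks I.word + 15))
        ((ks I.word + 1) % 2) (ks I.word) v y =
        (π I.word).XA (A0 I.word) (rdI π ks I) ((ks I.word + 1) % 2) (ks I.word) v y := by
      refine runX_eq (hclip _).Y_pos (hclip _).hG (hA0 _) ?_ le_rfl hv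
        (lt_of_lt_of_le (mem_range.1 hy) (hYXP _))
      exact hiks I.word
    exact congrArg (fun z => if z = u then 1 else 0) h1
  exact congrArg (fun z => ind (z = 0))
    (nxtV_iter_congr (tot := (π I.word).Y) (hN I.word) (hstN I.word) hscX (Tt I.word)).1

end TS.Q

namespace Cat

/-- The final loop finds the right verdict. -/
theorem fin_rightC {M : RTM} {x : List Bool} {W T N b g C ρ tot : ℕ} {sc : ℕ → ℕ → ℕ}
    (hF : M.Fit x W T) (hN : N = 8 * (W ^ M.nd + 2)) (hC : 0 < C)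
    (hK : (N * C) ^ 2 ≤ 2 ^ b) (hb : 1 ≤ b) (hρ1 : 1 ≤ ρ) (hρ : ρ ≤ g) (hY : 0 < tot)
    (hcl : ∀ v < N, ∀ u < N,
      |((sc v u : ℕ) : ℝ) / tot - (cnt (M.cs x W T) (b * g) v u : ℝ) / 2 ^ (b * g)| ≤
        1 / (4 * (N : ℝ)))
    (w : Bool)
    (herr : M.probAt x (!w) T 0 M.init ≤ 1 / 3)
    (hexp : ∀ j, M.probAt x (!w) T j M.init ^ ρ * 2 ^ j ≤ (C : ℚ) ^ ρ) :
    (nxtV sc tot N)^[T] (M.startN x W T) = (!w).toNat := by
  have hclose : ∀ v < W ^ M.nd + 2, ∀ u < N,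
      |(sc v u : ℚ) / (tot : ℚ) -
        (cnt (M.cs x W T) (b * g) v u : ℚ) / 2 ^ (b * g)| ≤ 1 / (4 * N) := by
    intro v hv u hu
    have h5 := hcl v (by omega) u hu
    rw [← Rat.cast_le (K := ℝ)]
    push_cast
    exact h5
  have hstart : M.startN x W T = M.cod x W T M.init := RTM.start_eq
  have hs' : M.startN x W T < W ^ M.nd + 2 := by
    rw [hstart]; exact RTM.cod_lt hF (RTM.rch_init x)
  have hH : Halts (M.cs x W T) (M.startN x W T) T 0 1 :=
    RTM.chain_halts hF (G.coins_le' x _ _)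
  have hlink : ∀ J, T ≤ J → ∀ j, M.probAt x (!w) T j M.init =
      hitC (M.cs x W T) (!!w).toNat J j (M.startN x W T) := by
    intro J hJ j
    rw [hstart]
    exact RTM.probAt_eq_hitC hF (!w) T 0 _ (by omega) (RTM.rch_init x) J hJ j
  exact follow2 (cs := M.cs x W T) (N0 := W ^ M.nd + 2) (N := N) (b := b)
    (g := g) (ρ := ρ) (T := T) (s := M.startN x W T)
    (right := (!w).toNat) (wrong := (!!w).toNat) (tot := tot)
    (sc := sc) hN (by omega) G.closed_cs hC hK hb hρ1 hρ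
    (by cases w <;> simp) hH hs' hY hclose
    (by rw [← hitC_zero, ← hlink T le_rfl 0]; exact herr)
    (by intro J hJ j; rw [← hlink J hJ j]; exact hexp j) T le_rfl

/-- The ideal automaton is close to the chain. -/
theorem As_close {l k N : ℕ} {cs : ℕ → Bool → ℕ} (h0 : 25 ≤ l) (h1 : 1 ≤ k)
    (h2 : 18816 * (l * k) ≤ 2 ^ l) (h3 : 1 ≤ N) (h4 : N ≤ 2 ^ (l * k)) (hc : Closed cs N)
    {s : ℕ} (hs : s ≤ k) {o : ℕ → ℕ} (ho : ∀ i, o i < (prm l k N).B) {u v : ℕ} (hu : u < N)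
    (hv : v < N) :
    |(scA (prm l k N) (As (prm l k N) (autW cs N 1) o s) u v : ℝ) / (prm l k N).Y -
      (cnt cs (2 ^ ((prm l k N).r * s)) u v : ℝ) / 2 ^ 2 ^ ((prm l k N).r * s)| ≤
      1 / (4 * (N : ℝ)) := by
  have h5 := As_RD (q := prm l k N) (cs := cs) (k := s) (o := o) hc
    (G.prm_ok h0 h1 h2 h3 h4) ho
  have h6 := RD.entry h5 ⟨u, hu⟩ ⟨v, hv⟩
  exact h6.trans (G.prm_err h0 h1 h2 h3 h4 hs)

/-- The conditions for the compression hold. -/
theorem prm_ok3 {l k N : ℕ} (h0 : 25 ≤ l) (h1 : 1 ≤ k) (h2 : 18816 * (l * k) ≤ 2 ^ l)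
    (h4 : N ≤ 2 ^ (l * k)) {s : ℕ} (hs : s ≤ k) : Ok3 (prm l k N) s := by
  have f3 : 25 ≤ l * k := by nlinarith only [h0, h1]
  have hk : s ≤ 2 ^ (l * k) := by
    have := tenk_le h0 h1
    omega
  have hp : (prm l k N).p * (prm l k N).p ≤ 2 ^ (40000 * (l * k) + 2) := by
    have e3 := Nat.mul_le_mul (Sel.prm_p_le l k N) (Sel.prm_p_le l k N)
    refine e3.trans (le_of_eq ?_)
    rw [show 40000 * (l * k) + 2 = 20000 * (l * k) + 20000 * (l * k) + 2 by ring, pow_add, pow_add]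
    ring
  have b1 : s * ((prm l k N).N1 ^ 2 * (prm l k N).th ^ 2) ≤ 2 ^ (131 * (l * k)) := by
    change s * ((prm l k N).N1 ^ 2 * (2 ^ (60 * (l * k))) ^ 2) ≤ _
    calc s * ((prm l k N).N1 ^ 2 * (2 ^ (60 * (l * k))) ^ 2) ≤
        2 ^ (l * k) * ((2 ^ (5 * (l * k))) ^ 2 * (2 ^ (60 * (l * k))) ^ 2) :=
          Nat.mul_le_mul hk (Nat.mul_le_mul_right _
            (Nat.pow_le_pow_left (G.prm_N1_le h0 h1 h2 h4) 2))
      _ = 2 ^ (131 * (l * k)) := by
          rw [← pow_mul, ← pow_mul, ← pow_add, ← pow_add]; congr 1; ring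
  have b2 : s * ((prm l k N).N2 ^ 2 * (prm l k N).th ^ 2) ≤ 2 ^ (135 * (l * k)) := by
    change s * ((prm l k N).N2 ^ 2 * (2 ^ (60 * (l * k))) ^ 2) ≤ _
    calc s * ((prm l k N).N2 ^ 2 * (2 ^ (60 * (l * k))) ^ 2) ≤
        2 ^ (l * k) * ((2 ^ (7 * (l * k))) ^ 2 * (2 ^ (60 * (l * k))) ^ 2) :=
          Nat.mul_le_mul hk (Nat.mul_le_mul_right _
            (Nat.pow_le_pow_left (G.prm_N2_le h0 h1 h2 h4) 2))
      _ = 2 ^ (135 * (l * k)) := by
          rw [← pow_mul, ← pow_mul, ← pow_add, ← pow_add]; congr 1; ring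
  refine ⟨?_, ?_⟩
  · calc 2 * ((prm l k N).p * (prm l k N).p) *
          (s * ((prm l k N).N1 ^ 2 * (prm l k N).th ^ 2)) ^ kb ≤
          2 ^ 1 * 2 ^ (40000 * (l * k) + 2) * (2 ^ (131 * (l * k))) ^ kb :=
          Nat.mul_le_mul (Nat.mul_le_mul (by norm_num) hp) (Nat.pow_le_pow_left b1 _)
      _ = 2 ^ (1 + (40000 * (l * k) + 2) + 131 * (l * k) * kb) := by
          rw [← pow_mul, ← pow_add, ← pow_add]
      _ ≤ 2 ^ (192 * (l * k) * kb) := by
          apply Nat.pow_le_pow_right (by norm_num)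
          unfold kb
          omega
      _ = (2 ^ (192 * (l * k))) ^ kb := by rw [← pow_mul]
      _ ≤ (prm l k N).Y ^ kb := Nat.pow_le_pow_left (G.yS_ge h0 h1 h2) _
  · calc 2 * ((prm l k N).p * (prm l k N).p) *
          (s * ((prm l k N).N2 ^ 2 * (prm l k N).th ^ 2)) ^ kb ≤
          2 ^ 1 * 2 ^ (40000 * (l * k) + 2) * (2 ^ (135 * (l * k))) ^ kb :=
          Nat.mul_le_mul (Nat.mul_le_mul (by norm_num) hp) (Nat.pow_le_pow_left b2 _)
      _ = 2 ^ (1 + (40000 * (l * k) + 2) + 135 * (l * k) * kb) := by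
          rw [← pow_mul, ← pow_add, ← pow_add]
      _ ≤ 2 ^ (384 * (l * k) * kb) := by
          apply Nat.pow_le_pow_right (by norm_num)
          unfold kb
          omega
      _ = (2 ^ (384 * (l * k))) ^ kb := by rw [← pow_mul]
      _ ≤ (prm l k N).Y2 ^ kb := Nat.pow_le_pow_left (G.prm_Y2_ge h0 h1 h2) _

/-- The size of a cell. -/
theorem B1_bound {l k N : ℕ} (h : 1 ≤ l * k) :
    B1 (prm l k N) ≤ 28002101 * (l * k) := by
  have hp : (prm l k N).p * (prm l k N).p ≤ 2 ^ (40000 * (l * k) + 2) := by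
    have e3 := Nat.mul_le_mul (Sel.prm_p_le l k N) (Sel.prm_p_le l k N)
    refine e3.trans (le_of_eq ?_)
    rw [show 40000 * (l * k) + 2 = 20000 * (l * k) + 20000 * (l * k) + 2 by ring, pow_add, pow_add]
    ring
  have h2 : ((prm l k N).p * (prm l k N).p) ^ kb ≤ 2 ^ ((40000 * (l * k) + 2) * kb) := by
    rw [pow_mul]
    exact Nat.pow_le_pow_left hp _
  have h3 := Nat.log_mono_right (b := 2) h2
  rw [Nat.log_pow (by norm_num)] at h3
  unfold B1
  unfold kb at h3 ⊢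
  omega

end Cat

end Vale.Agent.P313
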