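import Vale.Agent.P313.H463.CatDefs
import Vale.Agent.P313.H463.Cat11

/-!
The bounds for the machine with a catalytic tape.
-/

namespace Vale.Agent.P313

open Finset Sel

namespace Cat

section par

variable {M : RTM} {c : ℕ} {κ lam : List Bool → ℕ}

/-- The result of the final loop for the shifts `o`. -/
noncomputable def finC (M : RTM) (c : ℕ) (κ lam : List Bool → ℕ) (x : List Bool) (o : ℕ → ℕ) : ℕ :=
  (nxtV (scA (par M c 5 κ lam x) (As (par M c 5 κ lam x) (A0 M c x) o (sk M c 5 κ x)))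
    (par M c 5 κ lam x).Y (sN M c x))^[sT c x] (M.startN x (sW M c x) (sT c x))

theorem finC_right {S : ℕ → ℕ} (hM : M.Bounded (fun n => (n + 2) ^ c) S)
    (hS : ∀ n, S n ≤ c * Nat.log 2 (n + 2) + c) (x : List Bool) {ρ : ℕ}
    (hρ1 : 1 ≤ ρ) (hρ : ρ ≤ 2 ^ lam x) (w : Bool)
    (herr : M.probAt x (!w) (sT c x) 0 M.init ≤ 1 / 3)
    (hexp : ∀ j, M.probAt x (!w) (sT c x) j M.init ^ ρ * 2 ^ j ≤
      ((x.length + 2 : ℚ) ^ c) ^ ρ) {o : ℕ → ℕ} (ho : ∀ i, o i < (par M c 5 κ lam x).B) :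
    finC M c κ lam x o = (!w).toNat := by
  have hT1 : 1 ≤ sT c x := sT_pos x
  have hTq : (1 : ℚ) ≤ (sT c x : ℚ) := by exact_mod_cast hT1
  have hsk : sk M c 5 κ x ≤ pk M c 5 κ lam x := by
    have := pk_ge (M := M) (c := c) (e := 5) (κ := κ) (lam := lam) x
    omega
  have he : 5 ≤ 5 := le_rfl
  have hN16 := sN_pos (M := M) (c := c) x
  have hN2 : sW M c x ^ M.nd + 2 ≤ sN M c x := by unfold sN; omega
  have key : ∀ ρ', 1 ≤ ρ' → ρ' ≤ 2 ^ sl c lam x →
      (∀ j, M.probAt x (!w) (sT c x) j M.init ^ ρ' * 2 ^ j ≤ (sT c x : ℚ) ^ ρ') →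
      finC M c κ lam x o = (!w).toNat := by
    intro ρ' h1 h2 h3
    obtain ⟨e1, e2⟩ := G.split_pow ((Nat.mul_le_mul_right _ h2).trans
      (steps_ok (M := M) (c := c) (κ := κ) (lam := lam) he x)) h1
    exact fin_rightC (b := 2 ^ sb M c x)
      (g := 2 ^ ((par M c 5 κ lam x).r * sk M c 5 κ x - sb M c x)) (C := sT c x)
      (fit hM hS x) rfl hT1 (beta_ok x) Nat.one_le_two_pow h1 e2
      (lt_of_lt_of_le (Nat.two_pow_pos _) (G.yS_ge (pl_ge x) (pk_pos x) (pow_ok he x)))
      (fun v hv u hu => by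
        rw [e1]
        exact As_close (pl_ge x) (pk_pos x) (pow_ok he x) (by omega) (N_ok x)
          (G.closed_cs' hN2) hsk ho hv hu) w herr h3
  by_cases hk : lam x ≤ Nat.log 2 (sT c x) + 1
  · refine key ρ hρ1 ?_ ?_
    · have e1 : sl c lam x = lam x := min_eq_left hk
      rw [e1]; exact hρ
    · intro j
      refine (hexp j).trans (le_of_eq ?_)
      unfold sT
      push_cast
      rfl
  · have e1 : sl c lam x = Nat.log 2 (sT c x) + 1 := min_eq_right (not_le.1 hk).le
    refine key (sT c x) hT1 ?_ ?_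
    · rw [e1]
      exact (Nat.lt_pow_succ_log_self (b := 2) (by norm_num) (sT c x)).le
    · intro j
      exact (exp_T x (!w) herr j).trans (le_of_eq (by unfold sT; push_cast; rfl))

theorem two_J_le (x : List Bool) :
    2 ^ (par M c 5 κ lam x).J ≤ (par M c 5 κ lam x).P := by
  have h := par_ok (M := M) (c := c) (κ := κ) (lam := lam) (e := 5) le_rfl x
  rw [← h.hP]
  exact Nat.pow_le_pow_left h.ht _

theorem JT_pos (x : List Bool) : 0 < (par M c 5 κ lam x).JT := by
  have h3 : (par M c 5 κ lam x).JT =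
      pl M c 5 κ lam x / ltS (pk M c 5 κ lam x) + 1 + (par M c 5 κ lam x).J2 := rfl
  rw [h3]
  exact Nat.add_pos_left (Nat.succ_pos _) _

theorem machineC {S : ℕ → ℕ} (hM : M.Bounded (fun n => (n + 2) ^ c) S)
    (hS : ∀ n, S n ≤ c * Nat.log 2 (n + 2) + c) (hκ : LFx κ) (hl : LFx lam) :
    ∃ (D : RTM) (i : Fin D.tapes) (e : Bool → D.Sym) (E : ℕ), D.Deterministic ∧
      Function.Injective e ∧ (∀ b, e b ≠ D.blank) ∧
      ∀ (x w : List Bool) (v : Bool),
      3 * (par M c 5 κ lam x).JT * B1 (par M c 5 κ lam x) + 1 ≤ w.length →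
      (∀ o : ℕ → ℕ, (∀ i, o i < (par M c 5 κ lam x).B) → (finC M c κ lam x o = 0 ↔ v = true)) →
      (∀ T, (x.length + (par M c 5 κ lam x).XP ^ (60 * sk M c 5 κ x + 15) + 2) ^ E ≤ T →
        D.verdict (D.runC x (D.initC i e w) T).state = some v ∧
        (D.runC x (D.initC i e w) T).work i = Tape.ofWord D.blank e w) ∧
      ∀ t, (∀ j, j ≠ i → ((D.runC x (D.initC i e w) t).work j).cells ≤
          E * Nat.log 2 (x.length + (par M c 5 κ lam x).XP ^ (60 * sk M c 5 κ x + 15) + 2) + E) ∧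
        ((D.runC x (D.initC i e w) t).work i).cells = w.length ∧
        ∀ a ∈ ((D.runC x (D.initC i e w) t).work i).left ++
          ((D.runC x (D.initC i e w) t).work i).head ::
          ((D.runC x (D.initC i e w) t).work i).right, ∃ b, a = e b := by
  have he : 5 ≤ 5 := le_rfl
  have hsk : ∀ x, sk M c 5 κ x ≤ pk M c 5 κ lam x := fun x => by
    have := pk_ge (M := M) (c := c) (e := 5) (κ := κ) (lam := lam) x
    omega
  obtain ⟨D, i, e, E, hD, hinj, hbl, h⟩ :=
    TS.Q.cat_dec (par_prmC he hκ hl) (par_PK he hκ hl) (A0 := A0 M c)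
    (lf_A0 M (fun m => lfx_W.lf m) (fun m => lfx_T.lf m) (fun m => lfx_N.lf m))
    (ks := sk M c 5 κ) (st := fun x => M.startN x (sW M c x) (sT c x)) (Tt := sT c)
    (fun k => (lfx_k hκ).lf k) (fun k => M.lf_startN (lfx_W.lf k) (lfx_T.lf k))
    (fun k => lfx_T.lf k) (par_clip he) isAut_A0
    (fun x => by have := sN_pos (M := M) (c := c) x; exact (show 1 ≤ sN M c x by omega))
    (start_le hM hS) (stages_lt he) two_J_le JT_pos (fun x => sk_pos x)
    (fun x => ⟨_, par_ok he x⟩)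
    (fun x => G.prm_ok2 (pl_ge x) (pk_pos x) (pow_ok he x) (N_ok x) (hsk x))
    (fun x => prm_ok3 (pl_ge x) (pk_pos x) (pow_ok he x) (N_ok x) (hsk x))
  refine ⟨D, i, e, E, hD, hinj, hbl, fun x w v hw hv => ?_⟩
  obtain ⟨h1, h2⟩ := h x w (fun V => V = v.toNat) hw (fun M' o ho hX => by
    have h3 := hv o ho
    show Min.min (vfM _ _ _ _ _ _) 1 = v.toNat
    unfold vfM
    rw [hX _ le_rfl]
    unfold finC at h3
    change (nxtV _ _ (par M c 5 κ lam x).N)^[_] _ = 0 ↔ _ at h3
    cases v with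
    | true => rw [TS.ind_true (h3.2 rfl)]; rfl
    | false => rw [TS.ind_false (fun hc => absurd (h3.1 hc) (by simp))]; rfl)
  obtain ⟨V, hV, h3⟩ := h1
  refine ⟨fun T hT => ?_, h2⟩
  obtain ⟨h4, h5⟩ := h3 T hT
  refine ⟨?_, h5⟩
  rw [h4, hV]
  cases v <;> rfl

/-- The bounds in terms of the length of the input. -/
theorem machineC2 {S : ℕ → ℕ} (hM : M.Bounded (fun n => (n + 2) ^ c) S)
    (hS : ∀ n, S n ≤ c * Nat.log 2 (n + 2) + c) (hκ : LFx κ) (hl : LFx lam)
    (hκ1 : ∀ x, 1 ≤ κ x) :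
    ∃ (D : RTM) (i : Fin D.tapes) (e : Bool → D.Sym) (C : ℕ), D.Deterministic ∧
      Function.Injective e ∧ (∀ b, e b ≠ D.blank) ∧
      ∀ (x w : List Bool) (v : Bool),
      C * (Ln x * (Nat.log 2 (Ln x) + 1 + Qn κ lam x)) + 1 ≤ w.length →
      (∀ o : ℕ → ℕ, (∀ i, o i < (par M c 5 κ lam x).B) → (finC M c κ lam x o = 0 ↔ v = true)) →
      (∀ T, 2 ^ (C * (κ x * Ln x)) ≤ T →
        D.verdict (D.runC x (D.initC i e w) T).state = some v ∧
        (D.runC x (D.initC i e w) T).work i = Tape.ofWord D.blank e w) ∧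
      ∀ t, (∀ j, j ≠ i → ((D.runC x (D.initC i e w) t).work j).cells ≤
          C * (κ x * Ln x) + C) ∧
        ((D.runC x (D.initC i e w) t).work i).cells = w.length ∧
        ∀ a ∈ ((D.runC x (D.initC i e w) t).work i).left ++
          ((D.runC x (D.initC i e w) t).work i).head ::
          ((D.runC x (D.initC i e w) t).work i).right, ∃ b, a = e b := by
  obtain ⟨D, i, e, E, hD, hinj, hbl, h⟩ := machineC (M := M) (c := c) (κ := κ) (lam := lam)
    hM hS hκ hl
  obtain ⟨C1, hC1, hC⟩ := sh_le (M := M) (c := c)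
  set A := 31104001 with hA
  refine ⟨D, i, e, E * (A * C1) + 3 * (5 * C1 + 98) * (28002101 * (512 * C1)) + E, hD, hinj, hbl,
    fun x w v hw hv => ?_⟩
  have hk1 := hκ1 x
  have hlen : 3 * (par M c 5 κ lam x).JT * B1 (par M c 5 κ lam x) + 1 ≤ w.length := by
    refine le_trans ?_ hw
    apply Nat.succ_le_succ
    set R := Nat.log 2 (Ln x) + 1 + Qn κ lam x with hR
    have hJ := JT_le (M := M) (c := c) (κ := κ) (lam := lam) x hk1
    have hls := log_sh_le (M := M) (c := c) hC x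
    have hJ2 : (par M c 5 κ lam x).JT ≤ (5 * C1 + 98) * R := by
      have e1 : (par M c 5 κ lam x).JT ≤
          8 * Qn κ lam x + 5 * Nat.log 2 (Ln x) + 5 * C1 + 90 := by omega
      have e3 : (5 * C1 + 98) * R = (5 * C1 + 98) * Nat.log 2 (Ln x) + (5 * C1 + 98) +
          (5 * C1 + 98) * Qn κ lam x := by rw [hR]; ring
      have e5 : 5 * Nat.log 2 (Ln x) ≤ (5 * C1 + 98) * Nat.log 2 (Ln x) :=
        Nat.mul_le_mul_right _ (by omega)
      have e6 : 8 * Qn κ lam x ≤ (5 * C1 + 98) * Qn κ lam x := Nat.mul_le_mul_right _ (by omega)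
      omega
    have hXl : pl M c 5 κ lam x * pk M c 5 κ lam x ≤ 512 * sh M c x := by
      have := lk_le (M := M) (c := c) (κ := κ) (lam := lam) (e := 5) le_rfl x
      norm_num at this
      exact this
    have hX1 : 1 ≤ pl M c 5 κ lam x * pk M c 5 κ lam x :=
      Nat.mul_pos (by have := pl_ge (M := M) (c := c) (κ := κ) (lam := lam) (e := 5) x; omega)
        (pk_pos x)
    have hw' : B1 (par M c 5 κ lam x) ≤ 28002101 * (512 * C1) * Ln x := by
      refine (B1_bound hX1).trans ?_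
      calc 28002101 * (pl M c 5 κ lam x * pk M c 5 κ lam x) ≤ 28002101 * (512 * sh M c x) :=
            Nat.mul_le_mul_left _ hXl
        _ ≤ 28002101 * (512 * (C1 * Ln x)) :=
            Nat.mul_le_mul_left _ (Nat.mul_le_mul_left _ (hC x))
        _ = _ := by ring
    calc 3 * (par M c 5 κ lam x).JT * B1 (par M c 5 κ lam x) ≤
          3 * ((5 * C1 + 98) * R) * (28002101 * (512 * C1) * Ln x) :=
          Nat.mul_le_mul (Nat.mul_le_mul_left _ hJ2) hw'
      _ = 3 * (5 * C1 + 98) * (28002101 * (512 * C1)) * (Ln x * R) := by ring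
      _ ≤ _ := Nat.mul_le_mul_right _ (by omega)
  obtain ⟨h1, h2⟩ := h x w v hlen hv
  have hbud := bud_le (M := M) (c := c) (κ := κ) (lam := lam) x
  have hsk : sk M c 5 κ x ≤ κ x := sk_le (hκ1 x)
  have hhk : A * (sh M c x * sk M c 5 κ x) ≤ A * C1 * (κ x * Ln x) := by
    calc A * (sh M c x * sk M c 5 κ x) ≤ A * ((C1 * Ln x) * κ x) :=
          Nat.mul_le_mul_left _ (Nat.mul_le_mul (hC x) hsk)
      _ = A * C1 * (κ x * Ln x) := by ring
  refine ⟨fun T hT => h1 T (le_trans ?_ hT), fun t => ⟨fun j hj => ?_, (h2 t).2⟩⟩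
  · calc _ ≤ (2 ^ (A * (sh M c x * sk M c 5 κ x))) ^ E := Nat.pow_le_pow_left hbud E
      _ = 2 ^ (A * (sh M c x * sk M c 5 κ x) * E) := by rw [← pow_mul]
      _ ≤ _ := by
        apply Nat.pow_le_pow_right (by norm_num)
        calc A * (sh M c x * sk M c 5 κ x) * E ≤ A * C1 * (κ x * Ln x) * E :=
              Nat.mul_le_mul_right _ hhk
          _ = E * (A * C1) * (κ x * Ln x) := by ring
          _ ≤ _ := Nat.mul_le_mul_right _ (by omega)
  · refine ((h2 t).1 j hj).trans ?_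
    have hlog : Nat.log 2 (x.length + (par M c 5 κ lam x).XP ^ (60 * sk M c 5 κ x + 15) + 2) ≤
        A * C1 * (κ x * Ln x) := by
      have h3 := Nat.log_mono_right (b := 2) hbud
      rw [Nat.log_pow (by norm_num)] at h3
      exact h3.trans hhk
    calc _ ≤ E * (A * C1 * (κ x * Ln x)) + E := Nat.add_le_add_right (Nat.mul_le_mul_left _ hlog) _
      _ = E * (A * C1) * (κ x * Ln x) + E := by ring
      _ ≤ _ := Nat.add_le_add (Nat.mul_le_mul_right _ (by omega)) (by omega)

end par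

/-- From the natural form of the bounds to `CatTISP`. -/
theorem catTISP_of {Y N : Set (List Bool)} {κ u : ℕ → ℕ} {D : RTM} {C : ℕ}
    (hD : D.Deterministic)
    {i : Fin D.tapes} {e : Bool → D.Sym} (he : Function.Injective e) (hb : ∀ b, e b ≠ D.blank)
    (h : ∀ x w : List Bool, C * u x.length + C ≤ w.length →
      (∃ v : Bool, (x ∈ Y → v = true) ∧ (x ∈ N → v = false) ∧
        ∀ T, 2 ^ (C * (κ x.length * Ln x)) ≤ T →
        D.verdict (D.runC x (D.initC i e w) T).state = some v ∧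
        (D.runC x (D.initC i e w) T).work i = Tape.ofWord D.blank e w) ∧
      ∀ t, (∀ j, j ≠ i → ((D.runC x (D.initC i e w) t).work j).cells ≤
          C * (κ x.length * Ln x) + C) ∧
        ((D.runC x (D.initC i e w) t).work i).cells = w.length ∧
        ∀ a ∈ ((D.runC x (D.initC i e w) t).work i).left ++
          ((D.runC x (D.initC i e w) t).work i).head ::
          ((D.runC x (D.initC i e w) t).work i).right, ∃ b, a = e b) :
    CatTISP (fun n => (n + 2) ^ κ n) (fun n => κ n * Nat.log 2 (n + 2)) u Y N := by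
  refine ⟨D, C, hD, i, e, he, hb, fun x w hw => ?_⟩
  have hw2 : (C : ℝ) * (u x.length : ℝ) + C ≤ (w.length : ℝ) := hw
  have hw' : C * u x.length + C ≤ w.length := by exact_mod_cast hw2
  obtain ⟨⟨v, hv1, hv2, h1⟩, h2⟩ := h x w hw'
  refine ⟨⟨v, hv1, hv2, fun t ht => ?_⟩, fun t => ⟨fun j hj => ?_, (h2 t).2⟩⟩
  · have ht' : 2 ^ (C * (κ x.length * Ln x)) ≤ t := by
      have h3 : ((x.length + 2) ^ κ x.length) ^ C ≤ t := by
        have : ((((x.length + 2) ^ κ x.length) ^ C : ℕ) : ℝ) ≤ (t : ℝ) := by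
          push_cast
          push_cast at ht
          exact ht
        exact_mod_cast this
      refine le_trans ?_ h3
      have h4 : 2 ^ Ln x ≤ x.length + 2 := Nat.pow_log_le_self 2 (by omega)
      calc 2 ^ (C * (κ x.length * Ln x)) = ((2 ^ Ln x) ^ κ x.length) ^ C := by
            rw [← pow_mul, ← pow_mul]; congr 1; ring
        _ ≤ _ := Nat.pow_le_pow_left (Nat.pow_le_pow_left h4 _) _
    exact h1 t ht'
  · have := (h2 t).1 j hj
    show (((D.runC x (D.initC i e w) t).work j).cells : ℝ) ≤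
      C * ((κ x.length * Nat.log 2 (x.length + 2) : ℕ) : ℝ) + C
    exact_mod_cast this

/-- The same for languages. -/
theorem catTISP_ofL {A : Set (List Bool)} {κ u : ℕ → ℕ} {D : RTM} {C : ℕ}
    (hD : D.Deterministic)
    {i : Fin D.tapes} {e : Bool → D.Sym} (he : Function.Injective e) (hb : ∀ b, e b ≠ D.blank)
    (h : ∀ (x w : List Bool) (v : Bool), C * u x.length + C ≤ w.length → (v = true ↔ x ∈ A) →
      (∀ T, 2 ^ (C * (κ x.length * Ln x)) ≤ T →
        D.verdict (D.runC x (D.initC i e w) T).state = some v ∧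
        (D.runC x (D.initC i e w) T).work i = Tape.ofWord D.blank e w) ∧
      ∀ t, (∀ j, j ≠ i → ((D.runC x (D.initC i e w) t).work j).cells ≤
          C * (κ x.length * Ln x) + C) ∧
        ((D.runC x (D.initC i e w) t).work i).cells = w.length ∧
        ∀ a ∈ ((D.runC x (D.initC i e w) t).work i).left ++
          ((D.runC x (D.initC i e w) t).work i).head ::
          ((D.runC x (D.initC i e w) t).work i).right, ∃ b, a = e b) :
    CatTISP (fun n => (n + 2) ^ κ n) (fun n => κ n * Nat.log 2 (n + 2)) u A Aᶜ := by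
  classical
  refine catTISP_of (C := C) (i := i) hD he hb fun x w hw => ?_
  obtain ⟨h1, h2⟩ := h x w (decide (x ∈ A)) hw (by simp)
  refine ⟨⟨_, fun hx => by simp [hx], fun hx => ?_, h1⟩, h2⟩
  have hx' : x ∉ A := hx
  simp [hx']

/-- Machines whose error decays with rate `1 / ρ`. -/
theorem cat_rate {κ lam ρ : ℕ → ℕ} (hκ : LFx (fun x => κ x.length))
    (hl : LFx (fun x => lam x.length)) (hκ1 : ∀ n, 1 ≤ κ n) (hρ : ∀ n, 1 ≤ ρ n ∧ ρ n ≤ 2 ^ lam n)
    {A : Set (List Bool)} (hA : BPLrate ρ A) :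
    CatTISP (fun n => (n + 2) ^ κ n) (fun n => κ n * Nat.log 2 (n + 2))
      (fun n => Nat.log 2 (n + 2) * (Nat.log 2 (Nat.log 2 (n + 2)) + 1 +
        lam n / (κ n * (Nat.log 2 (κ n * (Nat.log 2 (n + 2) / lam n + 1)) + 1)))) A Aᶜ := by
  obtain ⟨M, c, hM, hE⟩ := hA
  obtain ⟨D, i, e, C, hD, he, hb, h⟩ := machineC2 hM (fun n => Nat.le_add_right _ _) hκ hl
    (fun x => hκ1 x.length)
  refine catTISP_ofL (C := C + 1) (i := i) hD he hb (fun x w v hw hv => ?_)
  obtain ⟨h1, h2⟩ := h x w v (by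
    refine le_trans ?_ hw
    refine Nat.add_le_add (Nat.mul_le_mul_right _ (Nat.le_succ _)) (by omega)) (fun o ho => by
      obtain ⟨h1, h2⟩ := hE x (!v) (by rw [← not_iff_not.2 hv]; cases v <;> simp)
      rw [finC_right (lam := fun x => lam x.length) (κ := fun x => κ x.length) hM
        (fun n => Nat.le_add_right _ _) x (hρ x.length).1 (hρ x.length).2 v h1 h2 ho]
      cases v <;> simp)
  refine ⟨fun T hT => h1 T (le_trans (Nat.pow_le_pow_right (by norm_num)
    (Nat.mul_le_mul_right _ (Nat.le_succ _))) hT), fun t => ⟨fun j hj => ?_, (h2 t).2⟩⟩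
  exact ((h2 t).1 j hj).trans (Nat.add_le_add (Nat.mul_le_mul_right _ (Nat.le_succ _))
    (Nat.le_succ _))

/-- `BPL` with a catalytic tape. -/
theorem cat_bpl {κ : ℕ → ℕ} (hκ : LFx (fun x => κ x.length)) (hκ1 : ∀ n, 1 ≤ κ n)
    {A : Set (List Bool)} (hA : BPL A) :
    CatTISP (fun n => (n + 2) ^ κ n) (fun n => κ n * Nat.log 2 (n + 2))
      (fun n => Nat.log 2 (n + 2) ^ 2 / (κ n * (Nat.log 2 (κ n) + 1)) +
        Nat.log 2 (n + 2) * Nat.log 2 (Nat.log 2 (n + 2))) A Aᶜ := by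
  obtain ⟨M, c, hM, hE⟩ := hA
  obtain ⟨D, i, e, C, hD, he, hb, h⟩ := machineC2 hM (fun n => Nat.le_add_right _ _) hκ
    (lam := fun x => Nat.log 2 (sT c x) + 1) (LF.log2 lfx_T).succ (fun x => hκ1 x.length)
  obtain ⟨d, hd⟩ := log_of_pb (lfx_T (c := c))
  refine catTISP_ofL (C := C * (d + 3) + 1) (i := i) hD he hb (fun x w v hw hv => ?_)
  have hCC : C ≤ C * (d + 3) + 1 :=
    (Nat.le_mul_of_pos_right C (by omega)).trans (Nat.le_succ _)
  obtain ⟨h1, h2⟩ := h x w v (by
    refine le_trans ?_ hw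
    show C * (Ln x * (Nat.log 2 (Ln x) + 1 + Qn (fun x => κ x.length)
      (fun x => Nat.log 2 (sT c x) + 1) x)) + 1 ≤ (C * (d + 3) + 1) *
      (Ln x ^ 2 / (κ x.length * (Nat.log 2 (κ x.length) + 1)) + Ln x * Nat.log 2 (Ln x)) +
      (C * (d + 3) + 1)
    set L := Ln x with hL
    have hL1 : 1 ≤ L := Ln_pos x
    set k := κ x.length with hk
    have hk1 : 1 ≤ k := hκ1 _
    set q := k * (Nat.log 2 k + 1) with hq
    have hq1 : 1 ≤ q := Nat.mul_pos (by omega) (Nat.succ_pos _)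
    set Y := L ^ 2 / q with hY
    have h2 : L * Qn (fun x => κ x.length) (fun x => Nat.log 2 (sT c x) + 1) x ≤
        (d + 1) * Y + (d + 1) := by
      have h3 : Qn (fun x => κ x.length) (fun x => Nat.log 2 (sT c x) + 1) x ≤
          ((d + 1) * L) / q := by
        unfold Qn
        refine (Nat.div_le_div_left (c := q) ?_ (by omega)).trans (Nat.div_le_div_right ?_)
        · apply Nat.mul_le_mul_left
          apply Nat.succ_le_succ
          apply Nat.log_mono_right
          exact Nat.le_mul_of_pos_right _ (Nat.succ_pos _)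
        · have h7 := hd x
          rw [← hL] at h7
          show Nat.log 2 (sT c x) + 1 ≤ (d + 1) * L
          rw [add_mul]
          omega
      calc _ ≤ L * (((d + 1) * L) / q) := Nat.mul_le_mul_left _ h3
        _ ≤ (L * ((d + 1) * L)) / q := Nat.mul_div_le_mul_div_assoc _ _ _
        _ = ((d + 1) * L ^ 2) / q := by congr 1; ring
        _ ≤ _ := mul_div_le' _ _ hq1 (by omega)
    have h4 : L ≤ L * Nat.log 2 L + 1 := by
      rcases Nat.lt_or_ge L 2 with h5 | h5
      · omega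
      · have h6 : 1 ≤ Nat.log 2 L := Nat.le_log_of_pow_le (by norm_num) (by omega)
        have := Nat.mul_le_mul_left L h6
        omega
    set W := Qn (fun x => κ x.length) (fun x => Nat.log 2 (sT c x) + 1) x with hW
    have h5 : L * (Nat.log 2 L + 1 + W) ≤ (d + 3) * (Y + L * Nat.log 2 L) + (d + 3) := by
      calc L * (Nat.log 2 L + 1 + W) = L * Nat.log 2 L + L + L * W := by ring
        _ ≤ L * Nat.log 2 L + (L * Nat.log 2 L + 1) + ((d + 1) * Y + (d + 1)) := by omega
        _ = 2 * (L * Nat.log 2 L) + (d + 1) * Y + (d + 2) := by ring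
        _ ≤ (d + 3) * (L * Nat.log 2 L) + (d + 3) * Y + (d + 3) :=
          Nat.add_le_add (Nat.add_le_add (Nat.mul_le_mul_right _ (by omega))
            (Nat.mul_le_mul_right _ (by omega))) (by omega)
        _ = _ := by ring
    calc C * (L * (Nat.log 2 L + 1 + W)) + 1 ≤
          C * ((d + 3) * (Y + L * Nat.log 2 L) + (d + 3)) + 1 :=
          Nat.add_le_add_right (Nat.mul_le_mul_left _ h5) _
      _ = C * (d + 3) * (Y + L * Nat.log 2 L) + (C * (d + 3) + 1) := by ring
      _ ≤ _ := Nat.add_le_add_right (Nat.mul_le_mul_right _ (Nat.le_succ _)) _) (fun o ho => by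
      have herr : M.probAt x (!v) (sT c x) 0 M.init ≤ 1 / 3 := by
        obtain ⟨h1, h2⟩ := hE x
        have h3 := probAt_add_le (M := M) x (sT c x) M.init
        cases v with
        | true =>
          have h4 := h1 (hv.1 rfl)
          change 2 / 3 ≤ M.probAt x true (sT c x) 0 M.init at h4
          show M.probAt x false (sT c x) 0 M.init ≤ 1 / 3
          linarith only [h3, h4]
        | false => exact h2 (by rw [← hv]; simp)
      rw [finC_right (lam := fun x => Nat.log 2 (sT c x) + 1) (κ := fun x => κ x.length) hM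
        (fun n => Nat.le_add_right _ _) x (sT_pos x)
        (Nat.lt_pow_succ_log_self (by norm_num) _).le v herr (exp_T x (!v) herr) ho]
      cases v <;> simp)
  refine ⟨fun T hT => h1 T (le_trans (Nat.pow_le_pow_right (by norm_num)
    (Nat.mul_le_mul_right _ hCC)) hT), fun t => ⟨fun j hj => ?_, (h2 t).2⟩⟩
  exact ((h2 t).1 j hj).trans (Nat.add_le_add (Nat.mul_le_mul_right _ hCC) hCC)

end Cat

end Vale.Agent.P313
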