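import Vale.Agent.P313.H463.Cat12

/-!
Real exponents.
-/

namespace Vale.Agent.P313

/-- `CatSolves` is monotone in the bounds. -/
theorem RTM.CatSolves.mono {M : RTM} {Y N : Set (List Bool)} {T S C T' S' C' : ℕ → ℝ}
    (h : M.CatSolves Y N T S C) (hT : ∀ n, T n ≤ T' n) (hS : ∀ n, S n ≤ S' n)
    (hC : ∀ n, C n ≤ C' n) : M.CatSolves Y N T' S' C' := by
  obtain ⟨hD, i, e, he, hb, h⟩ := h
  refine ⟨hD, i, e, he, hb, fun x w hw => ?_⟩
  obtain ⟨⟨v, h1, h2, h3⟩, h4⟩ := h x w ((hC _).trans hw)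
  exact ⟨⟨v, h1, h2, fun t ht => h3 t ((hT _).trans ht)⟩, fun t =>
    ⟨fun j hj => ((h4 t).1 j hj).trans (hS _), (h4 t).2⟩⟩

open Beta in
theorem cat_beta {Y N : Set (List Bool)} {a b : ℕ} (ha : 0 < a) (hb : 2 * a < b)
    {κ : ℕ → ℕ} (hκ : ∀ n, κ n ^ b ≤ Nat.log 2 (n + 2) ^ a ∧ Nat.log 2 (n + 2) ^ a < (κ n + 1) ^ b)
    (h : CatTISP (fun n => (n + 2) ^ κ n) (fun n => κ n * Nat.log 2 (n + 2))
      (fun n => Nat.log 2 (n + 2) ^ 2 / (κ n * (Nat.log 2 (κ n) + 1)) +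
        Nat.log 2 (n + 2) * Nat.log 2 (Nat.log 2 (n + 2))) Y N) :
    ∃ (M : RTM) (c : ℝ), M.CatSolves Y N
      (fun n => 2 ^ (c * Real.logb 2 (n + 2) ^ (1 + (a : ℝ) / b)))
      (fun n => c * Real.logb 2 (n + 2) ^ (1 + (a : ℝ) / b))
      (fun n => c * Real.logb 2 (n + 2) ^ (2 - (a : ℝ) / b) /
        Real.logb 2 (Real.logb 2 (n + 2) + 1)) := by
  obtain ⟨M, c, hM⟩ := h
  have hb0 : 0 < b := by omega
  have haR : (0 : ℝ) < a := by exact_mod_cast ha
  have hbR : (0 : ℝ) < b := by exact_mod_cast hb0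
  set β : ℝ := (a : ℝ) / b with hβ
  have hβ0 : 0 < β := by positivity
  have hβ2 : 0 < 1 - 2 * β := by
    have : 2 * (a : ℝ) < b := by exact_mod_cast hb
    rw [hβ, sub_pos, ← mul_div_assoc, div_lt_one hbR]
    exact this
  set C1 : ℝ := 4 * (2 + (b : ℝ) / a) with hC1
  set ε : ℝ := (1 - β) / 2 with hε
  have hε0 : 0 < ε := by rw [hε]; linarith only [hβ2, hβ0]
  have hε1 : ε ≤ 1 := by rw [hε]; linarith only [hβ2, hβ0]
  set C2 : ℝ := (4 / ε) ^ 2 with hC2
  set C3 : ℝ := 4 / (1 - 2 * β) with hC3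
  have hC1p : 0 < C1 := by positivity
  have hC2p : 0 < C2 := by (clear * - hε0; positivity)
  have hC3p : 0 < C3 := by (clear * - hβ2; positivity)
  have hlL : ∀ n : ℕ, (Nat.log 2 (n + 2) : ℝ) ≤ Real.logb 2 (n + 2) := by
    intro n
    have := Real.natLog_le_logb (n + 2) 2
    push_cast at this
    exact this
  have hLR : ∀ n : ℕ, (1 : ℝ) ≤ Nat.log 2 (n + 2) := by
    intro n
    have hL : 1 ≤ Nat.log 2 (n + 2) := Nat.log_pos (by norm_num) (by omega)
    exact_mod_cast hL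
  have hkl : ∀ n : ℕ, (κ n : ℝ) * Nat.log 2 (n + 2) ≤ Real.logb 2 (n + 2) ^ (1 + β) := by
    intro n
    have h0 := hlL n
    have h00 := hLR n
    have h1 := kap_le hb0 (hκ n).1
    have h2 : (Nat.log 2 (n + 2) : ℝ) ^ β ≤ Real.logb 2 (n + 2) ^ β :=
      Real.rpow_le_rpow (by linarith only []) h0 hβ0.le
    rw [Real.rpow_add (by linarith only [h0, h00]), Real.rpow_one, mul_comm]
    exact mul_le_mul h0 (h1.trans h2) (Nat.cast_nonneg _) (by linarith only [h0, h00])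
  have hc0 : (0 : ℝ) ≤ c := Nat.cast_nonneg _
  refine ⟨M, c * (2 + C1 + C2 + C3), hM.mono (fun n => ?_) (fun n => ?_) (fun n => ?_)⟩
  · have h0 := hlL n
    have h00 := hLR n
    set l := Real.logb 2 ((n : ℝ) + 2) with hl
    have hl1 : 1 ≤ l := h00.trans h0
    have h1 := kap_le hb0 (hκ n).1
    have h2 : (Nat.log 2 (n + 2) : ℝ) ^ β ≤ l ^ β :=
      Real.rpow_le_rpow (by linarith only []) h0 hβ0.le
    have h3 : ((n : ℝ) + 2) = 2 ^ l := by
      rw [hl, Real.rpow_logb (by norm_num) (by norm_num) (by (clear * -; positivity))]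
    have h4 : ((((n + 2) ^ κ n : ℕ) : ℝ)) ^ c = 2 ^ (l * κ n * c) := by
      push_cast
      have h30 : (0 : ℝ) ≤ 2 ^ l := Real.rpow_nonneg (by norm_num) _
      rw [h3, ← Real.rpow_natCast, ← Real.rpow_natCast, ← Real.rpow_mul h30,
        ← Real.rpow_mul (by norm_num), mul_assoc]
    show ((((n + 2) ^ κ n : ℕ) : ℝ)) ^ c ≤ _
    rw [h4]
    refine Real.rpow_le_rpow_of_exponent_le (by norm_num) ?_
    have h5 : l * (κ n : ℝ) ≤ l ^ (1 + β) := by
      rw [Real.rpow_add (by linarith only [h0, h00]), Real.rpow_one]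
      exact mul_le_mul_of_nonneg_left (h1.trans h2) (by linarith only [h0, h00])
    have h7 : 0 ≤ l ^ (1 + β) := Real.rpow_nonneg (by linarith only [h0, h00]) _
    calc l * κ n * c ≤ l ^ (1 + β) * c := mul_le_mul_of_nonneg_right h5 hc0
      _ = c * 1 * l ^ (1 + β) := by ring
      _ ≤ c * (2 + C1 + C2 + C3) * l ^ (1 + β) := by
          apply mul_le_mul_of_nonneg_right _ h7
          apply mul_le_mul_of_nonneg_left _ hc0
          linarith only [hC1p, hC2p, hC3p]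
  · have h0 := hlL n
    have h00 := hLR n
    have h1 := hkl n
    set l := Real.logb 2 ((n : ℝ) + 2) with hl
    have hl1 : 1 ≤ l := h00.trans h0
    have h5 : 1 ≤ l ^ (1 + β) := Real.one_le_rpow hl1 (by linarith only [hβ0])
    show (c : ℝ) * ((κ n * Nat.log 2 (n + 2) : ℕ) : ℝ) + c ≤ _
    push_cast
    calc (c : ℝ) * (κ n * Nat.log 2 (n + 2)) + c = c * (κ n * Nat.log 2 (n + 2) + 1) := by ring
      _ ≤ c * ((2 + C1 + C2 + C3) * l ^ (1 + β)) := by
          apply mul_le_mul_of_nonneg_left _ hc0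
          have h6 : 0 ≤ (C1 + C2 + C3) * l ^ (1 + β) := by positivity
          have e : (2 + C1 + C2 + C3) * l ^ (1 + β) = 2 * l ^ (1 + β) +
            (C1 + C2 + C3) * l ^ (1 + β) := by ring
          rw [e]
          linarith only [h1, h5, h6]
      _ = _ := by ring
  · have h0 := hlL n
    have h00 := hLR n
    have hL : 1 ≤ Nat.log 2 (n + 2) := Nat.log_pos (by norm_num) (by omega)
    have hlt : Real.logb 2 ((n : ℝ) + 2) < Nat.log 2 (n + 2) + 1 := by
      have h2 := Nat.lt_pow_succ_log_self (b := 2) (by norm_num) (n + 2)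
      have h3 : ((n : ℝ) + 2) < 2 ^ ((Nat.log 2 (n + 2) : ℝ) + 1) := by
        have h4 : ((n + 2 : ℕ) : ℝ) < ((2 ^ (Nat.log 2 (n + 2) + 1) : ℕ) : ℝ) := by
          exact_mod_cast h2
        have h5 : (2 : ℝ) ^ ((Nat.log 2 (n + 2) : ℝ) + 1) = 2 ^ (Nat.log 2 (n + 2) + 1) := by
          rw [← Real.rpow_natCast]
          push_cast
          rfl
        rw [h5]
        push_cast at h4
        exact h4
      rw [Real.logb_lt_iff_lt_rpow (by norm_num) (by (clear * -; positivity))]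
      exact h3
    set l := Real.logb 2 ((n : ℝ) + 2) with hl
    have hl1 : 1 ≤ l := h00.trans h0
    have h1 := space_bd ha hb hL h0 hlt (hκ n).1 (hκ n).2
    rw [← hβ] at h1
    have hlog : 0 < Real.logb 2 (l + 1) := Real.logb_pos (by norm_num) (by linarith only [hl1])
    have h3 : 1 ≤ C3 * (l ^ (2 - β) / Real.logb 2 (l + 1)) := by
      have h4 := logb_le hβ2 (by linarith only [hβ0]) hl1
      have h5 : l ^ (1 - 2 * β) ≤ l ^ (2 - β) :=
        Real.rpow_le_rpow_of_exponent_le hl1 (by linarith only [hβ0])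
      rw [← mul_div_assoc, one_le_div hlog]
      exact h4.trans (mul_le_mul_of_nonneg_left h5 hC3p.le)
    have h2 : (Nat.log 2 (n + 2) : ℝ) * Nat.log 2 (Nat.log 2 (n + 2)) ≤
        C2 * (l ^ (2 - β) / Real.logb 2 (l + 1)) := by
      have e1 : (Nat.log 2 (Nat.log 2 (n + 2)) : ℝ) ≤ Real.logb 2 (l + 1) := by
        refine (Real.natLog_le_logb _ _).trans ?_
        exact Real.logb_le_logb_of_le (by norm_num) (by linarith only [h00])
          (by push_cast; linarith only [h0])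
      have e2 := logb_le hε0 hε1 hl1
      have e3 : (Nat.log 2 (n + 2) : ℝ) * Nat.log 2 (Nat.log 2 (n + 2)) ≤
          l * Real.logb 2 (l + 1) :=
        mul_le_mul h0 e1 (Nat.cast_nonneg _) (by linarith only [hl1])
      refine e3.trans ?_
      rw [← mul_div_assoc, le_div_iff₀ hlog]
      have e4 : Real.logb 2 (l + 1) * Real.logb 2 (l + 1) ≤ (4 / ε * l ^ ε) * (4 / ε * l ^ ε) :=
        mul_le_mul e2 e2 hlog.le (hlog.le.trans e2)
      have e5 : (l : ℝ) * (l ^ ε * l ^ ε) = l ^ (2 - β) := by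
        rw [← Real.rpow_add (by linarith only [hl1])]
        nth_rewrite 1 [← Real.rpow_one l]
        rw [← Real.rpow_add (by linarith only [hl1])]
        congr 1
        rw [hε]; ring
      calc l * Real.logb 2 (l + 1) * Real.logb 2 (l + 1) =
            l * (Real.logb 2 (l + 1) * Real.logb 2 (l + 1)) := by ring
        _ ≤ l * ((4 / ε * l ^ ε) * (4 / ε * l ^ ε)) :=
            mul_le_mul_of_nonneg_left e4 (by linarith only [hl1])
        _ = C2 * (l * (l ^ ε * l ^ ε)) := by rw [hC2]; ring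
        _ = C2 * l ^ (2 - β) := by rw [e5]
    have h6 : (((Nat.log 2 (n + 2) ^ 2 / (κ n * (Nat.log 2 (κ n) + 1)) : ℕ)) : ℝ) ≤
        (Nat.log 2 (n + 2) : ℝ) ^ 2 / (κ n * (Nat.log 2 (κ n) + 1)) := by
      have := Nat.cast_div_le (α := ℝ) (m := Nat.log 2 (n + 2) ^ 2)
        (n := κ n * (Nat.log 2 (κ n) + 1))
      push_cast at this
      exact this
    set X : ℝ := l ^ (2 - β) / Real.logb 2 (l + 1) with hX
    have hX0 : 0 ≤ X := by
      have : 0 ≤ l ^ (2 - β) := Real.rpow_nonneg (by linarith only [hl1]) _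
      (clear * - hl1 hlog; positivity)
    show (c : ℝ) * ((Nat.log 2 (n + 2) ^ 2 / (κ n * (Nat.log 2 (κ n) + 1)) +
      Nat.log 2 (n + 2) * Nat.log 2 (Nat.log 2 (n + 2)) : ℕ) : ℝ) + c ≤ _
    push_cast at h6 ⊢
    have h7 : (((Nat.log 2 (n + 2) ^ 2 / (κ n * (Nat.log 2 (κ n) + 1)) : ℕ)) : ℝ) +
        Nat.log 2 (n + 2) * Nat.log 2 (Nat.log 2 (n + 2)) + 1 ≤ (2 + C1 + C2 + C3) * X := by
      have : (2 + C1 + C2 + C3) * X = 2 * X + C1 * X + C2 * X + C3 * X := by ring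
      linarith only [h6, h1, h2, h3, hX0, this]
    calc _ = (c : ℝ) * ((((Nat.log 2 (n + 2) ^ 2 / (κ n * (Nat.log 2 (κ n) + 1)) : ℕ)) : ℝ) +
        Nat.log 2 (n + 2) * Nat.log 2 (Nat.log 2 (n + 2)) + 1) := by push_cast; ring
      _ ≤ c * ((2 + C1 + C2 + C3) * X) := mul_le_mul_of_nonneg_left h7 hc0
      _ = c * (2 + C1 + C2 + C3) * l ^ (2 - β) / Real.logb 2 (l + 1) := by rw [hX]; ring

/-- Real exponents for `BPL`. -/
theorem cat_real (a b : ℕ) (ha : 0 < a) (hb : 2 * a < b) (A : Set (List Bool)) (hA : BPL A) :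
    ∃ (M : RTM) (c : ℝ), M.CatSolves A Aᶜ
      (fun n => 2 ^ (c * Real.logb 2 (n + 2) ^ (1 + (a : ℝ) / b)))
      (fun n => c * Real.logb 2 (n + 2) ^ (1 + (a : ℝ) / b))
      (fun n => c * Real.logb 2 (n + 2) ^ (2 - (a : ℝ) / b) /
        Real.logb 2 (Real.logb 2 (n + 2) + 1)) := by
  refine cat_beta ha hb (κ := fun n => rt a b (Nat.log 2 (n + 2)))
    (fun n => rt_spec (by omega)) ?_
  exact Cat.cat_bpl (lfx_rt a b)
    (fun n => rt_pos (Nat.le_log_of_pow_le (by norm_num) (by omega)) (by omega)) hA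

/-- `CatTISP` is monotone. -/
theorem CatTISP.mono {t s u t' s' u' : ℕ → ℕ} {Y N : Set (List Bool)} (h : CatTISP t s u Y N)
    (d : ℕ) (ht : ∀ n, 1 ≤ t' n ∧ t n ≤ t' n) (hs : ∀ n, s n ≤ d * s' n + d)
    (hu : ∀ n, u n ≤ d * u' n + d) : CatTISP t' s' u' Y N := by
  obtain ⟨M, c, h⟩ := h
  refine ⟨M, c * (d + 1), h.mono (fun n => ?_) (fun n => ?_) (fun n => ?_)⟩
  · have h1 : (1 : ℝ) ≤ t' n := by exact_mod_cast (ht n).1
    have h2 : (t n : ℝ) ≤ t' n := by exact_mod_cast (ht n).2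
    calc (t n : ℝ) ^ c ≤ (t' n : ℝ) ^ c := pow_le_pow_left₀ (Nat.cast_nonneg _) h2 c
      _ ≤ (t' n : ℝ) ^ (c * (d + 1)) := pow_le_pow_right₀ h1 (Nat.le_mul_of_pos_right c (by omega))
  · have h1 : c * s n + c ≤ c * (d + 1) * s' n + c * (d + 1) := by
      calc c * s n + c ≤ c * (d * s' n + d) + c := Nat.add_le_add_right (Nat.mul_le_mul_left _ (hs n)) _
        _ = c * d * s' n + c * (d + 1) := by ring
        _ ≤ _ := Nat.add_le_add_right (Nat.mul_le_mul_right _ (Nat.mul_le_mul_left _ (Nat.le_succ _))) _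
    show ((c : ℝ) * s n + c) ≤ ((c * (d + 1) : ℕ) : ℝ) * s' n + ((c * (d + 1) : ℕ) : ℝ)
    exact_mod_cast h1
  · have h1 : c * u n + c ≤ c * (d + 1) * u' n + c * (d + 1) := by
      calc c * u n + c ≤ c * (d * u' n + d) + c := Nat.add_le_add_right (Nat.mul_le_mul_left _ (hu n)) _
        _ = c * d * u' n + c * (d + 1) := by ring
        _ ≤ _ := Nat.add_le_add_right (Nat.mul_le_mul_right _ (Nat.mul_le_mul_left _ (Nat.le_succ _))) _
    show ((c : ℝ) * u n + c) ≤ ((c * (d + 1) : ℕ) : ℝ) * u' n + ((c * (d + 1) : ℕ) : ℝ)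
    exact_mod_cast h1

/-- Polynomial time, clean space `O(log n)`, a catalytic tape of `O(log ^ 2 n)` bits. -/
theorem cat_one {A : Set (List Bool)} (hA : BPL A) :
    CatTISP (fun n => n + 2) (fun n => Nat.log 2 (n + 2)) (fun n => Nat.log 2 (n + 2) ^ 2)
      A Aᶜ := by
  refine (Cat.cat_bpl (κ := fun _ => 1) (LF.const 1) (fun _ => le_rfl) hA).mono 2
    (fun n => ⟨by omega, by simp⟩) (fun n => ?_) (fun n => ?_)
  · omega
  · have h1 : Nat.log 2 (Nat.log 2 (n + 2)) ≤ Nat.log 2 (n + 2) := Nat.log_le_self _ _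
    have h2 := Nat.mul_le_mul_left (Nat.log 2 (n + 2)) h1
    rw [← sq] at h2
    have h3 : Nat.log 2 (n + 2) ^ 2 / (1 * (Nat.log 2 1 + 1)) ≤ Nat.log 2 (n + 2) ^ 2 :=
      Nat.div_le_self _ _
    omega

end Vale.Agent.P313
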