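import Vale.Agent.P313.H463.Cat13
import Vale.Agent.P313.H303.RCor

/-!
Comparing two entries with very small error, with a catalytic tape.
-/

namespace Vale.Agent.P313

open Finset

namespace RI

variable (Q : Chm) (e : ℕ) (κ : List Bool → ℕ)

/-- The approximations of the entries of the powers for the shifts `o`. -/
noncomputable def aO (o : ℕ → ℕ) (x : List Bool) (c v u : ℕ) : ℕ :=
  if c * Q.N0 x + v ≤ (prD Q e κ x).N then
    Cat.scA (prD Q e κ x) (Cat.As (prD Q e κ x) (AD Q e x) o (ksD Q e κ x))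
      (c * Q.N0 x + v) u else 0

/-- The numerator of the approximation for the shifts `o`. -/
noncomputable def numO (o : ℕ → ℕ) (x : List Bool) (s u : ℕ) : ℕ :=
  num (Q.cs x) (Q.N0 x) (prD Q e κ x).Y (cD Q e κ x) (aO Q e κ o x) ((Q.T x + 1) * Q.N0 x)
    (Q.T x) s u (κ x + 1)

variable {Q e κ}

/-- The approximations are close. -/
theorem aO_ok (x : List Bool) {o : ℕ → ℕ} (ho : ∀ i, o i < (prD Q e κ x).B) :
    ∀ c ≤ Q.T x, ∀ v < Q.N0 x, ∀ u < Q.N0 x,
    |(aO Q e κ o x c v u : ℚ) - (prD Q e κ x).Y * hit (Q.cs x) u c v| ≤ cD Q e κ x := by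
  intro c hc v hv u hu
  have h0 := CH.pl_ge (Q := dum Q e) (κ := κ) (lam := lamD Q e) (e := 5) x
  have h1 := CH.pk_pos (Q := dum Q e) (κ := κ) (lam := lamD Q e) (e := 5) x
  have h2 := CH.pow_ok (Q := dum Q e) (κ := κ) (lam := lamD Q e) (e := 5) (by norm_num) x
  have h3 := CH.N_ok (Q := dum Q e) (κ := κ) (lam := lamD Q e) (e := 5) x
  have hN1 := Nc_le (Q := Q) (e := e) x
  have hN2 := CH.sN_pos (Q := dum Q e) x
  have hsk : CH.sk (dum Q e) 5 κ x ≤ CH.pk (dum Q e) 5 κ (lamD Q e) x := by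
    have := CH.pk_ge (Q := dum Q e) (e := 5) (κ := κ) (lam := lamD Q e) x
    omega
  have hcN : c * Q.N0 x + v < (Q.T x + 1) * Q.N0 x := by
    calc c * Q.N0 x + v < c * Q.N0 x + Q.N0 x := by omega
      _ = (c + 1) * Q.N0 x := by ring
      _ ≤ _ := Nat.mul_le_mul_right _ (by omega)
  have huN : u < (Q.T x + 1) * Q.N0 x := lt_of_lt_of_le hu (Nat.le_mul_of_pos_left _ (by omega))
  have h5 := Cat.As_close h0 h1 h2 (show 1 ≤ CH.sN (dum Q e) x by omega) h3
    (ckb_closed (Q.N_pos x) (Q.cl x) (CH.sN (dum Q e) x)) hsk (o := o) ho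
    (show c * Q.N0 x + v < CH.sN (dum Q e) x by omega) (show u < CH.sN (dum Q e) x by omega)
  have h6 : |(Cat.scA (prD Q e κ x) (Cat.As (prD Q e κ x) (AD Q e x) o (ksD Q e κ x))
      (c * Q.N0 x + v) u : ℚ) /
      ((prD Q e κ x).Y : ℚ) - (cnt (ckb (Q.N0 x) (Q.δ x))
        (2 ^ ((prD Q e κ x).r * ksD Q e κ x)) (c * Q.N0 x + v) u : ℚ) /
          2 ^ (2 ^ ((prD Q e κ x).r * ksD Q e κ x))| ≤
      (1 / (4 * (CH.sN (dum Q e) x : ℚ)) : ℚ) := by
    rw [← Rat.cast_le (K := ℝ)]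
    push_cast
    exact h5
  rw [← hit_eq_cnt, hit_ck (Q.N_pos x) (Q.cl x) c _ v (hc.trans (T_le x)) hv] at h6
  have h7 : aO Q e κ o x c v u =
      Cat.scA (prD Q e κ x) (Cat.As (prD Q e κ x) (AD Q e x) o (ksD Q e κ x))
      (c * Q.N0 x + v) u := by
    unfold aO
    rw [if_pos (by rw [N_eq]; omega)]
  rw [h7]
  exact close_aux (Y_pos x) (show 0 < CH.sN (dum Q e) x by omega) h6

/-- The comparison is right when the probabilities are not too close. -/
theorem numO_sep (x : List Bool) {o : ℕ → ℕ} (ho : ∀ i, o i < (prD Q e κ x).B)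
    {s1 u1 s2 u2 : ℕ}
    (hs1 : s1 < Q.N0 x) (hu1 : u1 < Q.N0 x) (hs2 : s2 < Q.N0 x) (hu2 : u2 < Q.N0 x) :
    (hit (Q.cs x) u2 (Q.T x) s2 + 1 / ((x.length : ℚ) + 2) ^ (e * κ x) ≤
      hit (Q.cs x) u1 (Q.T x) s1 → numO Q e κ o x s2 u2 ≤ numO Q e κ o x s1 u1) ∧
    (hit (Q.cs x) u1 (Q.T x) s1 + 1 / ((x.length : ℚ) + 2) ^ (e * κ x) ≤
      hit (Q.cs x) u2 (Q.T x) s2 → ¬ numO Q e κ o x s2 u2 ≤ numO Q e κ o x s1 u1) := by
  have hP : (1 : ℚ) ≤ ((x.length : ℚ) + 2) ^ e := by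
    apply one_le_pow₀
    have : (0 : ℚ) ≤ (x.length : ℚ) := Nat.cast_nonneg _
    linarith
  have hε := eta_pow_lt' hP (κ x)
  rw [← pow_mul] at hε
  have hY := Y_pos (Q := Q) (e := e) (κ := κ) x
  have hη := eta_le (Q := Q) (e := e) (κ := κ) x
  have ha := aO_ok (Q := Q) (e := e) (κ := κ) x ho
  have h1 := PP_err hY (Q.closed x) ha hs1 hη (κ x + 1) (Q.T x) u1 le_rfl hu1
  have h2 := PP_err hY (Q.closed x) ha hs2 hη (κ x + 1) (Q.T x) u2 le_rfl hu2
  have n1 := num_eq (cs := Q.cs x) (c0 := cD Q e κ x) (a := aO Q e κ o x) (T := Q.T x) (Q.N_pos x)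
    hY rfl (s := s1) hu1 (κ x + 1)
  have n2 := num_eq (cs := Q.cs x) (c0 := cD Q e κ x) (a := aO Q e κ o x) (T := Q.T x) (Q.N_pos x)
    hY rfl (s := s2) hu2 (κ x + 1)
  change (numO Q e κ o x s1 u1 : ℚ) = _ at n1
  change (numO Q e κ o x s2 u2 : ℚ) = _ at n2
  have hYq : (0 : ℚ) < ((prD Q e κ x).Y : ℚ) := Nat.cast_pos.2 hY
  generalize (numO Q e κ o x s1 u1) = A1 at *
  generalize (numO Q e κ o x s2 u2) = A2 at *
  generalize PP (Q.cs x) (Q.N0 x) (prD Q e κ x).Y (cD Q e κ x) (aO Q e κ o x) s1 (κ x + 1)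
    (Q.T x) u1 = P1 at *
  generalize PP (Q.cs x) (Q.N0 x) (prD Q e κ x).Y (cD Q e κ x) (aO Q e κ o x) s2 (κ x + 1)
    (Q.T x) u2 = P2 at *
  have hD : (0 : ℚ) < ((prD Q e κ x).Y : ℚ) * (2 * ((prD Q e κ x).Y : ℚ)) ^ (κ x + 1) :=
    mul_pos hYq (pow_pos (by linarith) _)
  generalize ((prD Q e κ x).Y : ℚ) * (2 * ((prD Q e κ x).Y : ℚ)) ^ (κ x + 1) = D at *
  constructor
  · intro h
    have h3 : P2 ≤ P1 := by linarith [h1.2, h2.1]
    have h4 : (A2 : ℚ) ≤ A1 := by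
      rw [n1, n2]
      exact mul_le_mul_of_nonneg_right h3 hD.le
    exact_mod_cast h4
  · intro h hc
    have h3 : P1 < P2 := by linarith [h1.1, h2.2]
    have h4 : (A1 : ℚ) < A2 := by
      rw [n1, n2]
      exact mul_lt_mul_of_pos_right h3 hD
    have h5 : A1 < A2 := by exact_mod_cast h4
    omega

end RI

namespace TS.Q

open RI Finset

/-- The comparison as a machine with a catalytic tape. -/
theorem cat_dec4 (Q : Chm) (e : ℕ) {κ s1 u1 s2 u2 : List Bool → ℕ} (hκ : Sel.LFx κ)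
    (hs1 : Sel.LFx s1) (hu1 : Sel.LFx u1) (hs2 : Sel.LFx s2) (hu2 : Sel.LFx u2) :
    ∃ (D : RTM) (i : Fin D.tapes) (e' : Bool → D.Sym) (E : ℕ), D.Deterministic ∧
      Function.Injective e' ∧ (∀ b, e' b ≠ D.blank) ∧
      ∀ (x w : List Bool) (VB : Bool → Prop),
      3 * (prD Q e κ x).JT * Cat.B1 (prD Q e κ x) + 1 ≤ w.length →
      (∀ o : ℕ → ℕ, (∀ i, o i < (prD Q e κ x).B) → ∀ v : Bool,
        (v = true ↔ numO Q e κ o x (s2 x) (u2 x) ≤ numO Q e κ o x (s1 x) (u1 x)) → VB v) →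
      (∃ v : Bool, VB v ∧ ∀ T, (x.length + bdD Q e κ x + 2) ^ E ≤ T →
        D.verdict (D.runC x (D.initC i e' w) T).state = some v ∧
        (D.runC x (D.initC i e' w) T).work i = Tape.ofWord D.blank e' w) ∧
      ∀ t, (∀ j, j ≠ i → ((D.runC x (D.initC i e' w) t).work j).cells ≤
          E * Nat.log 2 (x.length + bdD Q e κ x + 2) + E) ∧
        ((D.runC x (D.initC i e' w) t).work i).cells = w.length ∧
        ∀ a ∈ ((D.runC x (D.initC i e' w) t).work i).left ++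
          ((D.runC x (D.initC i e' w) t).work i).head ::
          ((D.runC x (D.initC i e' w) t).work i).right, ∃ b, a = e' b := by
  set π : List Bool → Prm := prD Q e κ with hπd
  set A0 := AD Q e with hA0d
  set ks := ksD Q e κ with hksd
  have hlam := lfx_lamD Q e
  have hπ : PrmC π := CH.par_prmC (by norm_num) hκ hlam
  have hPK : ∀ k, P313.LF (fun x _ => (2 * (π x).P) ^ (π x).K : P313.Fn k) :=
    CH.par_PK (by norm_num) hκ hlam
  have hA0L : P313.LF (fun x a => A0 x (a 0) (a 1) : P313.Fn 2) := lf_AD Q e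
  have hclip : ∀ x, (π x).Clip := CH.par_clip (by norm_num)
  have hA0 : ∀ x, IsAut (A0 x) (π x).N := fun x =>
    isAut_autW (ckb_closed (Q.N_pos x) (Q.cl x) _) 1
  have hiks : ∀ x, 4 * ks x < (π x).XP ^ 5 := CH.stages_lt (by norm_num)
  have hT := PrmT.of hπ hPK
  have lks : ∀ k, LF (fun I _ => ks I.word : Fn k) := fun k => LF.ofOld ((CH.lfx_k hκ).lf k)
  have lκ : ∀ k, LF (fun I _ => κ I.word : Fn k) := fun k => LF.ofOld (hκ.lf k)
  have ls1 : ∀ k, LF (fun I _ => s1 I.word : Fn k) := fun k => LF.ofOld (hs1.lf k)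
  have lu1 : ∀ k, LF (fun I _ => u1 I.word : Fn k) := fun k => LF.ofOld (hu1.lf k)
  have ls2 : ∀ k, LF (fun I _ => s2 I.word : Fn k) := fun k => LF.ofOld (hs2.lf k)
  have lu2 : ∀ k, LF (fun I _ => u2 I.word : Fn k) := fun k => LF.ofOld (hu2.lf k)
  have lN0 : ∀ k, LF (fun I _ => Q.N0 I.word : Fn k) := fun k => LF.ofOld (Q.lfN.lf k)
  have lT : ∀ k, LF (fun I _ => Q.T I.word : Fn k) := fun k => LF.ofOld (Q.lfT.lf k)
  have lS : ∀ k, LF (fun I _ => CH.sN (dum Q e) I.word : Fn k) := fun k =>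
    LF.ofOld (CH.lfx_N.lf k)
  have lB : ∀ k, LF (fun I _ => (Q.T I.word + 1) * Q.N0 I.word : Fn k) := fun k =>
    (lT k).succ.mul (lN0 k)
  have lXP : ∀ k, LF (fun I _ => (π I.word).XP : Fn k) := fun k => XR.lf_XP hπ hPK
  have lY : ∀ k, LF (fun I _ => (π I.word).Y : Fn k) := fun k => hT.Y k
  have lc : ∀ k, LF (fun I _ => cD Q e κ I.word : Fn k) := fun k =>
    ((lY k).div ((LF.const 4).mul (lS k))).add (LF.const 1)
  have lδ : ∀ {m : ℕ} {v b : Fn m}, LF v → LF b → LF (fun I x => Q.δ I.word (v I x) (b I x)) := by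
    intro m v b hv hb
    exact LF.comp2 (F := fun I v b => Q.δ I.word v b)
      (LF.ofOld (Q.lfδ (P313.LF.proj (k := 2) 0) (P313.LF.proj (k := 2) 1))) hv hb
  have h2J : ∀ x, 2 ^ (π x).J ≤ (π x).P := fun x => by
    have h := CH.par_ok (Q := dum Q e) (κ := κ) (lam := lamD Q e) (e := 5) (by norm_num) x
    show 2 ^ (CH.par (dum Q e) 5 κ (lamD Q e) x).J ≤ (CH.par (dum Q e) 5 κ (lamD Q e) x).P
    rw [← h.hP]
    exact Nat.pow_le_pow_left h.ht _
  have hJT : ∀ x, 0 < (π x).JT := fun x => by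
    have h3 : (π x).JT =
        CH.pl (dum Q e) 5 κ (lamD Q e) x / ltS (CH.pk (dum Q e) 5 κ (lamD Q e) x) + 1 +
          (π x).J2 := rfl
    rw [h3]
    exact Nat.add_pos_left (Nat.succ_pos _) _
  have lrd := lf_rdI hT lks h2J
  have lg0 : LF (fun I a => ind (bdD Q e κ I.word ≤ a 0) : Fn 1) :=
    LFP.powLe ((lXP 1).mul ((LF.const 2).mul (lB 1)))
      ((((LF.const 60).mul (lks 1)).add (LF.const 15)).add ((lκ 1).add (LF.const 1)))
      (LF.proj 0)
  have lX : LF (fun I a => runX π A0 (rdI π ks) I (a 0) (a 1) (a 2) (a 3) (a 4) : Fn 5) :=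
    lf_runX hπ hPK hA0L lrd (LF.proj 0) (LF.proj 1) (LF.proj 2) (LF.proj 3) (LF.proj 4)
  have hXP1 : ∀ x, 1 ≤ (π x).XP := fun x => by
    have := Prm.two_le_XP (q := π x); omega
  have hYXP : ∀ x, (π x).Y ≤ (π x).XP := fun x => by
    unfold Prm.XP
    generalize (π x).N2 = a1
    generalize (π x).Y2 = a2
    generalize ((π x).K + 1) * ((2 * (π x).P) ^ (π x).K * a2) = a3
    generalize 2 ^ (π x).J2 = a4
    omega
  have hG1 : ∀ x, 1 ≤ (Q.T x + 1) * Q.N0 x := fun x => Nat.mul_pos (by omega) (Q.N_pos x)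
  have hbd1 : ∀ x, (π x).XP ^ (60 * ks x + 15) ≤ bdD Q e κ x := by
    intro x
    have h1 := hG1 x
    have h2 : (π x).XP ≤ (π x).XP * (2 * ((Q.T x + 1) * Q.N0 x)) :=
      Nat.le_mul_of_pos_right _ (by omega)
    refine (Nat.pow_le_pow_left h2 _).trans ?_
    exact Nat.pow_le_pow_right (Nat.mul_pos (hXP1 x) (by omega)) (Nat.le_add_right _ _)
  have hXc : ∀ (I : Inp) (Bg a i : ℕ), i ≤ ks I.word →
      bdD Q e κ I.word ≤ Bg →
      (π I.word).Agr (runX π A0 (rdI π ks) I Bg a i)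
        ((π I.word).XA (A0 I.word) (rdI π ks I) a i) := by
    intro I Bg a i hi hB v hv y hy
    refine runX_eq (hclip _).Y_pos (hclip _).hG (hA0 _) ?_ ?_ hv (lt_of_lt_of_le hy (hYXP _))
    · have := hiks I.word
      (clear * - hi this; omega)
    · refine le_trans (Nat.pow_le_pow_right (hXP1 _) ?_) ((hbd1 I.word).trans hB)
      omega
  set sc : Inp → ℕ → ℕ → ℕ → ℕ := fun I Bg v u => ∑ y ∈ range (π I.word).Y,
    if runX π A0 (rdI π ks) I Bg ((ks I.word + 1) % 2) (ks I.word) v y = u then 1 else 0 with hsc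
  have lsc : ∀ {m : ℕ} {b v u : Fn m}, LF b → LF v → LF u →
      LF (fun I a => sc I (b I a) (v I a) (u I a)) := by
    intro m b v u hb hv hu
    have h1 := LF.cntEq (k := m) (n := fun I _ => (π I.word).Y)
      (f := fun I c => runX π A0 (rdI π ks) I (b I (Fin.tail c)) ((ks I.word + 1) % 2) (ks I.word)
        (v I (Fin.tail c)) (c 0)) (v := u)
      (LF.comp5 lX hb.weak ((lks _).succ.mod (LF.const 2)) (lks _) hv.weak (LF.proj 0))
      (hT.Y _) hu
    refine h1.congr (fun I a => ?_)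
    simp only [Fin.tail_cons, Fin.cons_zero]
    rfl
  set aI : Inp → ℕ → ℕ → ℕ → ℕ → ℕ := fun I Bg c v u =>
    if c * Q.N0 I.word + v ≤ CH.sN (dum Q e) I.word then sc I Bg (c * Q.N0 I.word + v) u else 0
    with haI
  have la : ∀ {m : ℕ} {b c v u : Fn m}, LF b → LF c → LF v → LF u →
      LF (fun I x => aI I (b I x) (c I x) (v I x) (u I x)) := by
    intro m b c v u hb hc hv hu
    have hcv : LF (fun I x => c I x * Q.N0 I.word + v I x) := (hc.mul (lN0 m)).add hv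
    exact LF.ite (LFP.le hcv (lS m)) (lsc hb hcv hu) LF.zero
  have haY : ∀ I Bg c v u, aI I Bg c v u ≤ (π I.word).Y := by
    intro I Bg c v u
    simp only [haI]
    split_ifs
    · simp only [hsc]
      calc _ ≤ ∑ y ∈ range (π I.word).Y, 1 := sum_le_sum fun y _ => by split_ifs <;> omega
        _ = (π I.word).Y := by simp
    · exact Nat.zero_le _
  have lnum : ∀ (s u : List Bool → ℕ), (∀ k, LF (fun I _ => s I.word : Fn k)) →
      (∀ k, LF (fun I _ => u I.word : Fn k)) →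
      LF (fun I a => numC (fun v (b : Bool) => Q.δ I.word v b.toNat) (Q.N0 I.word) (π I.word).Y
        (cD Q e κ I.word) (aI I (a 0)) ((Q.T I.word + 1) * Q.N0 I.word) (a 0) (Q.T I.word)
        (s I.word) (u I.word) (κ I.word + 1) : Fn 1) := by
    intro s u hs hu
    exact RL.lf_numC (N0 := fun I => Q.N0 I.word) (Y := fun I => (π I.word).Y)
      (c0 := fun I => cD Q e κ I.word) (B := fun I => (Q.T I.word + 1) * Q.N0 I.word)
      (T := fun I => Q.T I.word) (δ := fun I v b => Q.δ I.word v b) (a := aI)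
      (Bg := fun _ a => a 0) (s := fun I _ => s I.word) (u := fun I _ => u I.word)
      (m := fun I _ => κ I.word + 1)
      lN0 lY lc lB lT lδ la (LF.proj 0) (hs 1) (hu 1) ((lκ 1).add (LF.const 1))
  set vvI : Inp → ℕ → ℕ := fun I Bg => ind (
    numC (fun v (b : Bool) => Q.δ I.word v b.toNat) (Q.N0 I.word) (π I.word).Y
      (cD Q e κ I.word) (aI I Bg) ((Q.T I.word + 1) * Q.N0 I.word) Bg (Q.T I.word)
      (s2 I.word) (u2 I.word) (κ I.word + 1) ≤
    numC (fun v (b : Bool) => Q.δ I.word v b.toNat) (Q.N0 I.word) (π I.word).Y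
      (cD Q e κ I.word) (aI I Bg) ((Q.T I.word + 1) * Q.N0 I.word) Bg (Q.T I.word)
      (s1 I.word) (u1 I.word) (κ I.word + 1)) with hvvI
  have lfin : LF (fun I a => vvI I (a 0) : Fn 1) :=
    LFP.le (lnum s2 u2 ls2 lu2) (lnum s1 u1 ls1 lu1)
  -- the verdict as a function of the memory
  set aM : List Bool → (ℕ → ℕ) → ℕ → ℕ → ℕ → ℕ := fun x M c v u =>
    if c * Q.N0 x + v ≤ CH.sN (dum Q e) x then
      Cat.scA (π x) ((π x).XA (A0 x) M ((ks x + 1) % 2) (ks x)) (c * Q.N0 x + v) u else 0 with haM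
  set nM : List Bool → (ℕ → ℕ) → ℕ → ℕ → ℕ := fun x M s u =>
    num (Q.cs x) (Q.N0 x) (π x).Y (cD Q e κ x) (aM x M) ((Q.T x + 1) * Q.N0 x)
      (Q.T x) s u (κ x + 1) with hnM
  obtain ⟨D, i, e', E, hD, hinj, hbl, h⟩ := cat_gen (π := π) (A0 := A0) (ks := ks)
    (bd := bdD Q e κ) (vvI := vvI)
    (vf := fun x M => ind (nM x M (s2 x) (u2 x) ≤ nM x M (s1 x) (u1 x)))
    hπ hPK hA0L (fun k => (CH.lfx_k hκ).lf k) lg0 hbd1 hclip hA0 hiks h2J hJT
    (fun x => CH.sk_pos (κ := κ) (e := 5) x)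
    (fun x => ⟨_, CH.par_ok (by norm_num) x⟩)
    (fun x => G.prm_ok2 (CH.pl_ge x) (CH.pk_pos x) (CH.pow_ok (by norm_num) x) (CH.N_ok x)
      (by
        have := CH.pk_ge (Q := dum Q e) (e := 5) (κ := κ) (lam := lamD Q e) x
        show CH.sk (dum Q e) 5 κ x ≤ _
        omega))
    (fun x => Cat.prm_ok3 (CH.pl_ge x) (CH.pk_pos x) (CH.pow_ok (by norm_num) x) (CH.N_ok x)
      (by
        have := CH.pk_ge (Q := dum Q e) (e := 5) (κ := κ) (lam := lamD Q e) x
        show CH.sk (dum Q e) 5 κ x ≤ _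
        omega)) lfin (fun I => by
    have haX : aI I (bdD Q e κ I.word) = aM I.word (rdI π ks I) := by
      funext c v u
      simp only [haI, haM]
      by_cases hc : c * Q.N0 I.word + v ≤ CH.sN (dum Q e) I.word
      · rw [if_pos hc, if_pos hc]
        simp only [hsc]
        unfold Cat.scA
        rw [card_filter]
        refine sum_congr rfl fun y hy => ?_
        have h1 := hXc I (bdD Q e κ I.word) ((ks I.word + 1) % 2) (ks I.word)
          le_rfl le_rfl (c * Q.N0 I.word + v) hc y (mem_range.1 hy)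
        rw [h1]
      · rw [if_neg hc, if_neg hc]
    have hY1 : 0 < (π I.word).Y := Y_pos I.word
    have hbase : 1 ≤ (π I.word).XP * (2 * ((Q.T I.word + 1) * Q.N0 I.word)) :=
      Nat.mul_pos (hXP1 _) (by have := hG1 I.word; omega)
    have hb1 : (2 * (π I.word).Y) ^ (κ I.word + 1) ≤ bdD Q e κ I.word := by
      have h1 : 2 * (π I.word).Y ≤ (π I.word).XP * (2 * ((Q.T I.word + 1) * Q.N0 I.word)) := by
        calc 2 * (π I.word).Y = (π I.word).Y * (2 * 1) := by ring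
          _ ≤ _ := Nat.mul_le_mul (hYXP _) (Nat.mul_le_mul_left _ (hG1 _))
      exact (Nat.pow_le_pow_left h1 _).trans (Nat.pow_le_pow_right hbase (Nat.le_add_left _ _))
    have hb2 : ((Q.T I.word + 1) * Q.N0 I.word) ^ (κ I.word + 1) ≤ bdD Q e κ I.word := by
      have h1 : (Q.T I.word + 1) * Q.N0 I.word ≤
          (π I.word).XP * (2 * ((Q.T I.word + 1) * Q.N0 I.word)) := by
        have h2 := hXP1 I.word
        calc (Q.T I.word + 1) * Q.N0 I.word ≤ 1 * (2 * ((Q.T I.word + 1) * Q.N0 I.word)) := by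
              omega
          _ ≤ _ := Nat.mul_le_mul_right _ h2
      exact (Nat.pow_le_pow_left h1 _).trans (Nat.pow_le_pow_right hbase (Nat.le_add_left _ _))
    have hn : ∀ s u, numC (fun v (b : Bool) => Q.δ I.word v b.toNat) (Q.N0 I.word) (π I.word).Y
          (cD Q e κ I.word) (aI I (bdD Q e κ I.word)) ((Q.T I.word + 1) * Q.N0 I.word)
          (bdD Q e κ I.word) (Q.T I.word) s u (κ I.word + 1) =
        nM I.word (rdI π ks I) s u := by
      intro s u
      rw [numC_eq (haY I _) hY1 (hG1 _) hb1 hb2, haX]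
      rfl
    simp only [hvvI]
    rw [hn, hn])
  refine ⟨D, i, e', E, hD, hinj, hbl, fun x w VB hw hv => ?_⟩
  obtain ⟨⟨V, hV, h1⟩, h2⟩ := h x w (fun V => VB (decide (V ≠ 0))) hw (fun M' o ho hX => by
    have hk := hX (ks x) le_rfl
    have haO : aM x M' = aO Q e κ o x := by
      funext c v u
      simp only [haM]
      unfold aO
      rw [N_eq, hk]
    have hn : ∀ s u, nM x M' s u = numO Q e κ o x s u := by
      intro s u
      simp only [hnM]
      unfold numO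
      rw [haO]
    apply hv o ho
    simp only [hn]
    by_cases hc : numO Q e κ o x (s2 x) (u2 x) ≤ numO Q e κ o x (s1 x) (u1 x)
    · rw [ind_true hc]; simp [hc]
    · rw [ind_false hc]; simp [hc])
  exact ⟨⟨_, hV, h1⟩, h2⟩

end TS.Q

end Vale.Agent.P313
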