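import Vale.Agent.P313.H463.Cat14

/-!
The bounds for the comparison with a catalytic tape.
-/

namespace Vale.Agent.P313.RI

open Finset Sel

/-- The machine, with bounds in terms of the length of the input. -/
theorem cat_dec5 (Q : Chm) (e : ℕ) {κ s1 u1 s2 u2 : List Bool → ℕ} (hκ : Sel.LFx κ)
    (hs1 : Sel.LFx s1) (hu1 : Sel.LFx u1) (hs2 : Sel.LFx s2) (hu2 : Sel.LFx u2)
    (hκ1 : ∀ x, 1 ≤ κ x) :
    ∃ (D : RTM) (i : Fin D.tapes) (e' : Bool → D.Sym) (C : ℕ), D.Deterministic ∧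
      Function.Injective e' ∧ (∀ b, e' b ≠ D.blank) ∧
      ∀ (x w : List Bool) (VB : Bool → Prop),
      C * (Ln x * (Nat.log 2 (Ln x) + 1 + Qn κ (lamD Q e) x)) + 1 ≤ w.length →
      (∀ o : ℕ → ℕ, (∀ i, o i < (prD Q e κ x).B) → ∀ v : Bool,
        (v = true ↔ numO Q e κ o x (s2 x) (u2 x) ≤ numO Q e κ o x (s1 x) (u1 x)) → VB v) →
      (∃ v : Bool, VB v ∧ ∀ T, 2 ^ (C * (κ x * Ln x)) ≤ T →
        D.verdict (D.runC x (D.initC i e' w) T).state = some v ∧
        (D.runC x (D.initC i e' w) T).work i = Tape.ofWord D.blank e' w) ∧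
      ∀ t, (∀ j, j ≠ i → ((D.runC x (D.initC i e' w) t).work j).cells ≤
          C * (κ x * Ln x) + C) ∧
        ((D.runC x (D.initC i e' w) t).work i).cells = w.length ∧
        ∀ a ∈ ((D.runC x (D.initC i e' w) t).work i).left ++
          ((D.runC x (D.initC i e' w) t).work i).head ::
          ((D.runC x (D.initC i e' w) t).work i).right, ∃ b, a = e' b := by
  obtain ⟨D, i, e', E, hD, hinj, hbl, h⟩ := TS.Q.cat_dec4 Q e hκ hs1 hu1 hs2 hu2
  obtain ⟨C1, hC1, hC⟩ := CH.sh_le (Q := dum Q e)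
  obtain ⟨A, hA⟩ : ∃ A, A = 31933595 := ⟨_, rfl⟩
  refine ⟨D, i, e', E * (A * C1) + 3 * (5 * C1 + 98) * (28002101 * (512 * C1)) + E, hD, hinj, hbl,
    fun x w VB hw hv => ?_⟩
  have hk1 := hκ1 x
  have hlen : 3 * (prD Q e κ x).JT * Cat.B1 (prD Q e κ x) + 1 ≤ w.length := by
    refine le_trans ?_ hw
    apply Nat.succ_le_succ
    have hJ := CH.JT_le (Q := dum Q e) (κ := κ) (lam := lamD Q e) x hk1
    change (prD Q e κ x).JT ≤ _ at hJ
    have hls := CH.log_sh_le (Q := dum Q e) hC x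
    have hXl := CH.lk_le (Q := dum Q e) (κ := κ) (lam := lamD Q e) (e := 5) (by norm_num) x
    norm_num at hXl
    have hX1 : 1 ≤ CH.pl (dum Q e) 5 κ (lamD Q e) x * CH.pk (dum Q e) 5 κ (lamD Q e) x :=
      Nat.mul_pos (by
        have := CH.pl_ge (Q := dum Q e) (κ := κ) (lam := lamD Q e) (e := 5) x; omega)
        (CH.pk_pos x)
    have hB : Cat.B1 (prD Q e κ x) ≤ 28002101 *
      (CH.pl (dum Q e) 5 κ (lamD Q e) x * CH.pk (dum Q e) 5 κ (lamD Q e) x) := Cat.B1_bound hX1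
    have hCx := hC x
    generalize Cat.B1 (prD Q e κ x) = B1 at *
    generalize CH.pl (dum Q e) 5 κ (lamD Q e) x * CH.pk (dum Q e) 5 κ (lamD Q e) x = X at *
    generalize CH.sh (dum Q e) x = sh at *
    generalize (prD Q e κ x).JT = JT at *
    obtain ⟨R, hR⟩ : ∃ R, R = Nat.log 2 (Ln x) + 1 + Qn κ (lamD Q e) x := ⟨_, rfl⟩
    rw [← hR]
    generalize Qn κ (lamD Q e) x = W at *
    generalize Ln x = L at *
    have hJ2 : JT ≤ (5 * C1 + 98) * R := by
      have e1 : JT ≤ 8 * W + 5 * Nat.log 2 L + 5 * C1 + 90 := by omega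
      have e3 : (5 * C1 + 98) * R = (5 * C1 + 98) * Nat.log 2 L + (5 * C1 + 98) +
          (5 * C1 + 98) * W := by rw [hR]; ring
      have e5 : 5 * Nat.log 2 L ≤ (5 * C1 + 98) * Nat.log 2 L :=
        Nat.mul_le_mul_right _ (by omega)
      have e6 : 8 * W ≤ (5 * C1 + 98) * W := Nat.mul_le_mul_right _ (by omega)
      omega
    have hw' : B1 ≤ 28002101 * (512 * C1) * L := by
      refine hB.trans ?_
      calc 28002101 * X ≤ 28002101 * (512 * sh) := Nat.mul_le_mul_left _ hXl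
        _ ≤ 28002101 * (512 * (C1 * L)) :=
            Nat.mul_le_mul_left _ (Nat.mul_le_mul_left _ hCx)
        _ = _ := by ring
    calc 3 * JT * B1 ≤ 3 * ((5 * C1 + 98) * R) * (28002101 * (512 * C1) * L) :=
          Nat.mul_le_mul (Nat.mul_le_mul_left _ hJ2) hw'
      _ = 3 * (5 * C1 + 98) * (28002101 * (512 * C1)) * (L * R) := by ring
      _ ≤ _ := Nat.mul_le_mul_right _ (by omega)
  obtain ⟨⟨v, hv1, h1⟩, h2⟩ := h x w VB hlen hv
  have hbud := budD_le Q e (κ := κ) x (hκ1 x)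
  rw [← hA] at hbud
  have hhk : A * (CH.sh (dum Q e) x * κ x) ≤ A * C1 * (κ x * Ln x) := by
    calc A * (CH.sh (dum Q e) x * κ x) ≤ A * ((C1 * Ln x) * κ x) :=
          Nat.mul_le_mul_left _ (Nat.mul_le_mul (hC x) le_rfl)
      _ = A * C1 * (κ x * Ln x) := by ring
  refine ⟨⟨v, hv1, fun T hT => h1 T (le_trans ?_ hT)⟩, fun t => ⟨fun j hj => ?_, (h2 t).2⟩⟩
  · calc _ ≤ (2 ^ (A * (CH.sh (dum Q e) x * κ x))) ^ E := Nat.pow_le_pow_left hbud E
      _ = 2 ^ (A * (CH.sh (dum Q e) x * κ x) * E) := by rw [← pow_mul]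
      _ ≤ _ := by
        apply Nat.pow_le_pow_right (by norm_num)
        calc A * (CH.sh (dum Q e) x * κ x) * E ≤ A * C1 * (κ x * Ln x) * E :=
              Nat.mul_le_mul_right _ hhk
          _ = E * (A * C1) * (κ x * Ln x) := by ring
          _ ≤ _ := Nat.mul_le_mul_right _ (by omega)
  · refine ((h2 t).1 j hj).trans ?_
    have hlog : Nat.log 2 (x.length + bdD Q e κ x + 2) ≤ A * C1 * (κ x * Ln x) := by
      have h3 := Nat.log_mono_right (b := 2) hbud
      rw [Nat.log_pow (by norm_num)] at h3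
      exact h3.trans hhk
    calc _ ≤ E * (A * C1 * (κ x * Ln x)) + E :=
          Nat.add_le_add_right (Nat.mul_le_mul_left _ hlog) _
      _ = E * (A * C1) * (κ x * Ln x) + E := by ring
      _ ≤ _ := Nat.add_le_add (Nat.mul_le_mul_right _ (by omega)) (by omega)

/-- From the machine to the class. -/
theorem cat_cls (Q : Chm) (e : ℕ) {κ u : ℕ → ℕ} {s1 u1 s2 u2 : List Bool → ℕ}
    (hκ : LFx (fun x => κ x.length)) (hκ1 : ∀ n, 1 ≤ κ n)
    (hs1 : LFx s1) (hu1 : LFx u1) (hs2 : LFx s2) (hu2 : LFx u2) (B : ℕ)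
    (hB : ∀ x, Ln x * (Nat.log 2 (Ln x) + 1 +
      Qn (fun x => κ x.length) (lamD Q e) x) ≤ B * u x.length + B)
    {Y N : Set (List Bool)}
    (hY : ∀ x ∈ Y, ∀ o : ℕ → ℕ, (∀ i, o i < (prD Q e (fun x => κ x.length) x).B) →
      numO Q e (fun x => κ x.length) o x (s2 x) (u2 x) ≤
        numO Q e (fun x => κ x.length) o x (s1 x) (u1 x))
    (hN : ∀ x ∈ N, ∀ o : ℕ → ℕ, (∀ i, o i < (prD Q e (fun x => κ x.length) x).B) →
      ¬ numO Q e (fun x => κ x.length) o x (s2 x) (u2 x) ≤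
        numO Q e (fun x => κ x.length) o x (s1 x) (u1 x)) :
    CatTISP (fun n => (n + 2) ^ κ n) (fun n => κ n * Nat.log 2 (n + 2)) u Y N := by
  obtain ⟨D, i, e', C, hD, hinj, hbl, h⟩ := cat_dec5 Q e hκ hs1 hu1 hs2 hu2
    (fun x => hκ1 x.length)
  have hC' : C ≤ C * B + C + 1 := by omega
  refine Cat.catTISP_of (C := C * B + C + 1) (i := i) hD hinj hbl (fun x w hw => ?_)
  obtain ⟨⟨v, ⟨hv1, hv2⟩, h1⟩, h2⟩ := h x w
    (fun v => (x ∈ Y → v = true) ∧ (x ∈ N → v = false)) (by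
      refine le_trans ?_ hw
      calc _ ≤ C * (B * u x.length + B) + 1 :=
            Nat.add_le_add_right (Nat.mul_le_mul_left _ (hB x)) _
        _ = C * B * u x.length + (C * B + 1) := by ring
        _ ≤ _ := Nat.add_le_add (Nat.mul_le_mul_right _ (by omega)) (by omega))
    (fun o ho v hv => ⟨fun hx => hv.2 (hY x hx o ho), fun hx => by
      have h3 := hN x hx o ho
      cases v with
      | false => rfl
      | true => exact absurd (hv.1 rfl) h3⟩)
  refine ⟨⟨v, hv1, hv2, fun T hT => h1 T (le_trans (Nat.pow_le_pow_right (by norm_num)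
    (Nat.mul_le_mul_right _ hC')) hT)⟩, fun t => ⟨fun j hj => ?_, (h2 t).2⟩⟩
  exact ((h2 t).1 j hj).trans (Nat.add_le_add (Nat.mul_le_mul_right _ hC') hC')

/-- The bound for the catalytic tape when the number of coins is polynomial. -/
theorem bdc_poly (Q : Chm) (e : ℕ) {κ : ℕ → ℕ} (hκ1 : ∀ n, 1 ≤ κ n) :
    ∃ B, ∀ x, Ln x * (Nat.log 2 (Ln x) + 1 +
      Qn (fun x => κ x.length) (lamD Q e) x) ≤
      B * (Nat.log 2 (x.length + 2) ^ 2 / (κ x.length * (Nat.log 2 (κ x.length) + 1)) +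
        Nat.log 2 (x.length + 2) * Nat.log 2 (Nat.log 2 (x.length + 2))) + B := by
  obtain ⟨d, hd⟩ := CH.log_of_pb Q.lfT
  refine ⟨d + 3, fun x => ?_⟩
  set L := Ln x with hL
  have hLe : Nat.log 2 (x.length + 2) = L := rfl
  have hL1 : 1 ≤ L := Ln_pos x
  set k := κ x.length with hk
  have hk1 : 1 ≤ k := hκ1 _
  rw [hLe]
  set q := k * (Nat.log 2 k + 1) with hq
  have hq1 : 1 ≤ q := Nat.mul_pos (by omega) (Nat.succ_pos _)
  have h2 : L * Qn (fun x => κ x.length) (lamD Q e) x ≤ (d + 1) * (L ^ 2 / q) + (d + 1) := by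
    have h3 : Qn (fun x => κ x.length) (lamD Q e) x ≤ ((d + 1) * L) / q := by
      unfold Qn
      refine (Nat.div_le_div_left (c := q) ?_ (by omega)).trans (Nat.div_le_div_right ?_)
      · apply Nat.mul_le_mul_left
        apply Nat.succ_le_succ
        apply Nat.log_mono_right
        exact Nat.le_mul_of_pos_right _ (Nat.succ_pos _)
      · have h7 := hd x
        rw [← hL] at h7
        show Nat.log 2 (Q.T x) + 1 ≤ (d + 1) * L
        rw [add_mul]
        omega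
    calc _ ≤ L * (((d + 1) * L) / q) := Nat.mul_le_mul_left _ h3
      _ ≤ (L * ((d + 1) * L)) / q := Nat.mul_div_le_mul_div_assoc _ _ _
      _ = ((d + 1) * L ^ 2) / q := by congr 1; ring
      _ ≤ _ := mul_div_le' _ _ hq1 (by omega)
  have h4 : L ≤ L * Nat.log 2 L + 1 := by
    rcases Nat.lt_or_ge L 2 with h5 | h5
    · omega
    · have h6 : 1 ≤ Nat.log 2 L := Nat.le_log_of_pow_le (by norm_num) (by omega)
      have := Nat.mul_le_mul_left L h6
      omega
  generalize Qn (fun x => κ x.length) (lamD Q e) x = W at *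
  set Y := L ^ 2 / q with hY
  calc L * (Nat.log 2 L + 1 + W) = L * Nat.log 2 L + L + L * W := by ring
    _ ≤ L * Nat.log 2 L + (L * Nat.log 2 L + 1) + ((d + 1) * Y + (d + 1)) := by omega
    _ = 2 * (L * Nat.log 2 L) + (d + 1) * Y + (d + 2) := by ring
    _ ≤ (d + 3) * (L * Nat.log 2 L) + (d + 3) * Y + (d + 3) :=
      Nat.add_le_add (Nat.add_le_add (Nat.mul_le_mul_right _ (by omega))
        (Nat.mul_le_mul_right _ (by omega))) (by omega)
    _ = _ := by ring

end Vale.Agent.P313.RI
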