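import Vale.Agent.P313.H463.Cat15
import Vale.Agent.P313.R2.H284.Main
import Vale.Agent.P313.R2.H814.FewW

/-!
Zero tests of integer polynomials in acceptance probabilities, with a catalytic tape.
-/

namespace Vale.Agent.P313

open Finset CP Sel RI PT

/-- `CatTISP` is monotone in the promise. -/
theorem CatTISP.sub {t s u : ℕ → ℕ} {Y N Y' N' : Set (List Bool)} (h : CatTISP t s u Y N)
    (hY : Y' ⊆ Y) (hN : N' ⊆ N) : CatTISP t s u Y' N' := by
  obtain ⟨M, c, hD, i, e, he, hb, h⟩ := h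
  refine ⟨M, c, hD, i, e, he, hb, fun x w hw => ?_⟩
  obtain ⟨⟨v, h1, h2, h3⟩, h4⟩ := h x w hw
  exact ⟨⟨v, fun hx => h1 (hY hx), fun hx => h2 (hN hx), h3⟩, h4⟩

namespace PC

/-- The bound for the catalytic tape when the number of coins is at most
`C * (2 ^ lam + κ * log n)`. -/
theorem bdc_few (Q : Chm) (e C : ℕ) {κ lam : ℕ → ℕ} (hκ1 : ∀ n, 1 ≤ κ n)
    (hT : ∀ x, Q.T x ≤ C * (2 ^ lam x.length + κ x.length * Ln x)) :
    ∃ B, ∀ x, Ln x * (Nat.log 2 (Ln x) + 1 +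
      Qn (fun x => κ x.length) (lamD Q e) x) ≤
      B * (Nat.log 2 (x.length + 2) * (Nat.log 2 (Nat.log 2 (x.length + 2)) + 1 +
        lam x.length / (κ x.length * (Nat.log 2 (κ x.length *
          (Nat.log 2 (x.length + 2) / lam x.length + 1)) + 1)))) + B := by
  obtain ⟨E, hE⟩ : ∃ E, E = (2 * C + 3) ^ 2 := ⟨_, rfl⟩
  refine ⟨E + 2 * C + 4, fun x => ?_⟩
  have hk := hκ1 x.length
  have hLe : Nat.log 2 (x.length + 2) = Ln x := rfl
  have hL1 : 1 ≤ Ln x := Ln_pos x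
  rw [hLe]
  have hQ : Qn (fun x => κ x.length) (lamD Q e) x = (Nat.log 2 (Q.T x) + 1) /
      (κ x.length * (Nat.log 2 (κ x.length * (Ln x / (Nat.log 2 (Q.T x) + 1) + 1)) + 1)) := rfl
  have h2C : 2 * C ≤ 2 ^ (2 * C) := Nat.lt_two_pow_self.le
  have key : Nat.log 2 (Ln x) + 1 + Qn (fun x => κ x.length) (lamD Q e) x ≤
      (E + 2 * C + 4) * (Nat.log 2 (Ln x) + 1 + lam x.length / (κ x.length *
      (Nat.log 2 (κ x.length * (Ln x / lam x.length + 1)) + 1))) := by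
    rcases le_total (κ x.length * Ln x) (2 ^ lam x.length) with h | h
    · have h1 : Q.T x ≤ 2 ^ (2 * C + lam x.length) := by
        calc Q.T x ≤ C * (2 ^ lam x.length + κ x.length * Ln x) := hT x
          _ ≤ C * (2 ^ lam x.length + 2 ^ lam x.length) :=
            Nat.mul_le_mul_left _ (Nat.add_le_add_left h _)
          _ = 2 * C * 2 ^ lam x.length := by ring
          _ ≤ 2 ^ (2 * C) * 2 ^ lam x.length := Nat.mul_le_mul_right _ h2C
          _ = _ := by rw [← pow_add]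
      have h2 : Nat.log 2 (Q.T x) ≤ 2 * C + lam x.length := by
        have := Nat.log_mono_right (b := 2) h1
        rwa [Nat.log_pow (by norm_num)] at this
      have h3 := PW.Q_bdC (L := Ln x) (k := κ x.length) (lam := lam x.length)
        (l := Nat.log 2 (Q.T x) + 1) (c := 2 * C + 1) hk (Nat.succ_pos _) (by omega)
      rw [← hQ, ← hE] at h3
      generalize lam x.length / (κ x.length *
        (Nat.log 2 (κ x.length * (Ln x / lam x.length + 1)) + 1)) = V at *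
      generalize Qn (fun x => κ x.length) (lamD Q e) x = W at *
      generalize Nat.log 2 (Ln x) = J at *
      calc J + 1 + W ≤ J + 1 + (E * V + E) := by omega
        _ ≤ (E + 2 * C + 4) * J + (E + 2 * C + 4) + (E + 2 * C + 4) * V := by
            nlinarith only [Nat.zero_le (E * J), Nat.zero_le (C * J),
              Nat.zero_le (C * V), Nat.zero_le V, Nat.zero_le J]
        _ = _ := by ring
    · have h1 : Q.T x ≤ 2 ^ (2 * C + κ x.length + (Nat.log 2 (Ln x) + 1)) := by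
        calc Q.T x ≤ C * (2 ^ lam x.length + κ x.length * Ln x) := hT x
          _ ≤ C * (κ x.length * Ln x + κ x.length * Ln x) :=
            Nat.mul_le_mul_left _ (Nat.add_le_add_right h _)
          _ = 2 * C * κ x.length * Ln x := by ring
          _ ≤ 2 ^ (2 * C) * 2 ^ κ x.length * 2 ^ (Nat.log 2 (Ln x) + 1) :=
            Nat.mul_le_mul (Nat.mul_le_mul h2C Nat.lt_two_pow_self.le)
              (Nat.lt_pow_succ_log_self (by norm_num) _).le
          _ = _ := by rw [← pow_add, ← pow_add]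
      have h2 : Nat.log 2 (Q.T x) ≤ 2 * C + κ x.length + (Nat.log 2 (Ln x) + 1) := by
        have := Nat.log_mono_right (b := 2) h1
        rwa [Nat.log_pow (by norm_num)] at this
      have h3 : Qn (fun x => κ x.length) (lamD Q e) x ≤
          2 * C + 2 + Nat.log 2 (Ln x) + 1 := by
        rw [hQ]
        refine (Nat.div_le_div_left (c := κ x.length)
          (Nat.le_mul_of_pos_right _ (Nat.succ_pos _)) (by omega)).trans ?_
        generalize Nat.log 2 (Ln x) = J at *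
        generalize κ x.length = k at *
        refine Nat.div_le_of_le_mul ?_
        have e1 : 2 * C + 2 + J ≤ (2 * C + 2 + J) * k := Nat.le_mul_of_pos_right _ hk
        calc Nat.log 2 (Q.T x) + 1 ≤ (2 * C + 2 + J) + k := by omega
          _ ≤ (2 * C + 2 + J) * k + k := by omega
          _ = k * (2 * C + 2 + J + 1) := by ring
      generalize lam x.length / (κ x.length *
        (Nat.log 2 (κ x.length * (Ln x / lam x.length + 1)) + 1)) = V at *
      generalize Qn (fun x => κ x.length) (lamD Q e) x = W at *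
      generalize Nat.log 2 (Ln x) = J at *
      calc J + 1 + W ≤ J + 1 + (2 * C + 2 + J + 1) := by omega
        _ ≤ (E + 2 * C + 4) * J + (E + 2 * C + 4) + (E + 2 * C + 4) * V := by
            nlinarith only [Nat.zero_le (E * J), Nat.zero_le (C * J),
              Nat.zero_le (C * V), Nat.zero_le V, Nat.zero_le J, Nat.zero_le (E * V),
              Nat.zero_le E]
        _ = _ := by ring
  calc _ ≤ Ln x * ((E + 2 * C + 4) * (Nat.log 2 (Ln x) + 1 + lam x.length / (κ x.length *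
      (Nat.log 2 (κ x.length * (Ln x / lam x.length + 1)) + 1)))) := Nat.mul_le_mul_left _ key
    _ = (E + 2 * C + 4) * (Ln x * (Nat.log 2 (Ln x) + 1 + lam x.length / (κ x.length *
      (Nat.log 2 (κ x.length * (Ln x / lam x.length + 1)) + 1)))) := by ring
    _ ≤ _ := Nat.le_add_right _ _

/-- The comparison is right when the probabilities are not too close. -/
theorem sepO {κ : List Bool → ℕ} (Q1 Q2 : Chn) (e : ℕ) (T : List Bool → ℕ) (hT : LFx T)
    (hT1 : ∀ x, 0 < T x) (h1 : ∀ x, Q1.T x ≤ T x) (h2 : ∀ x, Q2.T x ≤ T x) (x : List Bool)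
    {o : ℕ → ℕ} (ho : ∀ i, o i < (prD (uni Q1 Q2 T hT hT1) e κ x).B) :
    (pr Q2 x + 1 / ((x.length : ℚ) + 2) ^ (e * κ x) ≤ pr Q1 x →
      numO (uni Q1 Q2 T hT hT1) e κ o x (Q1.N0 x + Q2.st x) (Q1.N0 x + 0) ≤
      numO (uni Q1 Q2 T hT hT1) e κ o x (Q1.st x) 0) ∧
    (pr Q1 x + 1 / ((x.length : ℚ) + 2) ^ (e * κ x) ≤ pr Q2 x →
      ¬ numO (uni Q1 Q2 T hT hT1) e κ o x (Q1.N0 x + Q2.st x) (Q1.N0 x + 0) ≤
      numO (uni Q1 Q2 T hT hT1) e κ o x (Q1.st x) 0) := by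
  have e1 : hit (Q1.cs x) 0 (T x) (Q1.st x) = pr Q1 x := val_pr Q1 x _ (h1 x)
  have e2 : hit (Q2.cs x) 0 (T x) (Q2.st x) = pr Q2 x := val_pr Q2 x _ (h2 x)
  have n1 := Q1.two_le x
  have n2 := Q2.two_le x
  have m1 := Q1.st_lt x
  have m2 := Q2.st_lt x
  have hN : (uni Q1 Q2 T hT hT1).N0 x = Q1.N0 x + Q2.N0 x := rfl
  have h3 := numO_sep (Q := uni Q1 Q2 T hT hT1) (e := e) (κ := κ) x ho
    (s1 := Q1.st x) (u1 := 0) (s2 := Q1.N0 x + Q2.st x) (u2 := Q1.N0 x + 0)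
    (by rw [hN]; omega) (by rw [hN]; omega) (by rw [hN]; omega) (by rw [hN]; omega)
  rw [← e1, ← e2, ← hit_uni1 (Q2 := Q2) (hT := hT) (hT1 := hT1) x (T x) _ m1,
    ← hit_uni2 (Q1 := Q1) (hT := hT) (hT1 := hT1) x (T x) _ m2]
  exact h3

/-- The comparison of two chains. -/
theorem cat_chains {κ u : ℕ → ℕ} (hκ : LFx (fun x => κ x.length)) (hκ1 : ∀ n, 1 ≤ κ n)
    (Q1 Q2 : Chn) (e : ℕ)
    (hB : ∀ hT hT1, ∃ B, ∀ x, Ln x * (Nat.log 2 (Ln x) + 1 +
      Qn (fun x => κ x.length) (lamD (uni Q1 Q2 (fun x => Q1.T x + Q2.T x) hT hT1) e) x) ≤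
      B * u x.length + B) :
    CatTISP (fun n => (n + 2) ^ κ n) (fun n => κ n * Nat.log 2 (n + 2)) u
      {x | pr Q2 x + 1 / ((x.length : ℚ) + 2) ^ (e * κ x.length) ≤ pr Q1 x}
      {x | pr Q1 x + 1 / ((x.length : ℚ) + 2) ^ (e * κ x.length) ≤ pr Q2 x} := by
  have hT : LFx (fun x => Q1.T x + Q2.T x) := lfx_add Q1.lfT Q2.lfT
  have hT1 : ∀ x : List Bool, 0 < Q1.T x + Q2.T x := fun x => by
    have := Q1.T_pos x; omega
  obtain ⟨B, hB⟩ := hB hT hT1
  exact cat_cls (uni Q1 Q2 _ hT hT1) e hκ hκ1 (s1 := Q1.st) (u1 := fun _ => 0)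
    (s2 := fun x => Q1.N0 x + Q2.st x) (u2 := fun x => Q1.N0 x + 0)
    Q1.lfst lfx_zero (lfx_add Q1.lfN Q2.lfst) (lfx_add Q1.lfN lfx_zero) B hB
    (fun x hx o ho => (sepO (κ := fun x => κ x.length) Q1 Q2 e _ hT hT1
      (fun x => Nat.le_add_right _ _) (fun x => Nat.le_add_left _ _) x ho).1 hx)
    (fun x hx o ho => (sepO (κ := fun x => κ x.length) Q1 Q2 e _ hT hT1
      (fun x => Nat.le_add_right _ _) (fun x => Nat.le_add_left _ _) x ho).2 hx)

/-- From one-sided to two-sided gaps. -/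
theorem gap_core {n k e s : ℕ} {A B f : ℚ} (hN2 : 2 ≤ n) (hk : 1 ≤ k) (hfx : f = 2 ^ s * (A - B)) :
    (1 / (n : ℚ) ^ (e * k) ≤ f →
      (B + 1 / 2 ^ ((s + e * k * (Nat.log 2 n + 1)) + 1)) / 2 + 1 / (n : ℚ) ^ ((s + 2 + 2 * e) * k) ≤
        (A + 0) / 2) ∧
    (f ≤ 0 → (A + 0) / 2 + 1 / (n : ℚ) ^ ((s + 2 + 2 * e) * k) ≤
      (B + 1 / 2 ^ ((s + e * k * (Nat.log 2 n + 1)) + 1)) / 2) := by
  have hl1 : n ≤ 2 ^ (Nat.log 2 n + 1) := (Nat.lt_pow_succ_log_self (by norm_num) n).le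
  have hl2 : 2 ^ (Nat.log 2 n + 1) ≤ n ^ 2 := by
    have := Nat.pow_log_le_self 2 (show n ≠ 0 by omega)
    rw [pow_succ, sq]
    exact Nat.mul_le_mul this hN2
  have hU1 : 4 * (2 ^ s * n ^ (e * k)) ≤ 2 ^ (s + e * k * (Nat.log 2 n + 1) + 2) := by
    have h1 : n ^ (e * k) ≤ 2 ^ (e * k * (Nat.log 2 n + 1)) := by
      rw [mul_comm (e * k), pow_mul 2 (Nat.log 2 n + 1) (e * k)]
      exact Nat.pow_le_pow_left hl1 _
    rw [pow_add, pow_add]
    calc 4 * (2 ^ s * n ^ (e * k)) = 2 ^ s * n ^ (e * k) * 2 ^ 2 := by ring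
      _ ≤ _ := Nat.mul_le_mul_right _ (Nat.mul_le_mul_left _ h1)
  have hU2 : 2 ^ (s + e * k * (Nat.log 2 n + 1) + 2) ≤ n ^ ((s + 2 + 2 * e) * k) := by
    have h1 : 2 ^ (e * k * (Nat.log 2 n + 1)) ≤ n ^ (2 * (e * k)) := by
      rw [mul_comm (e * k), pow_mul 2 (Nat.log 2 n + 1) (e * k), pow_mul n 2 (e * k)]
      exact Nat.pow_le_pow_left hl2 _
    calc 2 ^ (s + e * k * (Nat.log 2 n + 1) + 2) =
          2 ^ (s + 2) * 2 ^ (e * k * (Nat.log 2 n + 1)) := by rw [← pow_add]; congr 1; ring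
      _ ≤ n ^ (s + 2) * n ^ (2 * (e * k)) :=
          Nat.mul_le_mul (Nat.pow_le_pow_left hN2 _) h1
      _ = n ^ (s + 2 + 2 * (e * k)) := by rw [← pow_add]
      _ ≤ n ^ ((s + 2 + 2 * e) * k) := by
          apply Nat.pow_le_pow_right (by omega)
          have h2 : s + 2 ≤ (s + 2) * k := Nat.le_mul_of_pos_right _ hk
          calc s + 2 + 2 * (e * k) ≤ (s + 2) * k + 2 * (e * k) := by omega
            _ = (s + 2 + 2 * e) * k := by ring
  have hU1' : 4 * ((2 : ℚ) ^ s * (n : ℚ) ^ (e * k)) ≤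
      2 ^ (s + e * k * (Nat.log 2 n + 1) + 1) * 2 := by
    rw [← pow_succ]
    exact_mod_cast hU1
  have hU2' : (2 : ℚ) ^ (s + e * k * (Nat.log 2 n + 1) + 1) * 2 ≤
      (n : ℚ) ^ ((s + 2 + 2 * e) * k) := by
    rw [← pow_succ]
    exact_mod_cast hU2
  have hn0 : (0 : ℚ) < n := by exact_mod_cast (show 0 < n by omega)
  have hW : (0 : ℚ) < 2 ^ s * (n : ℚ) ^ (e * k) := by positivity
  have hG : (0 : ℚ) < (n : ℚ) ^ (e * k) := by positivity
  have hs : (0 : ℚ) < 2 ^ s := by positivity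
  generalize (n : ℚ) ^ ((s + 2 + 2 * e) * k) = V at *
  generalize (2 : ℚ) ^ (s + e * k * (Nat.log 2 n + 1) + 1) = U at *
  generalize (n : ℚ) ^ (e * k) = G at *
  generalize (2 : ℚ) ^ s = S at *
  have hU0 : 0 < U := by linarith
  have hV0 : 0 < V := by linarith
  have hV : 1 / V ≤ 1 / (U * 2) := one_div_le_one_div_of_le (by linarith) hU2'
  have hUW : 1 / (U * 2) ≤ 1 / (4 * (S * G)) := one_div_le_one_div_of_le (by linarith) hU1'
  have e1 : 1 / (U * 2) = 1 / U / 2 := by rw [div_div]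
  have e2 : 1 / (4 * (S * G)) = 1 / (S * G) / 4 := by rw [mul_comm 4, div_div]
  constructor
  · intro hg
    rw [hfx] at hg
    have h3 : 1 / (S * G) ≤ A - B := by
      rw [div_le_iff₀ hW]
      rw [div_le_iff₀ hG] at hg
      calc (1 : ℚ) ≤ S * (A - B) * G := hg
        _ = (A - B) * (S * G) := by ring
    linarith
  · intro h0
    rw [hfx] at h0
    have h3 : A - B ≤ 0 := by
      by_contra hc
      have := mul_pos hs (not_le.1 hc)
      linarith
    linarith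

/-- The zero test. -/
theorem cat_rep {κ : ℕ → ℕ} (hκ : LFx (fun x => κ x.length)) (hκ1 : ∀ n, 1 ≤ κ n)
    {f : List Bool → ℚ} (hf : Rep f) (e : ℕ) :
    CatTISP (fun n => (n + 2) ^ κ n) (fun n => κ n * Nat.log 2 (n + 2))
      (fun n => Nat.log 2 (n + 2) ^ 2 / (κ n * (Nat.log 2 (κ n) + 1)) +
        Nat.log 2 (n + 2) * Nat.log 2 (Nat.log 2 (n + 2)))
      {x | 1 / ((x.length : ℚ) + 2) ^ (e * κ x.length) ≤ f x} {x | f x ≤ 0} := by
  obtain ⟨s, A, B, hA, hB, h⟩ := hf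
  have hm : LFx (fun x => s + e * κ x.length * (Nat.log 2 (x.length + 2) + 1)) := by
    have h1 : LFx (fun x => Nat.log 2 (x.length + 2) + 1) :=
      (P313.LF.log2 (P313.LF.len.add (P313.LF.const 2))).succ
    have h2 : LFx (fun x => e * κ x.length * (Nat.log 2 (x.length + 2) + 1)) :=
      P313.LF.mul (P313.LF.mul (P313.LF.const e) hκ) h1
    exact P313.LF.add (P313.LF.const s) h2
  obtain ⟨QL, hQL⟩ := hA.avg IsPr.zero
  obtain ⟨QR, hQR⟩ := hB.avg (IsPr.tiny hm)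
  have hx := cat_chains (u := fun n => Nat.log 2 (n + 2) ^ 2 / (κ n * (Nat.log 2 (κ n) + 1)) +
    Nat.log 2 (n + 2) * Nat.log 2 (Nat.log 2 (n + 2))) hκ hκ1 QL QR (s + 2 + 2 * e)
    (fun hT hT1 => bdc_poly _ _ hκ1)
  have hN : ∀ x : List Bool, ((x.length + 2 : ℕ) : ℚ) = (x.length : ℚ) + 2 := fun x => by
    push_cast; ring
  refine hx.sub (fun x hx => ?_) (fun x hx => ?_)
  · have h1 := (gap_core (n := x.length + 2) (k := κ x.length) (e := e) (s := s) (A := A x)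
      (B := B x) (f := f x) (by omega) (hκ1 _) (h x)).1
    rw [hN] at h1
    show pr QR x + 1 / ((x.length : ℚ) + 2) ^ ((s + 2 + 2 * e) * κ x.length) ≤ pr QL x
    rw [hQL, hQR]
    exact h1 hx
  · have h1 := (gap_core (n := x.length + 2) (k := κ x.length) (e := e) (s := s) (A := A x)
      (B := B x) (f := f x) (by omega) (hκ1 _) (h x)).2
    rw [hN] at h1
    show pr QL x + 1 / ((x.length : ℚ) + 2) ^ ((s + 2 + 2 * e) * κ x.length) ≤ pr QR x
    rw [hQL, hQR]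
    exact h1 hx

/-- The zero test, for chains with few coins. -/
theorem cat_repL {κ lam : ℕ → ℕ} (hκ : LFx (fun x => κ x.length)) (hκ1 : ∀ n, 1 ≤ κ n)
    {f : List Bool → ℚ} (hf : PW.RepL κ lam f) (e : ℕ) :
    CatTISP (fun n => (n + 2) ^ κ n) (fun n => κ n * Nat.log 2 (n + 2))
      (fun n => Nat.log 2 (n + 2) * (Nat.log 2 (Nat.log 2 (n + 2)) + 1 +
        lam n / (κ n * (Nat.log 2 (κ n * (Nat.log 2 (n + 2) / lam n + 1)) + 1))))
      {x | 1 / ((x.length : ℚ) + 2) ^ (e * κ x.length) ≤ f x} {x | f x ≤ 0} := by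
  obtain ⟨s, A, B, hA, hB, h⟩ := hf
  have hm : LFx (fun x => s + e * κ x.length * (Nat.log 2 (x.length + 2) + 1)) := by
    have h1 : LFx (fun x => Nat.log 2 (x.length + 2) + 1) :=
      (P313.LF.log2 (P313.LF.len.add (P313.LF.const 2))).succ
    have h2 : LFx (fun x => e * κ x.length * (Nat.log 2 (x.length + 2) + 1)) :=
      P313.LF.mul (P313.LF.mul (P313.LF.const e) hκ) h1
    exact P313.LF.add (P313.LF.const s) h2
  obtain ⟨QL, CL, hCL, hQL⟩ := hA.avg PW.IsPrL.zero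
  obtain ⟨QB, CB, hCB, hQB⟩ := hB
  have hbd : ∀ x, QL.T x + (PT.cond (PT.tiny (fun _ => 0) PW.lfx_zero') QB (PT.tiny _ hm)).T x ≤
      (CL + CB + s + 2 * e + 2) * (2 ^ lam x.length + κ x.length * Ln x) := fun x => by
    show QL.T x + (0 + 1 + (QB.T x +
      (s + e * κ x.length * (Nat.log 2 (x.length + 2) + 1) + 1))) ≤ _
    have h1 := hCL x
    have h2 := hCB x
    unfold PW.Wn at h1 h2
    have hk := hκ1 x.length
    have hLe : Nat.log 2 (x.length + 2) = Ln x := rfl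
    have hL1 : 1 ≤ Ln x := Ln_pos x
    rw [hLe]
    generalize κ x.length = k at *
    generalize Ln x = Y at *
    generalize 2 ^ lam x.length = Z at *
    have h3 : 1 ≤ k * Y := Nat.mul_pos hk hL1
    have h4 : e * k ≤ e * (k * Y) := Nat.mul_le_mul_left _ (Nat.le_mul_of_pos_right _ hL1)
    have h5 : s + 2 ≤ (s + 2) * (k * Y) := Nat.le_mul_of_pos_right _ h3
    have e1 : e * k * (Y + 1) = e * (k * Y) + e * k := by ring
    rw [e1]
    generalize k * Y = R at *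
    have h6 : 0 ≤ (s + 2 * e + 2) * Z := Nat.zero_le _
    calc QL.T x + (0 + 1 + (QB.T x + (s + (e * R + e * k) + 1))) ≤
          CL * (Z + R) + CB * (Z + R) + (s + 2) * R + e * R + e * R := by omega
      _ ≤ CL * (Z + R) + CB * (Z + R) + (s + 2) * R + e * R + e * R +
            (s + 2 * e + 2) * Z := by omega
      _ = _ := by ring
  have hx := cat_chains (u := fun n => Nat.log 2 (n + 2) * (Nat.log 2 (Nat.log 2 (n + 2)) + 1 +
        lam n / (κ n * (Nat.log 2 (κ n * (Nat.log 2 (n + 2) / lam n + 1)) + 1))))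
    hκ hκ1 QL (PT.cond (PT.tiny (fun _ => 0) PW.lfx_zero') QB (PT.tiny _ hm))
    (s + 2 + 2 * e) (fun hT hT1 => bdc_few (lam := lam) _ _ (CL + CB + s + 2 * e + 2) hκ1 hbd)
  have hN : ∀ x : List Bool, ((x.length + 2 : ℕ) : ℚ) = (x.length : ℚ) + 2 := fun x => by
    push_cast; ring
  have hQR : ∀ x, pr (PT.cond (PT.tiny (fun _ => 0) PW.lfx_zero') QB (PT.tiny _ hm)) x = (B x +
      1 / 2 ^ ((s + e * κ x.length * (Nat.log 2 (x.length + 2) + 1)) + 1)) / 2 := by
    intro x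
    have h1 := pr_tiny (fun _ => 0) PW.lfx_zero' x
    have h2 := pr_tiny _ hm x
    rw [pr_cond, h1, hQB, h2]
    ring
  refine hx.sub (fun x hx => ?_) (fun x hx => ?_)
  · have h1 := (gap_core (n := x.length + 2) (k := κ x.length) (e := e) (s := s) (A := A x)
      (B := B x) (f := f x) (by omega) (hκ1 _) (h x)).1
    rw [hN] at h1
    show pr _ x + 1 / ((x.length : ℚ) + 2) ^ ((s + 2 + 2 * e) * κ x.length) ≤ pr QL x
    rw [hQL, hQR]
    exact h1 hx
  · have h1 := (gap_core (n := x.length + 2) (k := κ x.length) (e := e) (s := s) (A := A x)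
      (B := B x) (f := f x) (by omega) (hκ1 _) (h x)).2
    rw [hN] at h1
    show pr QL x + 1 / ((x.length : ℚ) + 2) ^ ((s + 2 + 2 * e) * κ x.length) ≤ pr _ x
    rw [hQL, hQR]
    exact h1 hx

end PC

end Vale.Agent.P313
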