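import Vale.Agent.P313.H463.Cat16

/-!
Polynomials in acceptance probabilities, with a catalytic tape.
-/

namespace Vale.Agent.P313

open Finset CP Sel RI PT

/-- `CatSolves` is monotone in the promise. -/
theorem RTM.CatSolves.sub {M : RTM} {Y N Y' N' : Set (List Bool)} {T S C : ℕ → ℝ}
    (h : M.CatSolves Y N T S C) (hY : Y' ⊆ Y) (hN : N' ⊆ N) : M.CatSolves Y' N' T S C := by
  obtain ⟨hD, i, e, he, hb, h⟩ := h
  refine ⟨hD, i, e, he, hb, fun x w hw => ?_⟩
  obtain ⟨⟨v, h1, h2, h3⟩, h4⟩ := h x w hw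
  exact ⟨⟨v, fun hx => h1 (hY hx), fun hx => h2 (hN hx), h3⟩, h4⟩

namespace PC

/-- The sign of a polynomial. -/
theorem cat_poly {κ : ℕ → ℕ} (hκ : LogConstructible κ) (hκ1 : ∀ n, 1 ≤ κ n)
    {k : ℕ} (M : Fin k → RTM) (c : Fin k → ℕ)
    (hM : ∀ i, (M i).Bounded (fun n => (n + 2) ^ c i) (fun n => c i * Nat.log 2 (n + 2)))
    (P : MvPolynomial (Option (Fin k)) ℤ) (e : ℕ) :
    CatTISP (fun n => (n + 2) ^ κ n) (fun n => κ n * Nat.log 2 (n + 2))
      (fun n => Nat.log 2 (n + 2) ^ 2 / (κ n * (Nat.log 2 (κ n) + 1)) +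
        Nat.log 2 (n + 2) * Nat.log 2 (Nat.log 2 (n + 2)))
      {x | 1 / ((x.length : ℚ) + 2) ^ (e * κ x.length) ≤ MvPolynomial.aeval (point κ M c x) P}
      {x | MvPolynomial.aeval (point κ M c x) P ≤ 0} := by
  have hκ' := lfx_of_constructible hκ
  have h := rep_aeval (p := fun i x => point κ M c x i) (fun i => by
    cases i with
    | none => exact isPr_small hκ' hκ1
    | some i => exact IsPr.machine (M i) (c i) (hM i)) P
  exact cat_rep hκ' hκ1 h e

/-- The sign of a polynomial, few random bits. -/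
theorem cat_polyL {κ lam : ℕ → ℕ} (hκ : LogConstructible κ) (hl : LogConstructible lam)
    (hκ1 : ∀ n, 1 ≤ κ n) {k : ℕ} (M : Fin k → RTM) (c : Fin k → ℕ)
    (hM : ∀ i, (M i).Bounded (fun n => (n + 2) ^ c i) (fun n => c i * Nat.log 2 (n + 2)))
    (hR : ∀ i (x : List Bool) (v : Bool),
      (M i).probAt x v ((x.length + 2) ^ c i) (2 ^ lam x.length + 1) (M i).init = 0)
    (P : MvPolynomial (Option (Fin k)) ℤ) (e : ℕ) :
    CatTISP (fun n => (n + 2) ^ κ n) (fun n => κ n * Nat.log 2 (n + 2))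
      (fun n => Nat.log 2 (n + 2) * (Nat.log 2 (Nat.log 2 (n + 2)) + 1 +
        lam n / (κ n * (Nat.log 2 (κ n * (Nat.log 2 (n + 2) / lam n + 1)) + 1))))
      {x | 1 / ((x.length : ℚ) + 2) ^ (e * κ x.length) ≤ MvPolynomial.aeval (point κ M c x) P}
      {x | MvPolynomial.aeval (point κ M c x) P ≤ 0} := by
  have hκ' := lfx_of_constructible hκ
  have hl' := lfx_of_constructible hl
  have h := PW.rep_aevalL (κ := κ) (lam := lam) (p := fun i x => point κ M c x i) (fun i => by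
    cases i with
    | none => exact PW.IsPrL.small hκ' hκ1
    | some i => exact PW.IsPrL.machine hl' (M i) (c i) (hM i) (hR i)) P
  exact cat_repL hκ' hκ1 h e

/-- The sign of a polynomial, real exponents. -/
theorem cat_polyB (a b : ℕ) (ha : 0 < a) (hb : 2 * a < b) {k : ℕ} (M : Fin k → RTM)
    (c : Fin k → ℕ)
    (hM : ∀ i, (M i).Bounded (fun n => (n + 2) ^ c i) (fun n => c i * Nat.log 2 (n + 2)))
    (P : MvPolynomial (Fin k) ℤ) (e : ℕ) :
    ∃ (D : RTM) (C : ℝ), D.CatSolves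
      {x | 2 ^ (-(e * Real.logb 2 ((x.length : ℝ) + 2) ^ (1 + (a : ℝ) / b))) ≤
        ((MvPolynomial.aeval (fun i =>
          (M i).probAt x true ((x.length + 2) ^ c i) 0 (M i).init) P : ℚ) : ℝ)}
      {x | MvPolynomial.aeval (fun i =>
          (M i).probAt x true ((x.length + 2) ^ c i) 0 (M i).init) P ≤ 0}
      (fun n => 2 ^ (C * Real.logb 2 (n + 2) ^ (1 + (a : ℝ) / b)))
      (fun n => C * Real.logb 2 (n + 2) ^ (1 + (a : ℝ) / b))
      (fun n => C * Real.logb 2 (n + 2) ^ (2 - (a : ℝ) / b) /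
        Real.logb 2 (Real.logb 2 (n + 2) + 1)) := by
  have hf := rep_aeval (p := fun i x => (M i).probAt x true ((x.length + 2) ^ c i) 0 (M i).init)
    (fun i => IsPr.machine (M i) (c i) (hM i)) P
  have h := cat_rep (κ := fun n => rt a b (Nat.log 2 (n + 2))) (lfx_rt a b)
    (fun n => rt_pos (Nat.le_log_of_pow_le (by norm_num) (by omega)) (by omega)) hf (4 * e)
  obtain ⟨D, C, hD⟩ := cat_beta ha hb (fun n => rt_spec (by omega)) h
  refine ⟨D, C, hD.sub (fun x hx => ?_) (fun x hx => hx)⟩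
  have hg := gap_le (n := x.length) ha hb e
    (rt_spec (a := a) (b := b) (L := Nat.log 2 (x.length + 2)) (by omega)).2
  show 1 / ((x.length : ℚ) + 2) ^ (4 * e * rt a b (Nat.log 2 (x.length + 2))) ≤ _
  rw [← Rat.cast_le (K := ℝ)]
  push_cast
  refine hg.trans ?_
  have hx' : (2 : ℝ) ^ (-(e * Real.logb 2 ((x.length : ℝ) + 2) ^ (1 + (a : ℝ) / b))) ≤
      ((MvPolynomial.aeval (fun i =>
          (M i).probAt x true ((x.length + 2) ^ c i) 0 (M i).init) P : ℚ) : ℝ) := hx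
  exact hx'

end PC

end Vale.Agent.P313
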