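import Vale.Agent.P313.H463.Cat1

/-!
Programs whose state is one number and the bits of the work tape.
-/

namespace Vale.Agent.P313.TS

open Finset

/-- Inputs with a number (question `0`) and the bits of a tape (question `n + 1`) as oracle. -/
def IZ (x : List Bool) (c : ℕ → Bool) (Z H : ℕ) : Inp :=
  ⟨x, fun q => if q = 0 then Z else OB c H (q - 1), Z + 1, by
    intro q
    by_cases h : q = 0
    · rw [if_pos h]; omega
    · rw [if_neg h]; exact (OB_le _ _ _).trans (by omega), 0⟩

/-- Answer to the question in register `a`, into register `o`. -/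
def zQ (K o a : ℕ) : Prog :=
  Prog.ifz a (Prog.seq (clear o) (copy K o (K + 2)))
    (Prog.seq (Prog.dec a) (Prog.seq (bitQ (K + 1) o a)
      (if a = o then Prog.skip else Prog.inc a)))

theorem zQ_noO (K o a : ℕ) : (zQ K o a).NoO := by
  refine ⟨⟨?_, ?_⟩, trivial, bitQ_noO _ _ _, ?_⟩
  · simp [clear, Prog.NoO]
  · simp [copy, move, Prog.NoO]
  · split_ifs <;> trivial

theorem run_zQ {x : List Bool} {H Z : ℕ} {c : ℕ → Bool} {K o a R : ℕ} (ho : o < K) (ha : a < K)
    (s : PS) (h0 : s.reg K = Z) (h1 : s.reg (K + 1) = H) (h2 : ∀ r, K + 1 < r → s.reg r = 0)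
    (h3 : s.tp = ⟨c, 0⟩) (hR : ∀ r, r < K → s.reg r ≤ R) :
    Run (IT x H) (zQ K o a) s (s.set o ((IZ x c Z H).O (s.reg a)))
      (20 * (R + Z) + 20 * H + 5 * Z + 40) := by
  have hoR := hR o ho
  have haR := hR a ha
  by_cases hz : s.reg a = 0
  · have e : (IZ x c Z H).O (s.reg a) = Z := by simp [IZ, hz]
    rw [e]
    have r1 := run_clear (x := IT x H) o s
    have r2 := run_copy (x := IT x H) (r := K) (o := o) (t := K + 2) (by omega) (by omega)
      (by omega) (s.set o 0) (by
        simp only [PS.set_reg, Function.update_apply]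
        rw [if_neg (by omega)]
        exact h2 _ (by omega))
    have e1 : (s.set o 0).reg K = Z := by
      simp only [PS.set_reg, Function.update_apply]; rw [if_neg (by omega)]; exact h0
    have e2 : (s.set o 0).reg o = 0 := by simp
    rw [e1, e2, zero_add] at r2
    have e3 : (s.set o 0).set o Z = s.set o Z := by
      apply PS.ext'
      · intro r; simp [PS.set]
      · rfl
    rw [e3] at r2
    exact (Run.ifz_z hz (Run.seq r1 r2)).mono (by omega)
  · have e : (IZ x c Z H).O (s.reg a) = OB c H (s.reg a - 1) := by simp [IZ, hz]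
    rw [e]
    have r1 := Run.dec (x := IT x H) a s
    have r2 := run_bitQ (x := x) (H := H) (c := c) (K := K + 1) (o := o) (a := a) (R := R + Z)
      (by omega) (by omega) (s.set a (s.reg a - 1)) (by
        simp only [PS.set_reg, Function.update_apply]; rw [if_neg (by omega)]; exact h1) (by
        intro r hr
        simp only [PS.set_reg, Function.update_apply]; rw [if_neg (by omega)]; exact h2 r hr) h3 (by
        intro r hr
        simp only [PS.set_reg, Function.update_apply]
        split_ifs with h
        · omega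
        · rcases Nat.lt_succ_iff_lt_or_eq.1 hr with h' | h'
          · have := hR r h'; omega
          · rw [h', h0]; omega)
    have e1 : (s.set a (s.reg a - 1)).reg a = s.reg a - 1 := by simp
    rw [e1] at r2
    by_cases hao : a = o
    · have e2 : (s.set a (s.reg a - 1)).set o (OB c H (s.reg a - 1)) =
          s.set o (OB c H (s.reg a - 1)) := by
        subst hao
        apply PS.ext'
        · intro r; simp [PS.set]
        · rfl
      rw [e2] at r2
      have r3 := Run.skip (x := IT x H) (s.set o (OB c H (s.reg a - 1)))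
      refine (Run.ifz_nz hz (Run.seq r1 (Run.seq r2 ?_))).mono (c := (1 + (20 * (R + Z) +
        20 * H + 30 + 0)) + 1) (by omega)
      rw [if_pos hao]
      exact r3
    · have r3 := Run.inc (x := IT x H) a
        ((s.set a (s.reg a - 1)).set o (OB c H (s.reg a - 1)))
      have e2 : ((s.set a (s.reg a - 1)).set o (OB c H (s.reg a - 1))).set a
          (((s.set a (s.reg a - 1)).set o (OB c H (s.reg a - 1))).reg a + 1) =
          s.set o (OB c H (s.reg a - 1)) := by
        apply PS.ext'
        · intro r
          simp only [PS.set_reg, Function.update_apply]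
          split_ifs <;> first | rfl | omega | (subst_vars; omega)
        · rfl
      rw [e2] at r3
      refine (Run.ifz_nz hz (Run.seq r1 (Run.seq r2 ?_))).mono (c := (1 + (20 * (R + Z) +
        20 * H + 30 + 1)) + 1) (by omega)
      rw [if_neg hao]
      exact r3

/-- Programs for functions which use the number and the bits of the tape. -/
theorem LF.bitsZ {k : ℕ} {f : Fn k} (hf : LF f) (args : Fin k → ℕ) (out b : ℕ)
    (h1 : ∀ i, args i < b) (h2 : out < b) (h3 : ∀ i, args i ≠ out) :
    ∃ (P : ℕ → Prog) (K0 d : ℕ), b ≤ K0 ∧ ∀ K, K0 ≤ K → (P K).NoO ∧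
      ∀ (x : List Bool) (H R Z : ℕ) (c : ℕ → Bool) (s : PS),
      (∀ r, b ≤ r → r < K → s.reg r = 0) → s.reg K = Z → s.reg (K + 1) = H →
      (∀ r, K + 1 < r → s.reg r = 0) →
      s.reg out = 0 → s.pos = 0 → s.tp = ⟨c, 0⟩ → (∀ r, r < K → s.reg r ≤ R) →
      Run (IT x H) (P K) s (s.set out (f (IZ x c Z H) (fun i => s.reg (args i))))
        ((x.length + R + H + Z + 3) ^ d) := by
  obtain ⟨P0, C, ⟨d, hd⟩, hP⟩ := hf
  set P := P0 args out b with hPdef
  refine ⟨fun K => P.rep (zQ K), Max.max b P.rb, 2 * ((k + 1) * d) + 8, le_max_left _ _, ?_⟩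
  intro K hK
  refine ⟨Prog.noO_rep (zQ_noO K) P, ?_⟩
  intro x H R Z cl s hz hKZ hKH hz' ho hp htp hR
  have hbK : b ≤ K := (le_max_left _ _).trans hK
  set s0 : PS := ⟨fun r => if r < K then s.reg r else 0, 0, s.tp⟩ with hs0
  have hargs : ∀ i, s0.reg (args i) = s.reg (args i) := by
    intro i; simp only [hs0]; rw [if_pos (by have := h1 i; omega)]
  have r0 := hP args out b h1 h2 h3 (IZ x cl Z H) s0 (by
      intro r hr
      simp only [hs0]
      split_ifs with h
      · exact hz r hr h
      · rfl) (by simp only [hs0]; rw [if_pos (by omega)]; exact ho) rfl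
  simp only [hargs] at r0
  set v := f (IZ x cl Z H) (fun i => s.reg (args i)) with hv
  set c := C (IZ x cl Z H) (fun i => s.reg (args i)) with hc
  set X := x.length + R + H + Z + 3 with hX
  have hcle : c ≤ X ^ ((k + 1) * d) := by
    refine (hd (IZ x cl Z H) (fun i => s.reg (args i))).trans ?_
    rw [pow_mul]
    apply Nat.pow_le_pow_left
    apply mu_le_pow _ _ (by omega)
    · show x.length + (Z + 1) + 2 ≤ _
      omega
    · intro i
      have := hR (args i) (by have := h1 i; omega)
      omega
  have hQ : ∀ o a, o < K → a < K → ∀ s' : PS,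
      (∀ r, K ≤ r → s'.reg r = (fun r => if r = K then Z else if r = K + 1 then H else 0) r) →
      s'.pos = 0 → s'.tp = ⟨cl, 0⟩ → (∀ r, r < K → s'.reg r ≤ R + c) →
      Run (IT x H) (zQ K o a) s' (s'.set o ((IZ x cl Z H).O (s'.reg a)))
        (20 * ((R + c) + Z) + 20 * H + 5 * Z + 40) := by
    intro o a ho' ha s' hV _ htp' hR'
    exact run_zQ ho' ha s' (by rw [hV K le_rfl]; simp) (by rw [hV (K + 1) (by omega)]; simp) (by
      intro r hr
      rw [hV r (by omega)]; simp only; rw [if_neg (by omega), if_neg (by omega)]) htp' hR'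
  have r1 := Run.rep (x := IZ x cl Z H) (x' := IT x H) rfl rfl hQ r0
    ((Prog.Rb_rb P).mono ((le_max_right _ _).trans hK)) (by
      intro r
      simp only [hs0]
      split_ifs with h
      · have := hR r h; omega
      · omega)
  have e1 : s0.lift K (fun r => if r = K then Z else if r = K + 1 then H else 0) ⟨cl, 0⟩ = s := by
    apply PS.ext'
    · intro r
      simp only [PS.lift, hs0]
      split_ifs with h1 h2 h3
      · rfl
      · rw [h2, hKZ]
      · rw [h3, hKH]
      · exact (hz' r (by omega)).symm
    · show ((0 : ℕ), (⟨cl, 0⟩ : TP)) = (s.pos, s.tp)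
      rw [hp, htp]
  have e2 : (s0.set out v).lift K (fun r => if r = K then Z else if r = K + 1 then H else 0)
      ⟨cl, 0⟩ = s.set out v := by
    rw [PS.lift_set (by omega), e1]
  rw [e1, e2] at r1
  refine r1.mono ?_
  exact cost_le (by omega) hcle (by omega)

/-- States of the main loop. -/
def mz (B u Z H K : ℕ) (c : ℕ → Bool) : PS :=
  ⟨fun r => if r = 0 then B else if r = 1 then u else if r = K then Z else
    if r = K + 1 then H else 0, 0, ⟨c, 0⟩⟩

/-- The state (tape, number) after `s` steps. -/
def czS (ff pf zf : Fn 1) (x : List Bool) (B H : ℕ) (c0 : ℕ → Bool) : ℕ → (ℕ → Bool) × ℕ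
  | 0 => (c0, 0)
  | s + 1 =>
    (Function.update (czS ff pf zf x B H c0 s).1
      (pf (IZ x (czS ff pf zf x B H c0 s).1 (czS ff pf zf x B H c0 s).2 H) (fun _ => B))
      (decide (ff (IZ x (czS ff pf zf x B H c0 s).1 (czS ff pf zf x B H c0 s).2 H)
        (fun _ => B) ≠ 0)),
      zf (IZ x (czS ff pf zf x B H c0 s).1 (czS ff pf zf x B H c0 s).2 H) (fun _ => B))

/-- Specification of programs for functions of the number, the bits and register `0`. -/
def SpecZ (x : List Bool) (H : ℕ) (P : Prog) (K d out : ℕ) (f : Fn 1) : Prop :=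
  ∀ (R Z : ℕ) (c : ℕ → Bool) (s : PS),
    (∀ r, 8 ≤ r → r < K → s.reg r = 0) → s.reg K = Z → s.reg (K + 1) = H →
    (∀ r, K + 1 < r → s.reg r = 0) →
    s.reg out = 0 → s.pos = 0 → s.tp = ⟨c, 0⟩ → (∀ r, r < K → s.reg r ≤ R) →
    Run (IT x H) P s (s.set out (f (IZ x c Z H) (fun _ => s.reg 0)))
      ((x.length + R + H + Z + 3) ^ d)

/-- The search for a bound in register `0`; scratch registers `1`, `2`. -/
theorem search_runC {x : List Bool} {H : ℕ} {g0 : Fn 1} {P : Prog} {K d : ℕ} {c0 : ℕ → Bool}
    (hP : ∀ (R : ℕ) (s : PS), (∀ r, 8 ≤ r → r < K → s.reg r = 0) → s.reg 1 = 0 → s.pos = 0 →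
      (∀ r, r < K → s.reg r ≤ R) →
      Run (IT x H) P s (s.set 1 (g0 (I0 x) (fun _ => s.reg 0))) ((x.length + R + 2) ^ d))
    {B : ℕ} (hz : ∀ m < B, g0 (I0 x) (fun _ => m) = 0) (hB : g0 (I0 x) (fun _ => B) ≠ 0) :
    ∀ j m, m + j = B →
      Run (IT x H) (Prog.loop 2 (Prog.seq P (Prog.ifz 1 (Prog.seq (Prog.inc 0) (Prog.inc 2))
          Prog.skip)))
        (((ini c0).set 0 m).set 2 1) (((ini c0).set 0 B).set 1 (g0 (I0 x) (fun _ => B)))
        ((j + 1) * ((x.length + (B + 1) + 2) ^ d + 5) + 1) := by
  intro j
  set Kc := (x.length + (B + 1) + 2) ^ d with hKc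
  have e0 : ∀ m, (((ini c0).set 0 m).set 2 1).set 2 ((((ini c0).set 0 m).set 2 1).reg 2 - 1) =
      (ini c0).set 0 m := by
    intro m
    apply PS.ext'
    · intro r
      simp only [PS.set, ini, Function.update_apply]
      split_ifs <;> first | rfl | omega | simp_all
    · rfl
  have e1 : ∀ m, (((ini c0).set 0 m).set 2 1).reg 2 ≠ 0 := by
    intro m; simp
  have run1 : ∀ m, m ≤ B → Run (IT x H) P ((ini c0).set 0 m)
      (((ini c0).set 0 m).set 1 (g0 (I0 x) (fun _ => m))) Kc := by
    intro m hm
    have := hP (B + 1) ((ini c0).set 0 m) (by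
      intro r hr _
      simp only [PS.set, ini, Function.update_apply]
      rw [if_neg (by omega)]) (by simp) rfl (by
      intro r _
      simp only [PS.set, ini, Function.update_apply]
      split_ifs <;> omega)
    simpa using this
  induction j with
  | zero =>
    intro m hm
    have hm' : m = B := by omega
    subst hm'
    have r1 := run1 m le_rfl
    rw [← e0 m] at r1
    have h1 : (((ini c0).set 0 m).set 1 (g0 (I0 x) (fun _ => m))).reg 1 ≠ 0 := by
      simpa using hB
    have r2 := Run.ifz_nz (x := IT x H) (r := 1) (p := Prog.seq (Prog.inc 0) (Prog.inc 2)) h1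
      (Run.skip (((ini c0).set 0 m).set 1 (g0 (I0 x) (fun _ => m))))
    have r3 : Run (IT x H) (Prog.loop 2 (Prog.seq P (Prog.ifz 1 (Prog.seq (Prog.inc 0)
        (Prog.inc 2)) Prog.skip))) (((ini c0).set 0 m).set 1 (g0 (I0 x) (fun _ => m)))
        (((ini c0).set 0 m).set 1 (g0 (I0 x) (fun _ => m))) 1 := by
      apply Run.loop_z
      simp
    rw [e0 m] at r1
    refine (Run.loop_nz (e1 m) (by rw [e0 m]; exact Run.seq r1 r2) r3).mono ?_
    omega
  | succ j ih =>
    intro m hm
    have h0 := hz m (by omega)
    have r1 := run1 m (by omega)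
    rw [h0] at r1
    have e2 : ((ini c0).set 0 m).set 1 0 = (ini c0).set 0 m := by
      apply PS.ext'
      · intro r
        simp only [PS.set, ini, Function.update_apply]
        split_ifs <;> first | rfl | omega | simp_all
      · rfl
    rw [e2] at r1
    have h1 : ((ini c0).set 0 m).reg 1 = 0 := by simp
    have r2 := Run.inc (x := IT x H) 0 ((ini c0).set 0 m)
    have r3 := Run.inc (x := IT x H) 2 (((ini c0).set 0 m).set 0 (((ini c0).set 0 m).reg 0 + 1))
    have e3 : (((ini c0).set 0 m).set 0 (((ini c0).set 0 m).reg 0 + 1)).set 2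
        ((((ini c0).set 0 m).set 0 (((ini c0).set 0 m).reg 0 + 1)).reg 2 + 1) =
        ((ini c0).set 0 (m + 1)).set 2 1 := by
      apply PS.ext'
      · intro r
        simp only [PS.set, ini, Function.update_apply]
        split_ifs <;> first | rfl | omega | (clear x H g0 P K d hP B hz hB Kc hKc e0 e1 run1 j ih hm h0 r1 e2 h1 r2 r3; simp_all)
      · rfl
    rw [e3] at r3
    have r4 := Run.ifz_z (x := IT x H) (r := 1) (q := Prog.skip) h1 (Run.seq r2 r3)
    have r5 := ih (m + 1) (by omega)
    refine (Run.loop_nz (e1 m) (by rw [e0 m]; exact Run.seq r1 r4) r5).mono ?_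
    have e : (j + 1 + 1) * (Kc + 5) = (j + 1) * (Kc + 5) + (Kc + 5) := by ring
    rw [e]
    omega

theorem run_mainC {x : List Bool} {H K d B R ZB : ℕ} {ff pf zf : Fn 1} {P1 P2 P3 : Prog}
    {c0 : ℕ → Bool} (hK : 8 ≤ K) (hP1 : SpecZ x H P1 K d 6 pf) (hP2 : SpecZ x H P2 K d 5 ff)
    (hP3 : SpecZ x H P3 K d 2 zf) {S : ℕ}
    (hp : ∀ s < S, pf (IZ x (czS ff pf zf x B H c0 s).1 (czS ff pf zf x B H c0 s).2 H)
      (fun _ => B) < H)
    (hZ : ∀ s ≤ S, (czS ff pf zf x B H c0 s).2 ≤ ZB) (hR : B + S + H ≤ R) :
    Run (IT x H) (Prog.loop 1 (Prog.seq P1 (Prog.seq P2 (Prog.seq P3 (Prog.seq wrB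
        (Prog.seq (clear K) (move 2 K)))))))
      (mz B S 0 H K c0) (mz B 0 (czS ff pf zf x B H c0 S).2 H K (czS ff pf zf x B H c0 S).1)
      (S * (5 * (x.length + (R + (x.length + R + H + ZB + 3) ^ d) + H + ZB + 3) ^ d +
        9 * H + 3 * ZB + 20) + 1) := by
  set R2 := R + (x.length + R + H + ZB + 3) ^ d with hR2
  set X := (x.length + R2 + H + ZB + 3) ^ d with hX
  have hXR : (x.length + R + H + ZB + 3) ^ d ≤ X := Nat.pow_le_pow_left (by omega) _
  have := Run.loop_iter (x := IT x H) (r := 1)
    (p := Prog.seq P1 (Prog.seq P2 (Prog.seq P3 (Prog.seq wrB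
        (Prog.seq (clear K) (move 2 K))))))
    (c := 5 * X + 9 * H + 3 * ZB + 15) S
    (fun i => mz B (S - i) (czS ff pf zf x B H c0 i).2 H K (czS ff pf zf x B H c0 i).1)
    (fun i _ => by simp only [mz, one_ne_zero, ↓reduceIte]) (fun i hi => by
      set c := (czS ff pf zf x B H c0 i).1 with hc
      set Z := (czS ff pf zf x B H c0 i).2 with hZi
      have hZle : Z ≤ ZB := hZ i (by omega)
      set s0 := (mz B (S - i) Z H K c).set 1 (S - i - 1) with hs0
      have f0 : ∀ r, s0.reg r = if r = 0 then B else if r = 1 then S - i - 1 else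
          if r = K then Z else if r = K + 1 then H else 0 := by
        intro r
        simp only [hs0, mz, PS.set, Function.update_apply]
        split_ifs <;> first | rfl | omega
      set pv := pf (IZ x c Z H) (fun _ => B) with hpv
      have hpvH : pv < H := hp i hi
      have r1 := hP1 R Z c s0 (by
        intro r hr hr'
        rw [f0]
        split_ifs <;> omega)
        (by rw [f0, if_neg (by omega), if_neg (by omega), if_pos rfl])
        (by rw [f0, if_neg (by omega), if_neg (by omega), if_neg (by omega), if_pos rfl]) (by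
        intro r hr
        rw [f0]
        split_ifs <;> omega)
        (by rw [f0, if_neg (by omega), if_neg (by omega), if_neg (by omega), if_neg (by omega)])
        rfl rfl (by
        intro r hr
        rw [f0]
        split_ifs <;> omega)
      have ea : s0.reg 0 = B := by rw [f0]; simp
      rw [ea] at r1
      set s1 := s0.set 6 pv with hs1
      have f1 : ∀ r, s1.reg r = if r = 6 then pv else if r = 0 then B else
          if r = 1 then S - i - 1 else if r = K then Z else if r = K + 1 then H else 0 := by
        intro r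
        simp only [hs1, PS.set_reg, Function.update_apply, f0]
      have r2 := hP2 R Z c s1 (by
        intro r hr hr'
        rw [f1]
        split_ifs <;> omega)
        (by rw [f1, if_neg (by omega), if_neg (by omega), if_neg (by omega), if_pos rfl])
        (by rw [f1, if_neg (by omega), if_neg (by omega), if_neg (by omega), if_neg (by omega),
          if_pos rfl]) (by
        intro r hr
        rw [f1]
        split_ifs <;> omega)
        (by rw [f1, if_neg (by omega), if_neg (by omega), if_neg (by omega), if_neg (by omega),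
          if_neg (by omega)]) rfl rfl (by
        intro r hr
        rw [f1]
        split_ifs <;> omega)
      have eb : s1.reg 0 = B := by rw [f1]; simp
      rw [eb] at r2
      set fv := ff (IZ x c Z H) (fun _ => B) with hfv
      set s2 := s1.set 5 fv with hs2
      have f2 : ∀ r, s2.reg r = if r = 5 then fv else if r = 6 then pv else if r = 0 then B else
          if r = 1 then S - i - 1 else if r = K then Z else if r = K + 1 then H else 0 := by
        intro r
        simp only [hs2, PS.set_reg, Function.update_apply, f1]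
      have hmono1 : (x.length + R + H + Z + 3) ^ d ≤ (x.length + R + H + ZB + 3) ^ d :=
        Nat.pow_le_pow_left (by omega) _
      have hfvle : fv ≤ (x.length + R + H + ZB + 3) ^ d := by
        have := r2.reg_le 5
        have e5 : s2.reg 5 = fv := by rw [f2]; simp
        have e6 : s1.reg 5 = 0 := by
          rw [f1, if_neg (by omega), if_neg (by omega), if_neg (by omega), if_neg (by omega),
            if_neg (by omega)]
        rw [e5, e6] at this
        omega
      have r3 := hP3 R2 Z c s2 (by
        intro r hr hr'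
        rw [f2]
        split_ifs <;> omega)
        (by rw [f2, if_neg (by omega), if_neg (by omega), if_neg (by omega), if_neg (by omega),
          if_pos rfl])
        (by rw [f2, if_neg (by omega), if_neg (by omega), if_neg (by omega), if_neg (by omega),
          if_neg (by omega), if_pos rfl]) (by
        intro r hr
        rw [f2]
        split_ifs <;> omega)
        (by rw [f2, if_neg (by omega), if_neg (by omega), if_neg (by omega), if_neg (by omega),
          if_neg (by omega), if_neg (by omega)]) rfl rfl (by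
        intro r hr
        rw [f2]
        split_ifs <;> omega)
      have ec : s2.reg 0 = B := by rw [f2]; simp
      rw [ec] at r3
      set zv := zf (IZ x c Z H) (fun _ => B) with hzv
      have hzvle : zv ≤ ZB := hZ (i + 1) (by omega)
      set s3 := s2.set 2 zv with hs3
      have f3 : ∀ r, s3.reg r = if r = 2 then zv else if r = 5 then fv else if r = 6 then pv else
          if r = 0 then B else if r = 1 then S - i - 1 else if r = K then Z else
          if r = K + 1 then H else 0 := by
        intro r
        simp only [hs3, PS.set_reg, Function.update_apply, f2]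
      have g6 : s3.reg 6 = pv := by rw [f3]; simp
      have g5 : s3.reg 5 = fv := by rw [f3]; simp
      have r4 := run_wrB (x := x) (H := H) (c := c) s3
        (by rw [f3, if_neg (by omega), if_neg (by omega), if_neg (by omega), if_neg (by omega),
          if_neg (by omega), if_neg (by omega), if_neg (by omega)])
        (by rw [f3, if_neg (by omega), if_neg (by omega), if_neg (by omega), if_neg (by omega),
          if_neg (by omega), if_neg (by omega), if_neg (by omega)])
        rfl rfl (by rw [g6]; exact hpvH)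
      rw [g6, g5] at r4
      set c' := Function.update c pv (decide (fv ≠ 0)) with hc'
      set s4 := ((s3.set 5 0).set 6 0).wt ⟨c', 0⟩ with hs4
      have f4 : ∀ r, s4.reg r = if r = 2 then zv else
          if r = 0 then B else if r = 1 then S - i - 1 else if r = K then Z else
          if r = K + 1 then H else 0 := by
        intro r
        simp only [hs4, PS.wt, PS.set_reg, Function.update_apply, f3]
        split_ifs <;> first | rfl | omega
      have r5 := run_clear (x := IT x H) K s4
      have g7 : s4.reg K = Z := by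
        rw [f4, if_neg (by omega), if_neg (by omega), if_neg (by omega), if_pos rfl]
      rw [g7] at r5
      have r6 := run_move (x := IT x H) (r := 2) (o := K) (by omega) (s4.set K 0)
      have g8 : (s4.set K 0).reg K = 0 := by simp
      have g9 : (s4.set K 0).reg 2 = zv := by
        simp only [PS.set_reg, Function.update_apply]
        rw [if_neg (by omega), f4]; simp
      rw [g8, g9, zero_add] at r6
      have e6 : ((s4.set K 0).set 2 0).set K zv =
          mz B (S - (i + 1)) (czS ff pf zf x B H c0 (i + 1)).2 H K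
            (czS ff pf zf x B H c0 (i + 1)).1 := by
        apply PS.ext'
        · intro r
          have hz' : (czS ff pf zf x B H c0 (i + 1)).2 = zv := rfl
          rw [hz']
          simp only [mz, PS.set_reg, Function.update_apply, f4]
          split_ifs <;> first | rfl | omega
        · rfl
      rw [e6] at r6
      refine (Run.seq r1 (Run.seq r2 (Run.seq r3 (Run.seq r4 (Run.seq r5 r6))))).mono ?_
      have hX1 : (x.length + R + H + Z + 3) ^ d ≤ X := Nat.pow_le_pow_left (by omega) _
      have hX2 : (x.length + R2 + H + Z + 3) ^ d ≤ X := Nat.pow_le_pow_left (by omega) _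
      omega)
  simp only [Nat.sub_zero, Nat.sub_self] at this
  refine this.mono ?_
  have e : 5 * X + 9 * H + 3 * ZB + 15 + 1 ≤ 5 * X + 9 * H + 3 * ZB + 20 := by omega
  have := Nat.mul_le_mul_left S e
  omega

/-- The whole program. -/
def progC (P0 PH PS' Pp Pf Pz Pn : Prog) (K : ℕ) : Prog :=
  Prog.seq (Prog.seq (Prog.inc 2) (Prog.seq
    (Prog.loop 2 (Prog.seq P0 (Prog.ifz 1 (Prog.seq (Prog.inc 0) (Prog.inc 2)) Prog.skip)))
    (Prog.seq (clear 1) (Prog.seq PH (move 3 (K + 1)))))) (Prog.seq PS'
      (Prog.seq (Prog.loop 1 (Prog.seq Pp (Prog.seq Pf (Prog.seq Pz (Prog.seq wrB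
        (Prog.seq (clear K) (move 2 K))))))) Pn))

theorem progC_noO {P0 PH PS' Pp Pf Pz Pn : Prog} {K : ℕ} (h1 : P0.NoO) (h2 : PH.NoO)
    (h3 : PS'.NoO) (h4 : Pp.NoO) (h5 : Pf.NoO) (h6 : Pz.NoO) (h7 : Pn.NoO) :
    (progC P0 PH PS' Pp Pf Pz Pn K).NoO :=
  ⟨⟨trivial, ⟨h1, ⟨trivial, trivial⟩, trivial⟩, trivial, h2, trivial⟩, h3,
    ⟨h4, h5, h6, wrB_noO, trivial, trivial⟩, h7⟩

theorem run_firstC {x : List Bool} {H B K KH dH d0 K0 : ℕ} {P0 PH : Prog} {g0 Hf : Fn 1}
    {c0 : ℕ → Bool}
    (hK : 8 ≤ K) (s0 : Spec1 x H P0 K0 d0 1 g0) (sH : Spec1 x H PH KH dH 3 Hf)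
    (hz : ∀ m < B, g0 (I0 x) (fun _ => m) = 0) (hB : g0 (I0 x) (fun _ => B) ≠ 0)
    (hH : Hf (I0 x) (fun _ => B) = H) :
    Run (IT x H) (Prog.seq (Prog.inc 2) (Prog.seq
      (Prog.loop 2 (Prog.seq P0 (Prog.ifz 1 (Prog.seq (Prog.inc 0) (Prog.inc 2)) Prog.skip)))
      (Prog.seq (clear 1) (Prog.seq PH (move 3 (K + 1)))))) (ini c0) (mz B 0 0 H K c0)
      (2 * ((B + 1) * ((x.length + (B + 1) + 2) ^ d0 + 5)) + (x.length + B + 2) ^ dH +
        2 * H + 5) := by
  have q1 := Run.inc (x := IT x H) 2 (ini c0)
  have e1 : (ini c0).set 2 ((ini c0).reg 2 + 1) = ((ini c0).set 0 0).set 2 1 := by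
    apply PS.ext'
    · intro r
      simp only [PS.set, ini, Function.update_apply]
      split_ifs <;> first | rfl | omega | simp_all
    · rfl
  have q1 := q1.set_self e1
  have q2 := search_runC (x := x) (H := H) (g0 := g0) (P := P0) (K := K0) (d := d0) (c0 := c0)
    s0 hz hB B 0 (by omega)
  have q3 := run_clear (x := IT x H) 1 (((ini c0).set 0 B).set 1 (g0 (I0 x) (fun _ => B)))
  have e3 : (((ini c0).set 0 B).set 1 (g0 (I0 x) (fun _ => B))).set 1 0 = (ini c0).set 0 B := by
    apply PS.ext'
    · intro r
      simp only [PS.set, ini, Function.update_apply]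
      split_ifs <;> first | rfl | omega | simp_all
    · rfl
  have q3 := q3.set_self e3
  have g3 : (((ini c0).set 0 B).set 1 (g0 (I0 x) fun _ => B)).reg 1 = g0 (I0 x) (fun _ => B) := by
    simp
  rw [g3] at q3
  have hg0 := q2.reg_le 1
  rw [g3] at hg0
  have g0' : (((ini c0).set 0 0).set 2 1).reg 1 = 0 := by simp
  rw [g0'] at hg0
  have q4 := sH B ((ini c0).set 0 B) (by
    intro r hr _
    simp only [PS.set, ini, Function.update_apply]
    rw [if_neg (by omega)]) (by simp) rfl (by
    intro r _
    simp only [PS.set, ini, Function.update_apply]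
    split_ifs <;> omega)
  have e4 : ((ini c0).set 0 B).reg 0 = B := by simp
  rw [e4, hH] at q4
  have q5 := run_move (x := IT x H) (r := 3) (o := K + 1) (by omega) (((ini c0).set 0 B).set 3 H)
  have e5 : ((((ini c0).set 0 B).set 3 H).set 3 0).set (K + 1)
      ((((ini c0).set 0 B).set 3 H).reg (K + 1) +
      (((ini c0).set 0 B).set 3 H).reg 3) = mz B 0 0 H K c0 := by
    have a1 : (((ini c0).set 0 B).set 3 H).reg (K + 1) = 0 := by
      simp only [PS.set, ini, Function.update_apply]
      rw [if_neg (by omega), if_neg (by omega)]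
    have a2 : (((ini c0).set 0 B).set 3 H).reg 3 = H := by simp
    rw [a1, a2, zero_add]
    apply PS.ext'
    · intro r
      simp only [mz, PS.set, ini, Function.update_apply]
      split_ifs <;> omega
    · rfl
  have q5 := q5.set_self e5
  have g5 : (((ini c0).set 0 B).set 3 H).reg 3 = H := by simp
  rw [g5] at q5
  refine (Run.seq q1 (Run.seq q2 (Run.seq q3 (Run.seq q4 q5)))).mono ?_
  omega

theorem run_secondC {x : List Bool} {H B K KS dS : ℕ} {PS' : Prog} {Sf : Fn 1} {c0 : ℕ → Bool}
    (hKS : KS ≤ K) (sS : Spec1 x H PS' KS dS 1 Sf) :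
    Run (IT x H) PS' (mz B 0 0 H K c0)
      (mz B (Sf (I0 x) (fun _ => B)) 0 H K c0) ((x.length + B + 2) ^ dS) := by
  have q6 := sS B (mz B 0 0 H K c0) (by
    intro r hr hr'
    simp only [mz]
    split_ifs <;> omega) (by simp [mz]) rfl (by
    intro r hr
    simp only [mz]
    split_ifs <;> omega)
  have e6 : (mz B 0 0 H K c0).reg 0 = B := by simp [mz]
  rw [e6] at q6
  have e6' : (mz B 0 0 H K c0).set 1 (Sf (I0 x) (fun _ => B)) =
      mz B (Sf (I0 x) (fun _ => B)) 0 H K c0 := by
    apply PS.ext'
    · intro r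
      simp only [mz, PS.set, Function.update_apply]
      split_ifs <;> omega
    · rfl
  exact q6.set_self e6'

end Vale.Agent.P313.TS
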