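import Vale.Agent.P313.H463.Cat2

/-!
The machine with a catalytic tape for a computation whose state is a number and the bits of the
tape.
-/

namespace Vale.Agent.P313.TS

open Finset TMC

theorem run_fullC {x : Inp} {p : Prog} {s' : PS} {c : ℕ} {c0 : ℕ → Bool} (out : ℕ)
    (h : Run x p (ini c0) s' c) :
    ∃ (n pc : ℕ) (s : PS), n ≤ 4 * c + 1 ∧ GSteps (p.full out) x n (0, ini c0) (pc, s) ∧
      (p.full out)[pc]? = some (Instr.halt (decide (s'.reg out ≠ 0))) ∧ s.tp = s'.tp := by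
  have hc : CodeAt (p.full out) 0 (p.code 0 ++ [Instr.jzdec out (p.len + 2), Instr.halt true,
      Instr.halt false]) := ⟨[], [], by simp [Prog.full], rfl⟩
  obtain ⟨n, hn, h1⟩ := run_code h (p.full out) 0 hc.left
  have h2 := hc.right (b := p.len) (by rw [Prog.length_code, Nat.zero_add])
  have e0 := h2.head
  have e1 := (h2.tail rfl).head
  have e2 := ((h2.tail rfl).tail rfl).head
  rw [Nat.zero_add] at h1
  by_cases h0 : s'.reg out = 0
  · refine ⟨n + 1, p.len + 2, s', by omega, h1.trans (GSteps.single ?_), ?_, rfl⟩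
    · simp only [gstep, e0, h0, ↓reduceIte]
    · rw [show p.len + 2 = p.len + 1 + 1 from rfl, e2]; simp [h0]
  · refine ⟨n + 1, p.len + 1, s'.set out (s'.reg out - 1), by omega,
      h1.trans (GSteps.single ?_), ?_, rfl⟩
    · simp only [gstep, e0, h0, ↓reduceIte]
    · rw [e1]; simp [h0]

theorem run_thirdC {x : List Bool} {H B K dn Z : ℕ} {Pn : Prog} {fin : Fn 1} {cl : ℕ → Bool}
    (hK : 8 ≤ K) (sn : SpecZ x H Pn K dn 5 fin) :
    Run (IT x H) Pn (mz B 0 Z H K cl) ((mz B 0 Z H K cl).set 5 (fin (IZ x cl Z H) (fun _ => B)))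
      ((x.length + B + H + Z + 3) ^ dn) := by
  have q9 := sn B Z cl (mz B 0 Z H K cl) (by
    intro r hr hr'
    simp only [mz]
    split_ifs <;> omega)
    (by
      show (if K = 0 then B else if K = 1 then 0 else if K = K then Z else
        if K = K + 1 then H else 0) = Z
      rw [if_neg (by omega), if_neg (by omega), if_pos rfl])
    (by
      show (if K + 1 = 0 then B else if K + 1 = 1 then 0 else if K + 1 = K then Z else
        if K + 1 = K + 1 then H else 0) = H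
      rw [if_neg (by omega), if_neg (by omega), if_neg (by omega), if_pos rfl]) (by
    intro r hr
    simp only [mz]
    split_ifs <;> omega)
    (by
      simp only [mz]
      rw [if_neg (by omega), if_neg (by omega), if_neg (by omega), if_neg (by omega)]) rfl rfl (by
    intro r hr
    simp only [mz]
    split_ifs <;> omega)
  have e9 : (mz B 0 Z H K cl).reg 0 = B := by simp [mz]
  rw [e9] at q9
  exact q9

theorem SpecZ.mono {x : List Bool} {H : ℕ} {P : Prog} {K d d' out : ℕ} {f : Fn 1}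
    (h : SpecZ x H P K d out f) (hd : d ≤ d') : SpecZ x H P K d' out f := by
  intro R Z c s a1 a2 a3 a4 a5 a6 a7 a8
  exact (h R Z c s a1 a2 a3 a4 a5 a6 a7 a8).mono (Nat.pow_le_pow_right (by omega) hd)

/-- The cost. -/
def costC (d0 dH dS d dn n B H S ZB : ℕ) : ℕ :=
  (2 * ((B + 1) * ((n + (B + 1) + 2) ^ d0 + 5)) + (n + B + 2) ^ dH + 2 * H + 5) +
    ((n + B + 2) ^ dS +
    ((S * (5 * (n + ((B + S + H) + (n + (B + S + H) + H + ZB + 3) ^ d) + H + ZB + 3) ^ d +
      9 * H + 3 * ZB + 20) + 1) + (n + B + H + ZB + 3) ^ dn))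

/-- The run of the whole program. -/
theorem run_progC {x : List Bool} {H B K K0 KH KS d0 dH dS dp df dz dn ZB : ℕ}
    {P0 PH PS' Pp Pf Pz Pn : Prog} {g0 Hf Sf fin ff pf zf : Fn 1} {c0 : ℕ → Bool}
    (hK : 8 ≤ K) (hKS : KS ≤ K)
    (s0 : Spec1 x H P0 K0 d0 1 g0) (sH : Spec1 x H PH KH dH 3 Hf)
    (sS : Spec1 x H PS' KS dS 1 Sf) (sp : SpecZ x H Pp K dp 6 pf) (sf : SpecZ x H Pf K df 5 ff)
    (sz : SpecZ x H Pz K dz 2 zf) (sn : SpecZ x H Pn K dn 5 fin)
    (hz : ∀ m < B, g0 (I0 x) (fun _ => m) = 0) (hB : g0 (I0 x) (fun _ => B) ≠ 0)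
    (hH : Hf (I0 x) (fun _ => B) = H)
    (hpos : ∀ s < Sf (I0 x) (fun _ => B), pf (IZ x (czS ff pf zf x B H c0 s).1
      (czS ff pf zf x B H c0 s).2 H) (fun _ => B) < H)
    (hZ : ∀ s ≤ Sf (I0 x) (fun _ => B), (czS ff pf zf x B H c0 s).2 ≤ ZB) :
    Run (IT x H) (progC P0 PH PS' Pp Pf Pz Pn K) (ini c0)
      ((mz B 0 (czS ff pf zf x B H c0 (Sf (I0 x) (fun _ => B))).2 H K
        (czS ff pf zf x B H c0 (Sf (I0 x) (fun _ => B))).1).set 5
          (fin (IZ x (czS ff pf zf x B H c0 (Sf (I0 x) (fun _ => B))).1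
            (czS ff pf zf x B H c0 (Sf (I0 x) (fun _ => B))).2 H) (fun _ => B)))
      (costC d0 dH dS (dp + df + dz) dn x.length B H (Sf (I0 x) (fun _ => B)) ZB) := by
  set S := Sf (I0 x) (fun _ => B) with hS
  have a1 := run_firstC (K := K) (c0 := c0) hK s0 sH hz hB hH
  have a2 := run_secondC (B := B) (H := H) (c0 := c0) hKS sS
  have a3 := run_mainC (x := x) (H := H) (K := K) (d := dp + df + dz) (B := B)
    (R := B + S + H) (ZB := ZB) (ff := ff) (pf := pf) (zf := zf) (P1 := Pp) (P2 := Pf) (P3 := Pz)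
    (c0 := c0) hK (sp.mono (by omega)) (sf.mono (by omega)) (sz.mono (by omega)) hpos hZ le_rfl
  have a4 := run_thirdC (B := B) (Z := (czS ff pf zf x B H c0 S).2)
    (cl := (czS ff pf zf x B H c0 S).1) hK sn
  refine (Run.seq a1 (Run.seq a2 (Run.seq a3 a4))).mono ?_
  have h5 : (x.length + B + H + (czS ff pf zf x B H c0 S).2 + 3) ^ dn ≤
      (x.length + B + H + ZB + 3) ^ dn :=
    Nat.pow_le_pow_left (by have := hZ S le_rfl; omega) _
  unfold costC
  omega

theorem pb_costC {k : ℕ} {H S ZB : Fn k} {B : Fn k} (hH : PB H) (hS : PB S) (hZ : PB ZB)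
    (hB : PB B) (d0 dH dS d dn : ℕ) :
    PB (fun I a => costC d0 dH dS d dn I.length (B I a) (H I a) (S I a) (ZB I a)) := by
  have hn : PB (fun I _ => I.length : Fn k) := PB.len
  have c := fun m => PB.const (k := k) m
  unfold costC
  have hR := (hB.add hS).add hH
  have hin := (((hn.add hR).add hH).add hZ).add (c 3)
  have hin2 := (((hn.add (hR.add (hin.pow d))).add hH).add hZ).add (c 3)
  exact (((((c 2).mul ((hB.add (c 1)).mul ((((hn.add (hB.add (c 1))).add (c 2)).pow d0).add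
    (c 5)))).add (((hn.add hB).add (c 2)).pow dH)).add ((c 2).mul hH)).add (c 5)).add
    ((((hn.add hB).add (c 2)).pow dS).add (((hS.mul ((((((c 5).mul (hin2.pow d))).add
      ((c 9).mul hH)).add ((c 3).mul hZ)).add (c 20))).add (c 1)).add
        (((((hn.add hB).add hH).add hZ).add (c 3)).pow dn)))

/-- The machine. -/
theorem cat_machine {g0 Hf Sf fin ff pf zf : Fn 1} (h0 : LF g0) (hH : LF Hf) (hS : LF Sf)
    (hfin : LF fin) (hff : LF ff) (hpf : LF pf) (hzf : LF zf) (zb : ℕ) :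
    ∃ (D : RTM) (i : Fin D.tapes) (e : Bool → D.Sym) (E : ℕ), D.Deterministic ∧
    Function.Injective e ∧ (∀ b, e b ≠ D.blank) ∧
    ∀ (x w : List Bool) (B H S : ℕ) (c0 : ℕ → Bool),
      (∀ m < B, g0 (I0 x) (fun _ => m) = 0) → g0 (I0 x) (fun _ => B) ≠ 0 →
      Hf (I0 x) (fun _ => B) = H → Sf (I0 x) (fun _ => B) = S →
      c0 = (fun j => w.getD j false) → H + 1 ≤ w.length →
      (∀ s < S, pf (IZ x (czS ff pf zf x B H c0 s).1
        (czS ff pf zf x B H c0 s).2 H) (fun _ => B) < H) →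
      (∀ s ≤ S, (czS ff pf zf x B H c0 s).2 ≤ (x.length + B + 2) ^ zb) →
      (czS ff pf zf x B H c0 S).1 = c0 →
      (∀ T, (x.length + B + 2) ^ E ≤ T →
        D.verdict (D.runC x (D.initC i e w) T).state = some (decide
          (fin (IZ x c0 (czS ff pf zf x B H c0 S).2 H) (fun _ => B) ≠ 0)) ∧
        (D.runC x (D.initC i e w) T).work i = Tape.ofWord D.blank e w) ∧
      ∀ t, (∀ j, j ≠ i →
          ((D.runC x (D.initC i e w) t).work j).cells ≤
            E * Nat.log 2 (x.length + B + 2) + E) ∧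
        ((D.runC x (D.initC i e w) t).work i).cells = w.length ∧
        ∀ a ∈ ((D.runC x (D.initC i e w) t).work i).left ++
          ((D.runC x (D.initC i e w) t).work i).head ::
          ((D.runC x (D.initC i e w) t).work i).right, ∃ b, a = e b := by
  obtain ⟨P0, K0, d0, n0, b0, r0⟩ := h0.pure ![0] 1 8 (by intro i; fin_cases i; norm_num)
    (by norm_num) (by intro i; fin_cases i; norm_num)
  obtain ⟨PH, KH, dH, nH, bH, rH⟩ := hH.pure ![0] 3 8 (by intro i; fin_cases i; norm_num)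
    (by norm_num) (by intro i; fin_cases i; norm_num)
  obtain ⟨PS', KS, dS, nS, bS, rS⟩ := hS.pure ![0] 1 8 (by intro i; fin_cases i; norm_num)
    (by norm_num) (by intro i; fin_cases i; norm_num)
  obtain ⟨Pp, Kp, dp, bp, rp⟩ := hpf.bitsZ ![0] 6 8 (by intro i; fin_cases i; norm_num)
    (by norm_num) (by intro i; fin_cases i; norm_num)
  obtain ⟨Pf, Kf, df, bf, rf⟩ := hff.bitsZ ![0] 5 8 (by intro i; fin_cases i; norm_num)
    (by norm_num) (by intro i; fin_cases i; norm_num)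
  obtain ⟨Pz, Kz, dz, bz, rz⟩ := hzf.bitsZ ![0] 2 8 (by intro i; fin_cases i; norm_num)
    (by norm_num) (by intro i; fin_cases i; norm_num)
  obtain ⟨Pn, Kn, dn, bn, rn⟩ := hfin.bitsZ ![0] 5 8 (by intro i; fin_cases i; norm_num)
    (by norm_num) (by intro i; fin_cases i; norm_num)
  have ev : ∀ s : PS, (fun i => s.reg ((![0] : Fin 1 → ℕ) i)) = fun _ => s.reg 0 := by
    intro s; funext i; fin_cases i; rfl
  set K := K0 + KH + KS + Kp + Kf + Kz + Kn with hKdef
  obtain ⟨np, rp⟩ := rp K (by omega)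
  obtain ⟨nf, rf⟩ := rf K (by omega)
  obtain ⟨nz, rz⟩ := rz K (by omega)
  obtain ⟨nn, rn⟩ := rn K (by omega)
  have hno : (progC P0 PH PS' (Pp K) (Pf K) (Pz K) (Pn K) K).NoO :=
    progC_noO n0 nH nS np nf nz nn
  obtain ⟨D, i, e, hD, hinj, hbl, hDrun⟩ := goto_to_cat _ (noOra_full hno 5)
  obtain ⟨E0, hE0⟩ := pb_costC (k := 1) (H := Hf) (S := Sf) (ZB := fun I a => mu I a ^ zb)
    (B := fun _ a => a 0) hH.pb hS.pb (PB.mu.pow zb) (PB.proj 0) d0 dH dS (dp + df + dz) dn
  refine ⟨D, i, e, 3 * (E0 + 5) + 40, hD, hinj, hbl, ?_⟩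
  intro x w B H S c0 hz hB hHe hSe hc0 hHw hpos hZ hend
  subst hSe
  have hmu : mu (I0 x) (fun _ => B : Fin 1 → ℕ) = x.length + B + 2 := by
    simp [mu, I0]
  have hrun := run_progC (x := x) (H := H) (B := B) (K := K) (K0 := K0) (KH := KH) (KS := KS)
    (d0 := d0) (dH := dH) (dS := dS) (dp := dp) (df := df) (dz := dz) (dn := dn)
    (ZB := (x.length + B + 2) ^ zb) (P0 := P0) (PH := PH) (PS' := PS') (Pp := Pp K)
    (Pf := Pf K) (Pz := Pz K) (Pn := Pn K) (g0 := g0) (Hf := Hf) (Sf := Sf) (fin := fin)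
    (ff := ff) (pf := pf) (zf := zf) (c0 := c0) (by omega) (by omega)
    (fun R s a1 a2 a3 a4 => by
      have := r0 x H R s a1 a2 a3 a4
      rw [ev] at this; exact this)
    (fun R s a1 a2 a3 a4 => by
      have := rH x H R s a1 a2 a3 a4
      rw [ev] at this; exact this)
    (fun R s a1 a2 a3 a4 => by
      have := rS x H R s a1 a2 a3 a4
      rw [ev] at this; exact this)
    (fun R Z c s a1 a2 a3 a4 a5 a6 a7 a8 => by
      have := rp x H R Z c s a1 a2 a3 a4 a5 a6 a7 a8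
      rw [ev] at this; exact this)
    (fun R Z c s a1 a2 a3 a4 a5 a6 a7 a8 => by
      have := rf x H R Z c s a1 a2 a3 a4 a5 a6 a7 a8
      rw [ev] at this; exact this)
    (fun R Z c s a1 a2 a3 a4 a5 a6 a7 a8 => by
      have := rz x H R Z c s a1 a2 a3 a4 a5 a6 a7 a8
      rw [ev] at this; exact this)
    (fun R Z c s a1 a2 a3 a4 a5 a6 a7 a8 => by
      have := rn x H R Z c s a1 a2 a3 a4 a5 a6 a7 a8
      rw [ev] at this; exact this)
    hz hB hHe hpos hZ
  obtain ⟨N, pc, s4, hN, hG, hcode, htp⟩ := run_fullC 5 hrun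
  subst hc0
  obtain ⟨hv, hcells⟩ := hDrun x w H N pc s4 _ hHw hG hcode (by
    rw [htp]
    show (⟨(czS ff pf zf x B H (fun j => w.getD j false) (Sf (I0 x) (fun _ => B))).1, 0⟩ : TP) = _
    rw [hend])
  have hcost := hE0 (I0 x) (fun _ => B)
  rw [hmu] at hcost
  have hcost' : costC d0 dH dS (dp + df + dz) dn x.length B H (Sf (I0 x) (fun _ => B))
      ((x.length + B + 2) ^ zb) ≤ (x.length + B + 2) ^ E0 := by
    have e1 : (I0 x).length = x.length := rfl
    rw [← hHe]
    simpa only [hmu, e1] using hcost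
  have hX2 : 2 ≤ x.length + B + 2 := by omega
  have hNX : N ≤ (x.length + B + 2) ^ (E0 + 5) := by
    have h1 : N ≤ 4 * (x.length + B + 2) ^ E0 + 1 := by omega
    have h2 : 1 ≤ (x.length + B + 2) ^ E0 := Nat.one_le_pow _ _ (by omega)
    have h3 : 2 ^ 5 ≤ (x.length + B + 2) ^ 5 := Nat.pow_le_pow_left hX2 5
    rw [pow_add]
    nlinarith
  refine ⟨fun T' hT' => ?_, fun t => ⟨fun j hj => ?_, (hcells t).2⟩⟩
  · obtain ⟨h3, h4⟩ := hv T' ((arith_T hX2 hNX).trans hT')
    refine ⟨?_, h4⟩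
    rw [h3]
    congr 3
    rw [PS.set_reg, Function.update_self, hend]
  · have h1 := (hcells t).1 j hj
    have h2 := arith_C (H := 0) hX2 hNX
    omega

end Vale.Agent.P313.TS
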