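import Vale.Agent.P313.BundleTS

/-!
Cells of the catalytic tape: the content of a cell is a number `x < W` whose base-`D` digits are
candidates; if none of the first `kb` candidates is good, the content is compressed.
-/

namespace Vale.Agent.P313.Cat

open Finset

/-- Number of candidates in a cell. -/
def kb : ℕ := 700

/-- The candidate number `t` of the content `x`. -/
def dg (D x t : ℕ) : ℕ := x / D ^ t % D

/-- No candidate is good. -/
def BadX (D : ℕ) (G : ℕ → Prop) (x : ℕ) : Prop := ∀ t < kb, ¬ G (dg D x t)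

/-- The number of bad contents below `x`. -/
noncomputable def rk (D : ℕ) (G : ℕ → Prop) (x : ℕ) : ℕ := ∑ y ∈ range x, TS.ind (BadX D G y)

/-- The first good candidate, or `kb`. -/
noncomputable def flg (D : ℕ) (G : ℕ → Prop) (x : ℕ) : ℕ := leastBelow (fun t => G (dg D x t)) kb

/-- The new content: unchanged if there is a good candidate, otherwise the rank of the old content
among the bad contents together with the least good number. -/
noncomputable def bc (D R : ℕ) (G : ℕ → Prop) (x : ℕ) : ℕ :=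
  if flg D G x < kb then x else rk D G x + R * leastBelow G D

/-- The old content. -/
noncomputable def uc (D R W : ℕ) (G : ℕ → Prop) (y f : ℕ) : ℕ :=
  if f < kb then y else leastBelow (fun x => BadX D G x ∧ rk D G x = y % R) W

/-- The number encoded in a cell with flag `f`. -/
def vl (D R x f : ℕ) : ℕ := if f < kb then dg D x f else x / R

theorem rk_succ (D : ℕ) (G : ℕ → Prop) (x : ℕ) :
    rk D G (x + 1) = rk D G x + TS.ind (BadX D G x) := by
  unfold rk; rw [sum_range_succ]

theorem rk_mono (D : ℕ) (G : ℕ → Prop) {x y : ℕ} (h : x ≤ y) : rk D G x ≤ rk D G y := by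
  unfold rk
  exact sum_le_sum_of_subset (range_mono h)

theorem rk_lt {D : ℕ} {G : ℕ → Prop} {x y : ℕ} (hb : BadX D G x) (h : x < y) :
    rk D G x < rk D G y := by
  have h1 := rk_mono D G (show x + 1 ≤ y from h)
  rw [rk_succ, TS.ind_true hb] at h1
  omega

theorem rk_inj {D : ℕ} {G : ℕ → Prop} {x y : ℕ} (hx : BadX D G x) (hy : BadX D G y)
    (h : rk D G x = rk D G y) : x = y := by
  rcases lt_trichotomy x y with h1 | h1 | h1
  · have := rk_lt hx h1; omega
  · exact h1
  · have := rk_lt hy h1; omega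

theorem flg_le (D : ℕ) (G : ℕ → Prop) (x : ℕ) : flg D G x ≤ kb := (leastBelow_spec _ _).1

theorem bad_of_flg {D : ℕ} {G : ℕ → Prop} {x : ℕ} (h : ¬ flg D G x < kb) : BadX D G x := by
  intro t ht
  exact (leastBelow_spec (fun t => G (dg D x t)) kb).2.1 t (by unfold flg at h; omega)

theorem good_of_flg {D : ℕ} {G : ℕ → Prop} {x : ℕ} (h : flg D G x < kb) :
    G (dg D x (flg D G x)) := (leastBelow_spec (fun t => G (dg D x t)) kb).2.2 h

section

variable {D R W : ℕ} {G : ℕ → Prop}

theorem rk_lt_R (hW : rk D G W ≤ R) {x : ℕ} (hx : x < W) (hb : BadX D G x) : rk D G x < R :=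
  (rk_lt hb hx).trans_le hW

theorem bc_lt (hW : rk D G W ≤ R) (hRD : R * D ≤ W) (hG : ∃ d < D, G d) {x : ℕ} (hx : x < W) :
    bc D R G x < W := by
  unfold bc
  split_ifs with h
  · exact hx
  · have h1 := rk_lt_R hW hx (bad_of_flg h)
    have h2 := (Prm.leastBelow_lt hG).1
    have h3 : R * (leastBelow G D + 1) ≤ R * D := Nat.mul_le_mul_left _ h2
    rw [Nat.mul_succ] at h3
    omega

theorem good_vl (hW : rk D G W ≤ R) (hG : ∃ d < D, G d) {x : ℕ} (hx : x < W) :
    G (vl D R (bc D R G x) (flg D G x)) := by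
  unfold vl bc
  by_cases h : flg D G x < kb
  · rw [if_pos h, if_pos h]
    exact good_of_flg h
  · rw [if_neg h, if_neg h]
    have h1 := rk_lt_R hW hx (bad_of_flg h)
    rw [Nat.add_mul_div_left _ _ (by omega), Nat.div_eq_of_lt h1, zero_add]
    exact (Prm.leastBelow_lt hG).2

theorem uc_bc (hW : rk D G W ≤ R) {x : ℕ} (hx : x < W) :
    uc D R W G (bc D R G x) (flg D G x) = x := by
  unfold uc bc
  by_cases h : flg D G x < kb
  · rw [if_pos h, if_pos h]
  · rw [if_neg h, if_neg h]
    have hb := bad_of_flg h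
    have h1 := rk_lt_R hW hx hb
    have e : (rk D G x + R * leastBelow G D) % R = rk D G x := by
      rw [Nat.add_mul_mod_self_left, Nat.mod_eq_of_lt h1]
    rw [e]
    obtain ⟨h2, h3⟩ := Prm.leastBelow_lt (P := fun y => BadX D G y ∧ rk D G y = rk D G x)
      ⟨x, hx, hb, rfl⟩
    exact rk_inj h3.1 hb h3.2

end

open Classical in
theorem rk_eq_card (D : ℕ) (G : ℕ → Prop) (x : ℕ) :
    rk D G x = #{y ∈ range x | BadX D G y} := by
  unfold rk
  rw [card_filter]
  exact sum_congr rfl fun y _ => TS.ind_eq_ite _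

open Classical in
theorem card_digits (D : ℕ) (G : ℕ → Prop) : ∀ n,
    #{x ∈ range (D ^ n) | ∀ t < n, ¬ G (dg D x t)} ≤ #{d ∈ range D | ¬ G d} ^ n := by
  intro n
  induction n with
  | zero =>
    simp only [pow_zero]
    exact (card_le_card (filter_subset _ _)).trans (by simp)
  | succ n ih =>
    rcases Nat.eq_zero_or_pos D with hD | hD
    · subst hD
      have : (0 : ℕ) ^ (n + 1) = 0 := zero_pow (by omega)
      rw [this]; simp
    have hDn : 0 < D ^ n := Nat.pow_pos hD
    have hsub : ({x ∈ range (D ^ (n + 1)) | ∀ t < n + 1, ¬ G (dg D x t)} : Finset ℕ) ⊆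
        (({x ∈ range (D ^ n) | ∀ t < n, ¬ G (dg D x t)} : Finset ℕ) ×ˢ
          ({d ∈ range D | ¬ G d} : Finset ℕ)).image (fun u => u.1 + D ^ n * u.2) := by
      intro x hx
      rw [mem_filter, mem_range] at hx
      rw [mem_image]
      refine ⟨(x % D ^ n, x / D ^ n), ?_, Nat.mod_add_div _ _⟩
      rw [mem_product, mem_filter, mem_filter, mem_range, mem_range]
      have h1 : x / D ^ n < D := Nat.div_lt_of_lt_mul (by rw [← pow_succ]; exact hx.1)
      refine ⟨⟨Nat.mod_lt _ hDn, fun t ht => ?_⟩, h1, ?_⟩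
      · have e : dg D (x % D ^ n) t = dg D x t := by
          unfold dg
          obtain ⟨c, rfl⟩ : ∃ c, n = t + (c + 1) := ⟨n - t - 1, by omega⟩
          rw [pow_add, Nat.mod_mul_right_div_self]
          exact Nat.mod_mod_of_dvd _ (Dvd.intro_left _ (pow_succ D c).symm)
        show ¬ G (dg D (x % D ^ n) t)
        rw [e]
        exact hx.2 t (by omega)
      · have e : dg D x n = x / D ^ n := Nat.mod_eq_of_lt h1
        show ¬ G (x / D ^ n)
        rw [← e]
        exact hx.2 n (by omega)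
    refine (card_le_card hsub).trans (card_image_le.trans ?_)
    rw [card_product, pow_succ]
    exact Nat.mul_le_mul_right _ ih

open Classical in
/-- The number of bad contents. -/
theorem rk_le {D R W : ℕ} {G : ℕ → Prop} {Q Y : ℕ} (hD : 0 < D) (hY : 0 < Y)
    (hb : #{d ∈ range D | ¬ G d} * Y ≤ Q * D) (hQ : 2 * D * Q ^ kb ≤ Y ^ kb)
    (hW1 : D ^ kb ≤ W) (hW2 : W ≤ 2 * D ^ kb) (hR : R = W / D) : rk D G W ≤ R := by
  set b := #{d ∈ range D | ¬ G d} with hbd
  have h1 : rk D G W ≤ 2 * b ^ kb := by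
    rw [rk_eq_card]
    have hDn : 0 < D ^ kb := Nat.pow_pos hD
    have hsub : ({x ∈ range W | BadX D G x} : Finset ℕ) ⊆
        (({x ∈ range (D ^ kb) | ∀ t < kb, ¬ G (dg D x t)} : Finset ℕ) ×ˢ
          (range 2)).image (fun u => u.1 + D ^ kb * u.2) := by
      intro x hx
      rw [mem_filter, mem_range] at hx
      rw [mem_image]
      refine ⟨(x % D ^ kb, x / D ^ kb), ?_, Nat.mod_add_div _ _⟩
      rw [mem_product, mem_filter, mem_range, mem_range]
      refine ⟨⟨Nat.mod_lt _ hDn, fun t ht => ?_⟩,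
        Nat.div_lt_of_lt_mul (by rw [mul_comm]; omega)⟩
      have e : dg D (x % D ^ kb) t = dg D x t := by
        unfold dg
        obtain ⟨c, hc⟩ : ∃ c, kb = t + (c + 1) := ⟨kb - t - 1, by omega⟩
        rw [hc, pow_add, Nat.mod_mul_right_div_self]
        exact Nat.mod_mod_of_dvd _ (Dvd.intro_left _ (pow_succ D c).symm)
      show ¬ G (dg D (x % D ^ kb) t)
      rw [e]
      exact hx.2 t ht
    refine (card_le_card hsub).trans (card_image_le.trans ?_)
    rw [card_product, card_range, mul_comm]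
    exact Nat.mul_le_mul_left _ (card_digits D G kb)
  have h2 : 2 * b ^ kb * D ≤ W := by
    have hYk : 0 < Y ^ kb := Nat.pow_pos hY
    refine le_trans ?_ hW1
    apply Nat.le_of_mul_le_mul_right _ hYk
    calc 2 * b ^ kb * D * Y ^ kb = 2 * D * (b * Y) ^ kb := by rw [mul_pow]; ring
      _ ≤ 2 * D * (Q * D) ^ kb := Nat.mul_le_mul_left _ (Nat.pow_le_pow_left hb kb)
      _ = (2 * D * Q ^ kb) * D ^ kb := by rw [mul_pow]; ring
      _ ≤ Y ^ kb * D ^ kb := Nat.mul_le_mul_right _ hQ
      _ = D ^ kb * Y ^ kb := mul_comm _ _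
  rw [hR, Nat.le_div_iff_mul_le hD]
  exact (Nat.mul_le_mul_right _ h1).trans h2

end Vale.Agent.P313.Cat
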