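import Vale.Agent.P313.H463.Cat4

/-!
Canonical tests: a hash function of an array is tested against the ideal automata, which depend
only on the shifts.
-/

namespace Vale.Agent.P313.Cat

open Finset Prm

theorem starO_congr {A0 : ℕ → ℕ → ℕ} {N p D Bz r : ℕ} {o o' : ℕ → ℕ} :
    ∀ i, (∀ i' < i, o i' = o' i') → starO A0 N p D Bz r o i = starO A0 N p D Bz r o' i := by
  intro i
  induction i with
  | zero => intro _; rfl
  | succ i ih =>
    intro h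
    simp only [starO]
    rw [ih (fun i' hi' => h i' (by omega)), h i (by omega)]

variable {q : Prm}

/-- The ideal automata. -/
noncomputable def As (q : Prm) (A0 : ℕ → ℕ → ℕ) (o : ℕ → ℕ) (i : ℕ) : ℕ → ℕ → ℕ :=
  starO A0 q.N q.Y q.D q.B q.r o i

theorem As_congr {A0 : ℕ → ℕ → ℕ} {o o' : ℕ → ℕ} {i : ℕ} (h : ∀ i' < i, o i' = o' i') :
    As q A0 o i = As q A0 o' i := starO_congr i h

/-- `d` is good as the function number `j` of the array `h` in stage `st`. -/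
def Gd (q : Prm) (A0 : ℕ → ℕ → ℕ) (o : ℕ → ℕ) (st : ℕ) (h : ℕ → ℕ) (j d : ℕ) : Prop :=
  ∀ i' < st + 1, q.GG (As q A0 o i') h 0 j d

theorem Gd_congr_o {A0 : ℕ → ℕ → ℕ} {o o' : ℕ → ℕ} {st : ℕ} (e : ∀ i' < st, o i' = o' i')
    {h : ℕ → ℕ} {j : ℕ} : Gd q A0 o st h j = Gd q A0 o' st h j := by
  funext d
  apply propext
  unfold Gd
  refine forall_congr' fun i' => imp_congr_right fun hi' => ?_
  rw [As_congr (o := o) (o' := o') (fun i'' hi'' => e i'' (by omega))]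

theorem Gd_congr_h {A0 : ℕ → ℕ → ℕ} {o : ℕ → ℕ} {st : ℕ} {h h' : ℕ → ℕ} {j : ℕ}
    (e : ∀ j' < j, h j' = h' j') : Gd q A0 o st h j = Gd q A0 o st h' j := by
  funext d
  apply propext
  unfold Gd
  refine forall_congr' fun i' => imp_congr_right fun _ => ?_
  constructor
  · exact GG_congr (fun j' hj' => by rw [zero_mul, zero_add]; exact e j' hj')
  · exact GG_congr (fun j' hj' => by rw [zero_mul, zero_add]; exact (e j' hj').symm)

theorem GG_shift {A : ℕ → ℕ → ℕ} {M : ℕ → ℕ} {a j d : ℕ} :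
    q.GG A M a j d ↔ q.GG A (fun j => M (a * q.JT + j)) 0 j d := by
  constructor
  · exact GG_congr (fun j' _ => by simp only [zero_mul, zero_add])
  · exact GG_congr (fun j' _ => by simp only [zero_mul, zero_add])

/-- The tests are canonical. -/
theorem testH_iff {A0 : ℕ → ℕ → ℕ} {o : ℕ → ℕ} {M : ℕ → ℕ} {st : ℕ}
    (hX : ∀ i' ≤ st, q.XA A0 M ((st + 1) % 2) i' = As q A0 o i') {j d : ℕ} :
    q.TestH A0 M st j d ↔ Gd q A0 o st (fun j => M (st % 2 * q.JT + j)) j d := by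
  unfold TestH Gd
  refine forall_congr' fun i' => imp_congr_right fun hi' => ?_
  rw [hX i' (by omega), ← GG_shift]
  rfl

/-- The shift number `i` is safe. -/
def SafeAt (q : Prm) (A0 : ℕ → ℕ → ℕ) (o : ℕ → ℕ) (i : ℕ) : Prop :=
  ∀ u < q.N, ∀ v < q.N, ∃ n,
    n ≤ stN (As q A0 o i) q.N q.Y q.D q.B q.r u v + 1 ∧
    stN (As q A0 o i) q.N q.Y q.D q.B q.r u v ≤ n + 1 ∧ SafeO q.B n (o i)

theorem SafeAt_congr {A0 : ℕ → ℕ → ℕ} {o o' : ℕ → ℕ} {i : ℕ} (e : ∀ i' ≤ i, o i' = o' i')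
    (h : SafeAt q A0 o i) : SafeAt q A0 o' i := by
  unfold SafeAt at h ⊢
  rw [← As_congr (o := o) (o' := o') (fun i'' hi'' => e i'' (by omega)), ← e i le_rfl]
  exact h

/-- All functions of the array are good. -/
def Arr (q : Prm) (A0 : ℕ → ℕ → ℕ) (o : ℕ → ℕ) (st : ℕ) (h : ℕ → ℕ) : Prop :=
  ∀ j < q.JT, Gd q A0 o st h j (h j)

theorem Arr.goodA {A0 : ℕ → ℕ → ℕ} {o : ℕ → ℕ} {st : ℕ} {M : ℕ → ℕ} {a : ℕ}
    (h : Arr q A0 o st (fun j => M (a * q.JT + j))) {i : ℕ} (hi : i ≤ st) :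
    q.GoodA (As q A0 o i) (q.h1 M a) (q.h2 M a) :=
  GG_GoodA (fun j hj => GG_shift.2 (h j hj i (by omega)))

/-- The automata computed with a good array are the ideal ones. -/
theorem XA_eq {A0 : ℕ → ℕ → ℕ} {o : ℕ → ℕ} {st : ℕ} {M : ℕ → ℕ} {a : ℕ} {εG : ℝ} (H : q.Ok εG)
    (hA : IsAut A0 q.N) (h : Arr q A0 o st (fun j => M (a * q.JT + j))) :
    ∀ m ≤ st + 1, (∀ i' < m, q.sh M i' = o i' ∧ SafeAt q A0 o i') →
      q.XA A0 M a m = As q A0 o m := by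
  intro m
  induction m with
  | zero => intro _ _; rfl
  | succ i ih =>
    intro hi hs
    have ih' := ih (by omega) (fun i' hi' => hs i' (by omega))
    obtain ⟨h1, h2⟩ := hs i (by omega)
    simp only [XA]
    rw [ih', h1]
    unfold As at *
    simp only [starO]
    apply autF_congr
    intro u hu v hv
    obtain ⟨n, c1, c2, c3⟩ := h2 u hu v hv
    obtain ⟨b1, b2⟩ := nmr_close H (isAut_starO hA _ _ _ _ _ _) (h.goodA (i := i) (by omega)) hu hv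
    unfold starF
    exact safeO_rnd c3 c1 c2 b1 b2

/-- The shift which is found is safe. -/
theorem shift_ok {A0 : ℕ → ℕ → ℕ} {o o' : ℕ → ℕ} {i k : ℕ} {M : ℕ → ℕ} {εG : ℝ} (H : q.Ok εG)
    (H2 : q.Ok2 k) (hA : IsAut A0 q.N) (h : Arr q A0 o i (fun j => M (i % 2 * q.JT + j)))
    (hX : q.XA A0 M ((i + 1) % 2) i = As q A0 o i) (ho : ∀ i' < i, o' i' = o i')
    (ho' : o' i = leastBelow (q.TestO A0 M i) q.B) :
    leastBelow (q.TestO A0 M i) q.B < q.B ∧ SafeAt q A0 o' i := by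
  obtain ⟨hlt, hT⟩ := leastBelow_lt (P := q.TestO A0 M i) (exists_safe H2 _)
  refine ⟨hlt, ?_⟩
  intro u hu v hv
  have hAs : As q A0 o' i = As q A0 o i := As_congr ho
  obtain ⟨b1, b2⟩ := nmr_close H (isAut_starO hA _ _ _ _ _ _) (h.goodA (i := i) le_rfl) hu hv
  rw [hAs]
  refine ⟨_, b1, b2, ?_⟩
  have h3 := hT u hu v hv
  rw [hX] at h3
  rw [ho']
  exact h3

/-- Conditions for the compression. -/
structure Ok3 (q : Prm) (k : ℕ) : Prop where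
  c1 : 2 * (q.p * q.p) * (k * (q.N1 ^ 2 * q.th ^ 2)) ^ kb ≤ q.Y ^ kb
  c2 : 2 * (q.p * q.p) * (k * (q.N2 ^ 2 * q.th ^ 2)) ^ kb ≤ q.Y2 ^ kb

open Classical in
theorem card_bad_aux {p Y N θ k : ℕ} (hp : p.Prime) (hY : 0 < Y) (hYp : Y ≤ p) (hθ : 0 < θ)
    (C : ℕ → ℕ → ℕ → ℕ) :
    #{d ∈ range (p * p) | ¬ ∀ i' < k, GoodH (C i') p Y N θ d} * Y ≤
      (k * (N ^ 2 * θ ^ 2)) * (p * p) := by
  have h1 : ({d ∈ range (p * p) | ¬ ∀ i' < k, GoodH (C i') p Y N θ d} : Finset ℕ) ⊆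
      (range k).biUnion (fun i' => {d ∈ range (p * p) | ¬ GoodH (C i') p Y N θ d}) := by
    intro d hd
    rw [mem_filter] at hd
    obtain ⟨hd1, hd2⟩ := hd
    push Not at hd2
    obtain ⟨i', hi', hb⟩ := hd2
    rw [mem_biUnion]
    exact ⟨i', mem_range.2 hi', mem_filter.2 ⟨hd1, hb⟩⟩
  have h2 := (card_le_card h1).trans card_biUnion_le
  calc _ ≤ (∑ i' ∈ range k, #{d ∈ range (p * p) | ¬ GoodH (C i') p Y N θ d}) * Y :=
        Nat.mul_le_mul_right _ h2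
    _ = ∑ i' ∈ range k, #{d ∈ range (p * p) | ¬ GoodH (C i') p Y N θ d} * Y := by
        rw [sum_mul]
    _ ≤ ∑ i' ∈ range k, N ^ 2 * θ ^ 2 * (p * p) :=
        sum_le_sum fun i' _ => card_notGoodH hp hY hYp hθ
    _ = _ := by rw [sum_const, card_range, smul_eq_mul]; ring

/-- Only few contents are bad. -/
theorem rk_Gd {A0 : ℕ → ℕ → ℕ} {o : ℕ → ℕ} {k st : ℕ} {h : ℕ → ℕ} {j : ℕ} {εG : ℝ}
    (H : q.Ok εG) (H3 : Ok3 q k) (hst : st < k) {W : ℕ} (hW1 : (q.p * q.p) ^ kb ≤ W)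
    (hW2 : W ≤ 2 * (q.p * q.p) ^ kb) :
    rk (q.p * q.p) (Gd q A0 o st h j) W ≤ W / (q.p * q.p) := by
  classical
  have hpp : 0 < q.p * q.p := Nat.mul_pos H.hp.pos H.hp.pos
  have hmono : ∀ X : ℕ, ((st + 1) * X) ^ kb ≤ (k * X) ^ kb := fun X =>
    Nat.pow_le_pow_left (Nat.mul_le_mul_right _ hst) _
  by_cases hj : j < q.J
  · refine rk_le (Q := (st + 1) * (q.N1 ^ 2 * q.th ^ 2)) (Y := q.Y) hpp H.hY ?_
      ((Nat.mul_le_mul_left _ (hmono _)).trans H3.c1) hW1 hW2 rfl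
    have h1 := card_bad_aux (k := st + 1) H.hp H.hY ((Y_le_Y2 H.hY).trans H.hYp) H.hth
      (fun i' => genA (levJ (q.clk (As q A0 o i')) q.G q.p q.t (q.h1 h 0) j) q.G q.t) (N := q.N1)
    have e : ∀ d, (∀ i' < st + 1, GoodH (genA (levJ (q.clk (As q A0 o i')) q.G q.p q.t
        (q.h1 h 0) j) q.G q.t) q.p q.Y q.N1 q.th d) ↔ Gd q A0 o st h j d := by
      intro d
      unfold Gd GG Good1
      simp only [if_pos hj]
    simp only [e] at h1
    exact h1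
  · have hY2 : 0 < q.Y2 := H.hY.trans_le (Y_le_Y2 H.hY)
    refine rk_le (Q := (st + 1) * (q.N2 ^ 2 * q.th ^ 2)) (Y := q.Y2) hpp hY2 ?_
      ((Nat.mul_le_mul_left _ (hmono _)).trans H3.c2) hW1 hW2 rfl
    have h1 := card_bad_aux (k := st + 1) H.hp hY2 H.hYp H.hth
      (fun i' => genA (levJ (q.mic (As q A0 o i') (q.h1 h 0)) (gam2 q.Y2) q.p 2 (q.h2 h 0)
        (j - q.J)) (gam2 q.Y2) 2) (N := q.N2)
    have e : ∀ d, (∀ i' < st + 1, GoodH (genA (levJ (q.mic (As q A0 o i') (q.h1 h 0)) (gam2 q.Y2)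
        q.p 2 (q.h2 h 0) (j - q.J)) (gam2 q.Y2) 2) q.p q.Y2 q.N2 q.th d) ↔
        Gd q A0 o st h j d := by
      intro d
      unfold Gd GG Good2
      simp only [if_neg hj]
    simp only [e] at h1
    exact h1

/-- There are good functions. -/
theorem exists_Gd {A0 : ℕ → ℕ → ℕ} {o : ℕ → ℕ} {k st : ℕ} {h : ℕ → ℕ} {j : ℕ} {εG : ℝ}
    (H : q.Ok εG) (H2 : q.Ok2 k) (hst : st < k) :
    ∃ d < q.p * q.p, Gd q A0 o st h j d := by
  by_cases hj : j < q.J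
  · obtain ⟨d, hd, hg⟩ := exists_good1 H H2 (As q A0 o) (q.h1 h 0) hst j
    refine ⟨d, hd, fun i' hi' => ?_⟩
    unfold GG
    rw [if_pos hj]
    exact hg i' hi'
  · obtain ⟨d, hd, hg⟩ := exists_good2 H H2 (As q A0 o) (q.h1 h 0) (q.h2 h 0) hst (j - q.J)
    refine ⟨d, hd, fun i' hi' => ?_⟩
    unfold GG
    rw [if_neg hj]
    exact hg i' hi'

/-- The ideal automaton approximates the chain. -/
theorem As_RD {cs : ℕ → Bool → ℕ} {k : ℕ} {εG : ℝ} {o : ℕ → ℕ} (h : Closed cs q.N) (H : q.Ok εG)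
    (ho : ∀ i, o i < q.B) :
    RD (matA (As q (autW cs q.N 1) o k) q.Y q.N) (matP cs q.N (2 ^ (q.r * k)))
      ((2 / q.Y + q.N / q.Y + 3 * q.N / q.D) * 2 ^ ((q.r + 1) * k)) := by
  have := rd_starO (b := 1) (r := q.r) h H.hY H.hD ho k
  rw [one_mul, pow_one] at this
  exact this

end Vale.Agent.P313.Cat
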