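import Vale.Agent.P313.H463.Cat5

/-!
The computation with three arrays of compressible cells, on an abstract level.
-/

namespace Vale.Agent.P313.Cat

open Finset Prm

/-- Abstract states: contents and flags of the cells, the shifts (one number), the verdict. -/
structure AS where
  Y : ℕ → ℕ
  F : ℕ → ℕ
  O : ℕ
  V : ℕ

/-- The region with the array of stage `i` in sweep `a`. -/
def rg (k a i : ℕ) : ℕ := if i = k - a then (a + 2) % 3 else (a + (k - 1 - a - i) % 2) % 3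

/-- The region with the array of the stage before. -/
def pg (k a i : ℕ) : ℕ := if i = k - a then a % 3 else (a + 1 - (k - 1 - a - i) % 2) % 3

/-- The third region. -/
def tg (k a i : ℕ) : ℕ := if i = k - a then (a + 1) % 3 else (a + 2) % 3

theorem rg_lt (k a i : ℕ) : rg k a i < 3 := by unfold rg; split_ifs <;> omega
theorem pg_lt (k a i : ℕ) : pg k a i < 3 := by unfold pg; split_ifs <;> omega
theorem tg_lt (k a i : ℕ) : tg k a i < 3 := by unfold tg; split_ifs <;> omega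
theorem rg_ne_pg (k a i : ℕ) : rg k a i ≠ pg k a i := by
  unfold rg pg; split_ifs <;> omega
theorem rg_ne_tg (k a i : ℕ) : rg k a i ≠ tg k a i := by
  unfold rg tg; split_ifs <;> omega
theorem pg_ne_tg (k a i : ℕ) : pg k a i ≠ tg k a i := by
  unfold pg tg; split_ifs <;> omega

theorem pg_succ {k a i : ℕ} (h : i + 1 ≤ k - a) : pg k a (i + 1) = rg k a i := by
  unfold pg rg
  rcases Nat.lt_or_ge (i + 1) (k - a) with h1 | h1
  · rw [if_neg (by omega), if_neg (by omega)]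
    obtain ⟨c, hc⟩ : ∃ c, k - 1 - a - i = c + 1 := ⟨k - 1 - a - i - 1, by omega⟩
    have h2 : k - 1 - a - (i + 1) = c := by omega
    rw [hc, h2]
    rcases Nat.mod_two_eq_zero_or_one c with h3 | h3
    · rw [h3, show (c + 1) % 2 = 1 by omega, Nat.sub_zero]
    · rw [h3, show (c + 1) % 2 = 0 by omega]; omega
  · rw [if_pos (by omega), if_neg (by omega), show k - 1 - a - i = 0 by omega, Nat.zero_mod,
      Nat.add_zero]
theorem rg_succ {k a i : ℕ} (h : i + 1 < k - a) : rg k a (i + 1) = pg k a i := by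
  unfold pg rg
  rw [if_neg (by omega), if_neg (by omega)]
  obtain ⟨c, hc⟩ : ∃ c, k - 1 - a - i = c + 1 := ⟨k - 1 - a - i - 1, by omega⟩
  have h2 : k - 1 - a - (i + 1) = c := by omega
  rw [hc, h2]
  rcases Nat.mod_two_eq_zero_or_one c with h3 | h3
  · rw [h3, show (c + 1) % 2 = 1 by omega]; omega
  · rw [h3, show (c + 1) % 2 = 0 by omega, Nat.sub_zero]
theorem tg_succ {k a i : ℕ} (h : i + 1 < k - a) : tg k a (i + 1) = tg k a i := by
  unfold tg
  rw [if_neg (by omega), if_neg (by omega)]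
theorem rg_succ' {k a i : ℕ} (h : i + 1 = k - a) : rg k a (i + 1) = tg k a i := by
  unfold tg rg
  rw [if_pos (by omega), if_neg (by omega)]
theorem tg_succ' {k a i : ℕ} (h : i + 1 = k - a) : tg k a (i + 1) = pg k a i := by
  unfold tg pg
  rw [if_pos (by omega), if_neg (by omega), show k - 1 - a - i = 0 by omega, Nat.zero_mod,
    Nat.sub_zero]

/-- Shifts as digits. -/
def od (q : Prm) (O i : ℕ) : ℕ := O / q.B ^ i % q.B

variable {q : Prm}

/-- The array of a region. -/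
def arr (q : Prm) (R : ℕ) (Y F : ℕ → ℕ) (ρ j : ℕ) : ℕ :=
  vl (q.p * q.p) R (Y (ρ * q.JT + j)) (F (ρ * q.JT + j))

/-- The memory seen by the tests. -/
def mmr (q : Prm) (k R a i : ℕ) (α : AS) (idx : ℕ) : ℕ :=
  if idx < 2 * q.JT then
    arr q R α.Y α.F (if idx / q.JT = i % 2 then rg k a i else pg k a i) (idx % q.JT)
  else od q α.O (idx - 2 * q.JT)

theorem mmr_cur {k R a i : ℕ} {α : AS} {j : ℕ} (hj : j < q.JT) :
    mmr q k R a i α (i % 2 * q.JT + j) = arr q R α.Y α.F (rg k a i) j := by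
  unfold mmr
  have h1 : i % 2 * q.JT ≤ 1 * q.JT := Nat.mul_le_mul_right _ (by omega)
  have h2 : (i % 2 * q.JT + j) / q.JT = i % 2 := by
    rw [Nat.mul_comm, Nat.mul_add_div (by omega), Nat.div_eq_of_lt hj, add_zero]
  have h3 : (i % 2 * q.JT + j) % q.JT = j := by
    rw [Nat.mul_comm, Nat.mul_add_mod, Nat.mod_eq_of_lt hj]
  rw [if_pos (by omega), h2, h3, if_pos rfl]

theorem mmr_old {k R a i : ℕ} {α : AS} {j : ℕ} (hj : j < q.JT) :
    mmr q k R a i α ((i + 1) % 2 * q.JT + j) = arr q R α.Y α.F (pg k a i) j := by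
  unfold mmr
  have h1 : (i + 1) % 2 * q.JT ≤ 1 * q.JT := Nat.mul_le_mul_right _ (by omega)
  have h2 : ((i + 1) % 2 * q.JT + j) / q.JT = (i + 1) % 2 := by
    rw [Nat.mul_comm, Nat.mul_add_div (by omega), Nat.div_eq_of_lt hj, add_zero]
  have h3 : ((i + 1) % 2 * q.JT + j) % q.JT = j := by
    rw [Nat.mul_comm, Nat.mul_add_mod, Nat.mod_eq_of_lt hj]
  rw [if_pos (by omega), h2, h3, if_neg (by omega)]

theorem mmr_sh {k R a i : ℕ} {α : AS} (i' : ℕ) :
    q.sh (mmr q k R a i α) i' = od q α.O i' := by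
  unfold Prm.sh mmr
  rw [if_neg (by omega), Nat.add_sub_cancel_left]

/-- The first `n` cells of the region `ρ` have been processed for stage `st`. -/
structure Up (q : Prm) (A0 : ℕ → ℕ → ℕ) (o : ℕ → ℕ) (R : ℕ) (Y0 : ℕ → ℕ) (Y F : ℕ → ℕ)
    (st ρ n : ℕ) : Prop where
  lo : ∀ j < n, j < q.JT →
    Y (ρ * q.JT + j) = bc (q.p * q.p) R (Gd q A0 o st (arr q R Y F ρ) j) (Y0 (ρ * q.JT + j)) ∧
    F (ρ * q.JT + j) = flg (q.p * q.p) (Gd q A0 o st (arr q R Y F ρ) j) (Y0 (ρ * q.JT + j))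
  hi : ∀ j, n ≤ j → j < q.JT → Y (ρ * q.JT + j) = Y0 (ρ * q.JT + j)

section

variable {A0 : ℕ → ℕ → ℕ} {o : ℕ → ℕ} {R W k : ℕ} {Y0 Y F Y' F' : ℕ → ℕ} {st ρ n : ℕ}

theorem Up.frame (h : Up q A0 o R Y0 Y F st ρ n)
    (hY : ∀ j < q.JT, Y' (ρ * q.JT + j) = Y (ρ * q.JT + j))
    (hF : ∀ j < q.JT, F' (ρ * q.JT + j) = F (ρ * q.JT + j)) : Up q A0 o R Y0 Y' F' st ρ n := by
  have harr : ∀ j < q.JT, arr q R Y F ρ j = arr q R Y' F' ρ j := by
    intro j hj
    unfold arr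
    rw [hY j hj, hF j hj]
  refine ⟨fun j hj hj' => ?_, fun j hj hj' => ?_⟩
  · obtain ⟨h1, h2⟩ := h.lo j hj hj'
    have hg : Gd q A0 o st (arr q R Y' F' ρ) j = Gd q A0 o st (arr q R Y F ρ) j :=
      Gd_congr_h (fun j' hj'' => (harr j' (by omega)).symm)
    rw [hY j hj', hF j hj', hg]
    exact ⟨h1, h2⟩
  · rw [hY j hj']; exact h.hi j hj hj'

theorem Up.congr_o {o' : ℕ → ℕ} (h : Up q A0 o R Y0 Y F st ρ n) (e : ∀ i' < st, o i' = o' i') :
    Up q A0 o' R Y0 Y F st ρ n := by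
  refine ⟨fun j hj hj' => ?_, h.hi⟩
  rw [← Gd_congr_o e]
  exact h.lo j hj hj'

theorem Up.zero_iff {o' : ℕ → ℕ} {st' : ℕ} (h : Up q A0 o R Y0 Y F st ρ 0) :
    Up q A0 o' R Y0 Y F st' ρ 0 := ⟨fun j hj => absurd hj (Nat.not_lt_zero _), h.hi⟩

theorem arr_upd_ne {j j' v f : ℕ} (hjj : j' ≠ j) :
    arr q R (Function.update Y (ρ * q.JT + j) v) (Function.update F (ρ * q.JT + j) f) ρ j' =
      arr q R Y F ρ j' := by
  unfold arr
  rw [Function.update_of_ne (by omega), Function.update_of_ne (by omega)]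

theorem Up.build (h : Up q A0 o R Y0 Y F st ρ n) (hn : n < q.JT) :
    Up q A0 o R Y0
      (Function.update Y (ρ * q.JT + n) (bc (q.p * q.p) R (Gd q A0 o st (arr q R Y F ρ) n)
        (Y (ρ * q.JT + n))))
      (Function.update F (ρ * q.JT + n) (flg (q.p * q.p) (Gd q A0 o st (arr q R Y F ρ) n)
        (Y (ρ * q.JT + n)))) st ρ (n + 1) := by
  have h0 := h.hi n le_rfl hn
  refine ⟨fun j hj hj' => ?_, fun j hj hj' => ?_⟩
  · have hg : Gd q A0 o st (arr q R
        (Function.update Y (ρ * q.JT + n) (bc (q.p * q.p) R (Gd q A0 o st (arr q R Y F ρ) n)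
          (Y (ρ * q.JT + n))))
        (Function.update F (ρ * q.JT + n) (flg (q.p * q.p) (Gd q A0 o st (arr q R Y F ρ) n)
          (Y (ρ * q.JT + n)))) ρ) j = Gd q A0 o st (arr q R Y F ρ) j :=
      Gd_congr_h (fun j' hj'' => arr_upd_ne (by omega))
    rw [hg]
    by_cases hjn : j = n
    · subst hjn
      rw [Function.update_self, Function.update_self, h0]
      exact ⟨rfl, rfl⟩
    · rw [Function.update_of_ne (by omega), Function.update_of_ne (by omega)]
      exact h.lo j (by omega) hj'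
  · rw [Function.update_of_ne (by omega)]
    exact h.hi j (by omega) hj'

theorem Up.unbuild (h : Up q A0 o R Y0 Y F st ρ (n + 1)) (hn : n < q.JT)
    (hW : rk (q.p * q.p) (Gd q A0 o st (arr q R Y F ρ) n) W ≤ R)
    (hY0 : Y0 (ρ * q.JT + n) < W) :
    uc (q.p * q.p) R W (Gd q A0 o st (arr q R Y F ρ) n) (Y (ρ * q.JT + n)) (F (ρ * q.JT + n)) =
      Y0 (ρ * q.JT + n) ∧
    Up q A0 o R Y0 (Function.update Y (ρ * q.JT + n) (Y0 (ρ * q.JT + n))) F st ρ n := by
  obtain ⟨h1, h2⟩ := h.lo n (by omega) hn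
  have h3 : uc (q.p * q.p) R W (Gd q A0 o st (arr q R Y F ρ) n) (Y (ρ * q.JT + n))
      (F (ρ * q.JT + n)) = Y0 (ρ * q.JT + n) := by
    rw [h2]
    conv_lhs => rw [h1]
    exact uc_bc hW hY0
  refine ⟨h3, ?_⟩
  have hF : F = Function.update F (ρ * q.JT + n) (F (ρ * q.JT + n)) := by
    rw [Function.update_eq_self]
  refine ⟨fun j hj hj' => ?_, fun j hj hj' => ?_⟩
  · have hg : Gd q A0 o st (arr q R
        (Function.update Y (ρ * q.JT + n) (Y0 (ρ * q.JT + n))) F ρ) j =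
        Gd q A0 o st (arr q R Y F ρ) j := by
      rw [hF]
      exact Gd_congr_h (fun j' hj'' => by rw [arr_upd_ne (by omega), ← hF])
    rw [hg, Function.update_of_ne (by omega)]
    exact h.lo j (by omega) hj'
  · by_cases hjn : j = n
    · subst hjn
      rw [Function.update_self]
    · rw [Function.update_of_ne (by omega)]
      exact h.hi j (by omega) hj'

theorem Up.arr {εG : ℝ} (h : Up q A0 o R Y0 Y F st ρ n) (hn : q.JT ≤ n) (H : q.Ok εG)
    (H2 : q.Ok2 k) (hst : st < k)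
    (hW : ∀ j, rk (q.p * q.p) (Gd q A0 o st (arr q R Y F ρ) j) W ≤ R)
    (hY0 : ∀ a, Y0 a < W) : Arr q A0 o st (arr q R Y F ρ) := by
  intro j hj
  obtain ⟨h1, h2⟩ := h.lo j (by omega) hj
  have h3 := good_vl (D := q.p * q.p) (hW j) (exists_Gd H H2 hst) (hY0 (ρ * q.JT + j))
  have h4 : Cat.arr q R Y F ρ j = vl (q.p * q.p) R (bc (q.p * q.p) R
      (Gd q A0 o st (Cat.arr q R Y F ρ) j) (Y0 (ρ * q.JT + j)))
      (flg (q.p * q.p) (Gd q A0 o st (Cat.arr q R Y F ρ) j) (Y0 (ρ * q.JT + j))) := by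
    conv_lhs => unfold Cat.arr
    rw [h1, h2]
  rw [h4]
  exact h3

end

end Vale.Agent.P313.Cat
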