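import Vale.Agent.P313.H463.Cat6

/-!
The abstract machine with three arrays and its invariants.
-/

namespace Vale.Agent.P313.Cat

open Finset Prm

/-- Kind of a step: `1` build, `2` undo the array of the stage before, `3` undo the array of this
stage, `0` nothing. -/
def knd (JT k a i ph j : ℕ) : ℕ :=
  if JT ≤ j then 0
  else if ph = 0 then (if i < k - a then 1 else 0)
  else if i < k - a then (if i = 0 then 0 else 2)
  else if i = k - a then (if a = 0 then 0 else 3)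
  else 0

/-- The cell of a step. -/
def cell (JT k a i ph j : ℕ) : ℕ :=
  if knd JT k a i ph j = 0 then 0
  else if knd JT k a i ph j = 1 then rg k a i * JT + j
  else if knd JT k a i ph j = 2 then pg k a i * JT + (JT - 1 - j)
  else rg k a i * JT + (JT - 1 - j)

/-- The stage whose tests are used. -/
def stg (JT k a i ph j : ℕ) : ℕ := if knd JT k a i ph j = 2 then i - 1 else i

/-- The number of the hash function. -/
def jj (JT k a i ph j : ℕ) : ℕ := if knd JT k a i ph j = 1 then j else JT - 1 - j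

theorem cell_lt {JT k a i ph j : ℕ} (h : 0 < JT) : cell JT k a i ph j < 3 * JT := by
  have h1 := Nat.mul_le_mul_right JT (Nat.le_of_lt_succ (rg_lt k a i) : rg k a i ≤ 2)
  have h2 := Nat.mul_le_mul_right JT (Nat.le_of_lt_succ (pg_lt k a i) : pg k a i ≤ 2)
  unfold cell
  by_cases h0 : knd JT k a i ph j = 0
  · rw [if_pos h0]; omega
  · have hj : j < JT := by
      by_contra hj
      apply h0
      unfold knd
      rw [if_pos (by omega)]
    rw [if_neg h0]
    split_ifs <;> omega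

/-- One step. -/
noncomputable def astep (q : Prm) (A0 : ℕ → ℕ → ℕ) (k R W : ℕ) (vf : (ℕ → ℕ) → ℕ)
    (a i ph j : ℕ) (α : AS) : AS where
  Y := Function.update α.Y (cell q.JT k a i ph j) ((
    if knd q.JT k a i ph j = 0 then α.Y (cell q.JT k a i ph j)
    else if knd q.JT k a i ph j = 1 then
      bc (q.p * q.p) R (q.TestH A0 (mmr q k R a i α) (stg q.JT k a i ph j) (jj q.JT k a i ph j))
        (α.Y (cell q.JT k a i ph j))
    else uc (q.p * q.p) R W
      (q.TestH A0 (mmr q k R a i α) (stg q.JT k a i ph j) (jj q.JT k a i ph j))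
        (α.Y (cell q.JT k a i ph j)) (α.F (cell q.JT k a i ph j))) % W)
  F := Function.update α.F (cell q.JT k a i ph j) (
    if knd q.JT k a i ph j = 1 then
      flg (q.p * q.p) (q.TestH A0 (mmr q k R a i α) (stg q.JT k a i ph j) (jj q.JT k a i ph j))
        (α.Y (cell q.JT k a i ph j))
    else α.F (cell q.JT k a i ph j))
  O := if ph = 0 ∧ j = q.JT ∧ a = 0 ∧ i < k then
      (α.O + q.B ^ i * leastBelow (q.TestO A0 (mmr q k R a i α) i) q.B) % q.B ^ k
    else α.O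
  V := if ph = 0 ∧ j = q.JT ∧ a = 0 ∧ i = k then Min.min (vf (mmr q k R a i α)) 1 else α.V

/-- All steps. -/
noncomputable def arun (q : Prm) (A0 : ℕ → ℕ → ℕ) (k R W : ℕ) (vf : (ℕ → ℕ) → ℕ) (α : AS) :
    ℕ → AS
  | 0 => α
  | m + 1 => astep q A0 k R W vf (m / (q.JT + 1) / 2 / (k + 1)) (m / (q.JT + 1) / 2 % (k + 1))
      (m / (q.JT + 1) % 2) (m % (q.JT + 1)) (arun q A0 k R W vf α m)

/-- Linear time. -/
def tm (JT k a i ph j : ℕ) : ℕ := j + (JT + 1) * (ph + 2 * (i + (k + 1) * a))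

theorem arun_tm {q : Prm} {A0 : ℕ → ℕ → ℕ} {k R W : ℕ} {vf : (ℕ → ℕ) → ℕ} {α : AS}
    {a i ph j : ℕ} (hj : j < q.JT + 1) (hph : ph < 2) (hi : i < k + 1) :
    arun q A0 k R W vf α (tm q.JT k a i ph (j + 1)) =
      astep q A0 k R W vf a i ph j (arun q A0 k R W vf α (tm q.JT k a i ph j)) := by
  have e1 : tm q.JT k a i ph j / (q.JT + 1) = ph + 2 * (i + (k + 1) * a) := by
    unfold tm
    rw [Nat.add_mul_div_left _ _ (by omega), Nat.div_eq_of_lt hj, zero_add]
  have e2 : tm q.JT k a i ph j % (q.JT + 1) = j := by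
    unfold tm
    rw [Nat.add_mul_mod_self_left, Nat.mod_eq_of_lt hj]
  have e3 : (ph + 2 * (i + (k + 1) * a)) / 2 = i + (k + 1) * a := by
    rw [Nat.add_mul_div_left _ _ (by norm_num), Nat.div_eq_of_lt hph, zero_add]
  have e4 : (ph + 2 * (i + (k + 1) * a)) % 2 = ph := by
    rw [Nat.add_mul_mod_self_left, Nat.mod_eq_of_lt hph]
  have e5 : (i + (k + 1) * a) / (k + 1) = a := by
    rw [Nat.add_mul_div_left _ _ (by omega), Nat.div_eq_of_lt hi, zero_add]
  have e6 : (i + (k + 1) * a) % (k + 1) = i := by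
    rw [Nat.add_mul_mod_self_left, Nat.mod_eq_of_lt hi]
  have e7 : tm q.JT k a i ph (j + 1) = tm q.JT k a i ph j + 1 := by unfold tm; ring
  rw [e7]
  conv_lhs => unfold arun
  rw [e1, e2, e3, e4, e5, e6]

theorem tm_ph (JT k a i : ℕ) : tm JT k a i 0 (JT + 1) = tm JT k a i 1 0 := by unfold tm; ring
theorem tm_i (JT k a i : ℕ) : tm JT k a i 1 (JT + 1) = tm JT k a (i + 1) 0 0 := by unfold tm; ring
theorem tm_a (JT k a : ℕ) : tm JT k a (k + 1) 0 0 = tm JT k (a + 1) 0 0 0 := by unfold tm; ring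

section

variable {q : Prm} {A0 : ℕ → ℕ → ℕ} {k W : ℕ} {Y0 : ℕ → ℕ}

/-- The state of the three regions. -/
def P3 (q : Prm) (A0 : ℕ → ℕ → ℕ) (k R : ℕ) (Y0 : ℕ → ℕ) (a i n1 n2 n3 : ℕ) (α : AS) : Prop :=
  Up q A0 (od q α.O) R Y0 α.Y α.F i (rg k a i) n1 ∧
  Up q A0 (od q α.O) R Y0 α.Y α.F (i - 1) (pg k a i) n2 ∧
  Up q A0 (od q α.O) R Y0 α.Y α.F (k - a) (tg k a i) n3

/-- The known shifts. -/
def SO (q : Prm) (A0 : ℕ → ℕ → ℕ) (s : ℕ) (α : AS) : Prop :=
  α.O < q.B ^ s ∧ ∀ i' < s, SafeAt q A0 (od q α.O) i'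

theorem Arr.congr {o : ℕ → ℕ} {st : ℕ} {h h' : ℕ → ℕ} (hh : Arr q A0 o st h)
    (e : ∀ j < q.JT, h j = h' j) : Arr q A0 o st h' := by
  intro j hj
  have h1 := hh j hj
  rw [e j hj, Gd_congr_h (fun j' hj' => e j' (by omega))] at h1
  exact h1

theorem oldX {εG : ℝ} (H : q.Ok εG) (hA : IsAut A0 q.N) {R a i : ℕ} {α : AS}
    (h : i ≠ 0 → Arr q A0 (od q α.O) (i - 1) (arr q R α.Y α.F (pg k a i)))
    (hs : ∀ i' < i, SafeAt q A0 (od q α.O) i') :
    ∀ m ≤ i, q.XA A0 (mmr q k R a i α) ((i + 1) % 2) m = As q A0 (od q α.O) m := by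
  intro m hm
  by_cases hi : i = 0
  · have : m = 0 := by omega
    subst this
    rfl
  · refine XA_eq (st := i - 1) H hA ((h hi).congr fun j hj => (mmr_old hj).symm) m (by omega)
      (fun i' hi' => ⟨mmr_sh i', hs i' (by omega)⟩)

theorem curX {εG : ℝ} (H : q.Ok εG) (hA : IsAut A0 q.N) {R a i : ℕ} {α : AS}
    (h : Arr q A0 (od q α.O) i (arr q R α.Y α.F (rg k a i)))
    (hs : ∀ i' < i, SafeAt q A0 (od q α.O) i') :
    ∀ m ≤ i, q.XA A0 (mmr q k R a i α) (i % 2) m = As q A0 (od q α.O) m := by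
  intro m hm
  exact XA_eq (st := i) H hA (h.congr fun j hj => (mmr_cur hj).symm) m (by omega)
      (fun i' hi' => ⟨mmr_sh i', hs i' (by omega)⟩)

theorem testH_cur {εG : ℝ} (H : q.Ok εG) (hA : IsAut A0 q.N) {R a i j : ℕ} {α : AS}
    (h : i ≠ 0 → Arr q A0 (od q α.O) (i - 1) (arr q R α.Y α.F (pg k a i)))
    (hs : ∀ i' < i, SafeAt q A0 (od q α.O) i') (hj : j < q.JT) :
    q.TestH A0 (mmr q k R a i α) i j = Gd q A0 (od q α.O) i (arr q R α.Y α.F (rg k a i)) j := by
  funext d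
  apply propext
  rw [testH_iff (oldX H hA h hs)]
  rw [Gd_congr_h (fun j' hj' => mmr_cur (by omega))]

theorem testH_old {εG : ℝ} (H : q.Ok εG) (hA : IsAut A0 q.N) {R a i j : ℕ} {α : AS}
    (hi : i ≠ 0) (h : Arr q A0 (od q α.O) i (arr q R α.Y α.F (rg k a i)))
    (hs : ∀ i' < i, SafeAt q A0 (od q α.O) i') (hj : j < q.JT) :
    q.TestH A0 (mmr q k R a i α) (i - 1) j =
      Gd q A0 (od q α.O) (i - 1) (arr q R α.Y α.F (pg k a i)) j := by
  have e1 : (i - 1) % 2 = (i + 1) % 2 := by omega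
  have e2 : i - 1 + 1 = i := by omega
  funext d
  apply propext
  rw [testH_iff (st := i - 1) (o := od q α.O) (by
    rw [e2]; exact fun i' hi' => curX H hA h hs i' (by omega)), e1]
  rw [Gd_congr_h (fun j' hj' => mmr_old (by omega))]

/-- The hypotheses about the parameters. -/
structure Hyp (q : Prm) (A0 : ℕ → ℕ → ℕ) (k W : ℕ) (Y0 : ℕ → ℕ) : Prop where
  ok : ∃ εG : ℝ, q.Ok εG
  ok2 : q.Ok2 k
  ok3 : Ok3 q k
  aut : IsAut A0 q.N
  w1 : (q.p * q.p) ^ kb ≤ W
  w2 : W ≤ 2 * (q.p * q.p) ^ kb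
  hk : 0 < k
  hJ : 0 < q.JT
  y0 : ∀ A, Y0 A < W

namespace Hyp

variable (hh : Hyp q A0 k W Y0)
include hh

theorem rk {o : ℕ → ℕ} {st : ℕ} (hst : st < k) (h : ℕ → ℕ) (j : ℕ) :
    rk (q.p * q.p) (Gd q A0 o st h j) W ≤ W / (q.p * q.p) := by
  obtain ⟨εG, H⟩ := hh.ok
  exact rk_Gd H hh.ok3 hst hh.w1 hh.w2

theorem arr' {o : ℕ → ℕ} {st ρ : ℕ} {Y F : ℕ → ℕ} (hst : st < k)
    (h : Up q A0 o (W / (q.p * q.p)) Y0 Y F st ρ q.JT) :
    Arr q A0 o st (arr q (W / (q.p * q.p)) Y F ρ) := by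
  obtain ⟨εG, H⟩ := hh.ok
  exact h.arr le_rfl H hh.ok2 hst (fun j => hh.rk hst _ j) hh.y0

theorem cur {a i j n1 n3 : ℕ} {α : AS}
    (h : P3 q A0 k (W / (q.p * q.p)) Y0 a i n1 (if i = 0 then 0 else q.JT) n3 α)
    (hi : i ≤ k) (hs : ∀ i' < i, SafeAt q A0 (od q α.O) i') (hj : j < q.JT) :
    q.TestH A0 (mmr q k (W / (q.p * q.p)) a i α) i j =
      Gd q A0 (od q α.O) i (arr q (W / (q.p * q.p)) α.Y α.F (rg k a i)) j := by
  obtain ⟨εG, H⟩ := hh.ok
  refine testH_cur H hh.aut (fun hi0 => ?_) hs hj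
  have h2 := h.2.1
  rw [if_neg hi0] at h2
  exact hh.arr' (by omega) h2

theorem old {a i j n2 n3 : ℕ} {α : AS}
    (h : P3 q A0 k (W / (q.p * q.p)) Y0 a i q.JT n2 n3 α) (hi0 : i ≠ 0)
    (hi : i < k) (hs : ∀ i' < i, SafeAt q A0 (od q α.O) i') (hj : j < q.JT) :
    q.TestH A0 (mmr q k (W / (q.p * q.p)) a i α) (i - 1) j =
      Gd q A0 (od q α.O) (i - 1) (arr q (W / (q.p * q.p)) α.Y α.F (pg k a i)) j := by
  obtain ⟨εG, H⟩ := hh.ok
  exact testH_old H hh.aut hi0 (hh.arr' hi h.1) hs hj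

end Hyp

end

section

variable {q : Prm} {A0 : ℕ → ℕ → ℕ} {k R W : ℕ} {Y0 : ℕ → ℕ} {vf : (ℕ → ℕ) → ℕ}

theorem knd_JT {a i ph j : ℕ} (h : q.JT ≤ j) : knd q.JT k a i ph j = 0 := by
  unfold knd; rw [if_pos h]

/-- A step which does not change the tape. -/
theorem astep_noop {a i ph j : ℕ} {α : AS} (h : knd q.JT k a i ph j = 0)
    (hY : ∀ A, α.Y A < W) :
    (astep q A0 k R W vf a i ph j α).Y = α.Y ∧ (astep q A0 k R W vf a i ph j α).F = α.F := by
  constructor
  · show Function.update _ _ _ = _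
    rw [if_pos h, Nat.mod_eq_of_lt (hY _), Function.update_eq_self]
  · show Function.update _ _ _ = _
    rw [if_neg (by omega), Function.update_eq_self]

theorem astep_Y_lt {a i ph j : ℕ} {α : AS} (hW : 0 < W)
    (hY : ∀ A, α.Y A < W) (A : ℕ) : (astep q A0 k R W vf a i ph j α).Y A < W := by
  unfold astep
  simp only [Function.update_apply]
  split_ifs
  all_goals first | exact Nat.mod_lt _ hW | exact hY _

theorem astep_O {a i ph j : ℕ} {α : AS} (h : ¬ (ph = 0 ∧ j = q.JT ∧ a = 0 ∧ i < k)) :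
    (astep q A0 k R W vf a i ph j α).O = α.O := by
  show (if _ then _ else _) = _
  rw [if_neg h]

theorem astep_V {a i ph j : ℕ} {α : AS} (h : ¬ (ph = 0 ∧ j = q.JT ∧ a = 0 ∧ i = k)) :
    (astep q A0 k R W vf a i ph j α).V = α.V := by
  show (if _ then _ else _) = _
  rw [if_neg h]

/-- The invariant depends only on the tape and the shifts. -/
theorem P3.of_eq {a i n1 n2 n3 : ℕ} {α α' : AS} (h : P3 q A0 k R Y0 a i n1 n2 n3 α)
    (hY : α'.Y = α.Y) (hF : α'.F = α.F) (hO : α'.O = α.O) :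
    P3 q A0 k R Y0 a i n1 n2 n3 α' := by
  unfold P3 at h ⊢
  rw [hY, hF, hO]
  exact h

theorem SO.of_eq {s : ℕ} {α α' : AS} (h : SO q A0 s α) (hO : α'.O = α.O) : SO q A0 s α' := by
  unfold SO at h ⊢
  rw [hO]
  exact h

/-- Two cells of different regions are different. -/
theorem cell_ne {ρ ρ' j j' JT : ℕ} (h : ρ ≠ ρ') (hj : j < JT) (hj' : j' < JT) :
    ρ * JT + j ≠ ρ' * JT + j' := by
  intro e
  apply h
  have h1 : (ρ * JT + j) / JT = ρ := by
    rw [Nat.mul_comm, Nat.mul_add_div (by omega), Nat.div_eq_of_lt hj, add_zero]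
  have h2 : (ρ' * JT + j') / JT = ρ' := by
    rw [Nat.mul_comm, Nat.mul_add_div (by omega), Nat.div_eq_of_lt hj', add_zero]
  rw [← h1, ← h2, e]

/-- Changes of another region. -/
theorem Up.other {o : ℕ → ℕ} {Y F : ℕ → ℕ} {st ρ ρ' n j v f : ℕ}
    (h : Up q A0 o R Y0 Y F st ρ n) (hρ : ρ ≠ ρ') (hj : j < q.JT) :
    Up q A0 o R Y0 (Function.update Y (ρ' * q.JT + j) v) (Function.update F (ρ' * q.JT + j) f)
      st ρ n := by
  refine h.frame (fun j' hj' => ?_) (fun j' hj' => ?_)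
  · rw [Function.update_of_ne (cell_ne hρ hj' hj)]
  · rw [Function.update_of_ne (cell_ne hρ hj' hj)]

/-- Building a cell. -/
theorem step_build (hh : Hyp q A0 k W Y0) {a i j n3 : ℕ} {α : AS}
    (h : P3 q A0 k (W / (q.p * q.p)) Y0 a i j (if i = 0 then 0 else q.JT) n3 α)
    (hi : i < k - a) (hs : ∀ i' < i, SafeAt q A0 (od q α.O) i') (hj : j < q.JT) :
    P3 q A0 k (W / (q.p * q.p)) Y0 a i (j + 1) (if i = 0 then 0 else q.JT) n3
      (astep q A0 k (W / (q.p * q.p)) W vf a i 0 j α) := by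
  have hk : knd q.JT k a i 0 j = 1 := by
    unfold knd; rw [if_neg (by omega), if_pos rfl, if_pos hi]
  have hc : cell q.JT k a i 0 j = rg k a i * q.JT + j := by
    unfold cell; rw [if_neg (by omega), if_pos hk]
  have hst : stg q.JT k a i 0 j = i := by unfold stg; rw [if_neg (by omega)]
  have hjj : jj q.JT k a i 0 j = j := by unfold jj; rw [if_pos hk]
  have hT := hh.cur h (by omega) hs hj
  obtain ⟨h1, h2, h3⟩ := h
  have hO : (astep q A0 k (W / (q.p * q.p)) W vf a i 0 j α).O = α.O :=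
    astep_O (by omega)
  have h0 := h1.hi j le_rfl hj
  obtain ⟨εG, H⟩ := hh.ok
  have hlt : bc (q.p * q.p) (W / (q.p * q.p))
      (Gd q A0 (od q α.O) i (arr q (W / (q.p * q.p)) α.Y α.F (rg k a i)) j)
      (α.Y (rg k a i * q.JT + j)) < W := by
    refine bc_lt (hh.rk (by omega) _ j) (Nat.div_mul_le_self _ _) (exists_Gd H hh.ok2 (by omega)) ?_
    rw [h0]
    exact hh.y0 _
  have hY : (astep q A0 k (W / (q.p * q.p)) W vf a i 0 j α).Y =
      Function.update α.Y (rg k a i * q.JT + j) (bc (q.p * q.p) (W / (q.p * q.p))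
      (Gd q A0 (od q α.O) i (arr q (W / (q.p * q.p)) α.Y α.F (rg k a i)) j)
      (α.Y (rg k a i * q.JT + j))) := by
    show Function.update _ _ _ = _
    rw [if_neg (by omega), if_pos hk, hc, hst, hjj, hT, Nat.mod_eq_of_lt hlt]
  have hF : (astep q A0 k (W / (q.p * q.p)) W vf a i 0 j α).F =
      Function.update α.F (rg k a i * q.JT + j) (flg (q.p * q.p)
      (Gd q A0 (od q α.O) i (arr q (W / (q.p * q.p)) α.Y α.F (rg k a i)) j)
      (α.Y (rg k a i * q.JT + j))) := by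
    show Function.update _ _ _ = _
    rw [if_pos hk, hc, hst, hjj, hT]
  unfold P3
  rw [hO, hY, hF]
  exact ⟨h1.build hj, h2.other (rg_ne_pg k a i).symm hj, h3.other (rg_ne_tg k a i).symm hj⟩

/-- Undoing a cell of the array before. -/
theorem step_undo1 (hh : Hyp q A0 k W Y0) {a i n n3 : ℕ} {α : AS}
    (h : P3 q A0 k (W / (q.p * q.p)) Y0 a i q.JT (n + 1) n3 α)
    (hi0 : i ≠ 0) (hi : i < k - a) (hs : ∀ i' < i, SafeAt q A0 (od q α.O) i') (hn : n < q.JT) :
    P3 q A0 k (W / (q.p * q.p)) Y0 a i q.JT n n3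
      (astep q A0 k (W / (q.p * q.p)) W vf a i 1 (q.JT - 1 - n) α) := by
  have hk : knd q.JT k a i 1 (q.JT - 1 - n) = 2 := by
    unfold knd; rw [if_neg (by omega), if_neg (by omega), if_pos hi, if_neg hi0]
  have hjn : q.JT - 1 - (q.JT - 1 - n) = n := by omega
  have hc : cell q.JT k a i 1 (q.JT - 1 - n) = pg k a i * q.JT + n := by
    unfold cell; rw [if_neg (by omega), if_neg (by omega), if_pos hk, hjn]
  have hst : stg q.JT k a i 1 (q.JT - 1 - n) = i - 1 := by unfold stg; rw [if_pos hk]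
  have hjj : jj q.JT k a i 1 (q.JT - 1 - n) = n := by unfold jj; rw [if_neg (by omega), hjn]
  have hT := hh.old h hi0 (by omega) hs hn
  obtain ⟨h1, h2, h3⟩ := h
  have hO : (astep q A0 k (W / (q.p * q.p)) W vf a i 1 (q.JT - 1 - n) α).O = α.O :=
    astep_O (by omega)
  obtain ⟨e1, e2⟩ := h2.unbuild hn (hh.rk (by omega) _ n) (hh.y0 _)
  have hY : (astep q A0 k (W / (q.p * q.p)) W vf a i 1 (q.JT - 1 - n) α).Y =
      Function.update α.Y (pg k a i * q.JT + n) (Y0 (pg k a i * q.JT + n)) := by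
    show Function.update _ _ _ = _
    rw [if_neg (by omega), if_neg (by omega), hc, hst, hjj, hT, e1, Nat.mod_eq_of_lt (hh.y0 _)]
  have hF : (astep q A0 k (W / (q.p * q.p)) W vf a i 1 (q.JT - 1 - n) α).F =
      Function.update α.F (pg k a i * q.JT + n) (α.F (pg k a i * q.JT + n)) := by
    show Function.update _ _ _ = _
    rw [if_neg (by omega), hc]
  unfold P3
  rw [hO, hY, hF]
  refine ⟨h1.other (rg_ne_pg k a i) hn, ?_, h3.other (pg_ne_tg k a i).symm hn⟩
  rw [Function.update_eq_self]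
  exact e2

/-- Undoing a cell of the array of this stage. -/
theorem step_undo2 (hh : Hyp q A0 k W Y0) {a i n n3 : ℕ} {α : AS}
    (h : P3 q A0 k (W / (q.p * q.p)) Y0 a i (n + 1) (if i = 0 then 0 else q.JT) n3 α)
    (ha : a ≠ 0) (hi : i = k - a) (hs : ∀ i' < i, SafeAt q A0 (od q α.O) i') (hn : n < q.JT) :
    P3 q A0 k (W / (q.p * q.p)) Y0 a i n (if i = 0 then 0 else q.JT) n3
      (astep q A0 k (W / (q.p * q.p)) W vf a i 1 (q.JT - 1 - n) α) := by
  have hk0 := hh.hk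
  have hk : knd q.JT k a i 1 (q.JT - 1 - n) = 3 := by
    unfold knd
    rw [if_neg (by omega), if_neg (by omega), if_neg (by omega), if_pos hi, if_neg ha]
  have hjn : q.JT - 1 - (q.JT - 1 - n) = n := by omega
  have hc : cell q.JT k a i 1 (q.JT - 1 - n) = rg k a i * q.JT + n := by
    unfold cell
    rw [if_neg (by omega), if_neg (by omega), if_neg (by omega), hjn]
  have hst : stg q.JT k a i 1 (q.JT - 1 - n) = i := by unfold stg; rw [if_neg (by omega)]
  have hjj : jj q.JT k a i 1 (q.JT - 1 - n) = n := by unfold jj; rw [if_neg (by omega), hjn]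
  have hT := hh.cur h (by omega) hs hn
  obtain ⟨h1, h2, h3⟩ := h
  have hO : (astep q A0 k (W / (q.p * q.p)) W vf a i 1 (q.JT - 1 - n) α).O = α.O :=
    astep_O (by omega)
  obtain ⟨e1, e2⟩ := h1.unbuild hn (hh.rk (by omega) _ n) (hh.y0 _)
  have hY : (astep q A0 k (W / (q.p * q.p)) W vf a i 1 (q.JT - 1 - n) α).Y =
      Function.update α.Y (rg k a i * q.JT + n) (Y0 (rg k a i * q.JT + n)) := by
    show Function.update _ _ _ = _
    rw [if_neg (by omega), if_neg (by omega), hc, hst, hjj, hT, e1, Nat.mod_eq_of_lt (hh.y0 _)]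
  have hF : (astep q A0 k (W / (q.p * q.p)) W vf a i 1 (q.JT - 1 - n) α).F =
      Function.update α.F (rg k a i * q.JT + n) (α.F (rg k a i * q.JT + n)) := by
    show Function.update _ _ _ = _
    rw [if_neg (by omega), hc]
  unfold P3
  rw [hO, hY, hF]
  refine ⟨?_, h2.other (rg_ne_pg k a i).symm hn, h3.other (rg_ne_tg k a i).symm hn⟩
  rw [Function.update_eq_self]
  exact e2

theorem od_add {O i σ i' : ℕ} (hO : O < q.B ^ i) (hi' : i' < i) :
    od q (O + q.B ^ i * σ) i' = od q O i' := by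
  unfold od
  obtain ⟨c, rfl⟩ : ∃ c, i = i' + (c + 1) := ⟨i - i' - 1, by omega⟩
  have hB : 0 < q.B ^ i' := by
    apply Nat.pos_of_ne_zero
    intro h0
    rw [pow_add, h0, zero_mul] at hO
    exact absurd hO (Nat.not_lt_zero _)
  rw [show q.B ^ (i' + (c + 1)) * σ = q.B ^ i' * (q.B * (q.B ^ c * σ)) by ring,
    Nat.add_mul_div_left _ _ hB, Nat.add_mul_mod_self_left]

theorem od_add' {O i σ : ℕ} (hO : O < q.B ^ i) (hσ : σ < q.B) :
    od q (O + q.B ^ i * σ) i = σ := by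
  unfold od
  rw [Nat.add_mul_div_left _ _ (by omega), Nat.div_eq_of_lt hO, zero_add, Nat.mod_eq_of_lt hσ]

/-- Finding a shift. -/
theorem step_shift (hh : Hyp q A0 k W Y0) {i n3 : ℕ} {α : AS}
    (h : P3 q A0 k (W / (q.p * q.p)) Y0 0 i q.JT (if i = 0 then 0 else q.JT) n3 α)
    (h0 : n3 = 0) (hi : i < k) (hs : SO q A0 i α) (hY : ∀ A, α.Y A < W) :
    P3 q A0 k (W / (q.p * q.p)) Y0 0 i q.JT (if i = 0 then 0 else q.JT) n3
      (astep q A0 k (W / (q.p * q.p)) W vf 0 i 0 q.JT α) ∧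
    SO q A0 (i + 1) (astep q A0 k (W / (q.p * q.p)) W vf 0 i 0 q.JT α) := by
  obtain ⟨εG, H⟩ := hh.ok
  obtain ⟨hO, hs⟩ := hs
  subst h0
  have hX : ∀ m ≤ i, q.XA A0 (mmr q k (W / (q.p * q.p)) 0 i α) ((i + 1) % 2) m =
      As q A0 (od q α.O) m := by
    refine oldX H hh.aut (fun hi0 => ?_) hs
    have h2 := h.2.1
    rw [if_neg hi0] at h2
    exact hh.arr' (by omega) h2
  have hcur := hh.arr' hi h.1
  set σ := leastBelow (q.TestO A0 (mmr q k (W / (q.p * q.p)) 0 i α) i) q.B with hσ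
  have hB : ∀ i' < i, od q (α.O + q.B ^ i * σ) i' = od q α.O i' := fun i' hi' => od_add hO hi'
  obtain ⟨hσB, hσs⟩ := shift_ok (o := od q α.O)
    (o' := fun i' => if i' = i then σ else od q α.O i') H hh.ok2 hh.aut
    (hcur.congr fun j hj => (mmr_cur hj).symm) (hX i le_rfl)
    (fun i' hi' => if_neg (by omega)) (by rw [if_pos rfl])
  have hlt : α.O + q.B ^ i * σ < q.B ^ (i + 1) := by
    have h1 : q.B ^ i * (σ + 1) ≤ q.B ^ i * q.B := Nat.mul_le_mul_left _ hσB
    rw [pow_succ]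
    rw [Nat.mul_succ] at h1
    omega
  have hBpos : 0 < q.B := by omega
  have hO' : (astep q A0 k (W / (q.p * q.p)) W vf 0 i 0 q.JT α).O = α.O + q.B ^ i * σ := by
    show (if _ then _ else _) = _
    rw [if_pos ⟨rfl, rfl, rfl, hi⟩]
    exact Nat.mod_eq_of_lt (hlt.trans_le (Nat.pow_le_pow_right hBpos (by omega)))
  obtain ⟨hY', hF'⟩ := astep_noop (q := q) (A0 := A0) (R := W / (q.p * q.p)) (vf := vf)
    (knd_JT (k := k) (a := 0) (i := i) (ph := 0) (j := q.JT) le_rfl) hY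
  constructor
  · unfold P3
    rw [hO', hY', hF']
    obtain ⟨h1, h2, h3⟩ := h
    exact ⟨h1.congr_o (fun i' hi' => (hB i' hi').symm),
      h2.congr_o (fun i' hi' => (hB i' (by omega)).symm), h3.zero_iff⟩
  · refine ⟨by rw [hO']; exact hlt, ?_⟩
    rw [hO']
    intro i' hi'
    rcases Nat.lt_succ_iff_lt_or_eq.1 hi' with h1 | h1
    · exact SafeAt_congr (fun i'' hi'' => (hB i'' (by omega)).symm) (hs i' h1)
    · subst h1
      refine SafeAt_congr (fun i'' hi'' => ?_) hσs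
      by_cases he : i'' = i'
      · subst he
        rw [if_pos rfl, od_add' hO hσB]
      · rw [if_neg he, hB i'' (by omega)]

end

section

variable {q : Prm} {A0 : ℕ → ℕ → ℕ} {k W : ℕ} {Y0 : ℕ → ℕ} {vf : (ℕ → ℕ) → ℕ} {VP : ℕ → Prop}

theorem od_lt {O i : ℕ} (h : 0 < q.B) : od q O i < q.B := Nat.mod_lt _ h

/-- The verdict. -/
theorem step_verd (hh : Hyp q A0 k W Y0) {n1 n3 : ℕ} {α : AS}
    (hv : ∀ M o : ℕ → ℕ, (∀ i, o i < q.B) → (∀ i ≤ k, q.XA A0 M ((k + 1) % 2) i = As q A0 o i) →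
      VP (Min.min (vf M) 1))
    (h : P3 q A0 k (W / (q.p * q.p)) Y0 0 k n1 (if k = 0 then 0 else q.JT) n3 α)
    (hs : SO q A0 k α) :
    VP (astep q A0 k (W / (q.p * q.p)) W vf 0 k 0 q.JT α).V := by
  obtain ⟨εG, H⟩ := hh.ok
  have hk := hh.hk
  obtain ⟨hO, hs⟩ := hs
  have hX : ∀ m ≤ k, q.XA A0 (mmr q k (W / (q.p * q.p)) 0 k α) ((k + 1) % 2) m =
      As q A0 (od q α.O) m := by
    refine oldX H hh.aut (fun hi0 => ?_) hs
    have h2 := h.2.1
    rw [if_neg hi0] at h2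
    exact hh.arr' (by omega) h2
  show VP (if _ then _ else _)
  rw [if_pos ⟨rfl, rfl, rfl, rfl⟩]
  exact hv _ (od q α.O) (fun i => od_lt H.hB) hX

/-- The region `ρ` has its original content. -/
def Zr (q : Prm) (Y0 : ℕ → ℕ) (ρ : ℕ) (α : AS) : Prop :=
  ∀ j < q.JT, α.Y (ρ * q.JT + j) = Y0 (ρ * q.JT + j)

theorem Up.zr {R st ρ : ℕ} {o : ℕ → ℕ} {α : AS} (h : Up q A0 o R Y0 α.Y α.F st ρ 0) :
    Zr q Y0 ρ α := fun j hj => h.hi j (Nat.zero_le _) hj

theorem Zr.up {R st ρ : ℕ} {o : ℕ → ℕ} {α : AS} (h : Zr q Y0 ρ α) :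
    Up q A0 o R Y0 α.Y α.F st ρ 0 :=
  ⟨fun j hj => absurd hj (Nat.not_lt_zero _), fun j _ hj => h j hj⟩

/-- Between two sweeps. -/
def Post (q : Prm) (A0 : ℕ → ℕ → ℕ) (k R : ℕ) (Y0 : ℕ → ℕ) (a : ℕ) (α : AS) : Prop :=
  Up q A0 (od q α.O) R Y0 α.Y α.F (k - a - 1) (a % 3) (if k - a = 0 then 0 else q.JT) ∧
  Zr q Y0 ((a + 1) % 3) α ∧ Zr q Y0 ((a + 2) % 3) α

/-- The invariant before stage `i` of sweep `a`. -/
structure InvS (q : Prm) (A0 : ℕ → ℕ → ℕ) (k R W : ℕ) (Y0 : ℕ → ℕ) (VP : ℕ → Prop)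
    (a i : ℕ) (α : AS) :
    Prop where
  lt : i < k - a → P3 q A0 k R Y0 a i 0 (if i = 0 then 0 else q.JT) (if a = 0 then 0 else q.JT) α
  eq : i = k - a → P3 q A0 k R Y0 a i (if a = 0 then 0 else q.JT) (if i = 0 then 0 else q.JT) 0 α
  gt : k - a < i → Post q A0 k R Y0 a α
  so : SO q A0 (if a = 0 then Min.min i k else k) α
  vv : (1 ≤ a ∨ k < i) → VP α.V
  yw : ∀ A, α.Y A < W

theorem Hyp.Wpos (hh : Hyp q A0 k W Y0) : 0 < W := (Nat.zero_le _).trans_lt (hh.y0 0)

theorem noop_of {R a i ph j : ℕ} {α : AS} (h : knd q.JT k a i ph j = 0) (hY : ∀ A, α.Y A < W)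
    (h1 : ¬ (ph = 0 ∧ j = q.JT ∧ a = 0 ∧ i < k)) (h2 : ¬ (ph = 0 ∧ j = q.JT ∧ a = 0 ∧ i = k)) :
    astep q A0 k R W vf a i ph j α = α := by
  obtain ⟨e1, e2⟩ := astep_noop (q := q) (A0 := A0) (R := R) (vf := vf) h hY
  have e3 := astep_O (q := q) (A0 := A0) (R := R) (W := W) (vf := vf) (α := α) h1
  have e4 := astep_V (q := q) (A0 := A0) (R := R) (W := W) (vf := vf) (α := α) h2
  cases α
  simp only at e1 e2 e3 e4
  cases h : astep q A0 k R W vf a i ph j _
  rw [h] at e1 e2 e3 e4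
  simp only at e1 e2 e3 e4
  rw [e1, e2, e3, e4]

/-- A stage with building and undoing. -/
theorem stage_lt (hh : Hyp q A0 k W Y0) {α : AS} {a i : ℕ} (hi : i < k - a)
    (h : InvS q A0 k (W / (q.p * q.p)) W Y0 VP a i
      (arun q A0 k (W / (q.p * q.p)) W vf α (tm q.JT k a i 0 0))) :
    InvS q A0 k (W / (q.p * q.p)) W Y0 VP a (i + 1)
      (arun q A0 k (W / (q.p * q.p)) W vf α (tm q.JT k a (i + 1) 0 0)) := by
  set R := W / (q.p * q.p) with hR
  set n2 := if i = 0 then 0 else q.JT with hn2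
  set n3 := if a = 0 then 0 else q.JT with hn3
  set s := if a = 0 then i else k with hs
  have hW := hh.Wpos
  have hik : i < k := by omega
  have hmin : Min.min i k = i := by omega
  have hso := h.so
  rw [hmin] at hso
  change SO q A0 s _ at hso
  have his : i ≤ s := by rw [hs]; split_ifs <;> omega
  -- building
  have b1 : ∀ j ≤ q.JT, (P3 q A0 k R Y0 a i j n2 n3
      (arun q A0 k R W vf α (tm q.JT k a i 0 j)) ∧
      SO q A0 s (arun q A0 k R W vf α (tm q.JT k a i 0 j)) ∧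
      (1 ≤ a → VP (arun q A0 k R W vf α (tm q.JT k a i 0 j)).V) ∧
      ∀ A, (arun q A0 k R W vf α (tm q.JT k a i 0 j)).Y A < W) := by
    intro j
    induction j with
    | zero => exact fun _ => ⟨h.lt hi, hso, fun ha => h.vv (Or.inl ha), h.yw⟩
    | succ j ih =>
      intro hj
      obtain ⟨i1, i2, i3, i4⟩ := ih (by omega)
      rw [arun_tm (by omega) (by norm_num) (by omega)]
      refine ⟨step_build hh i1 hi (fun i' hi' => i2.2 i' (by omega)) (by omega),
        i2.of_eq (astep_O (by omega)), fun ha => ?_, astep_Y_lt hW i4⟩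
      rw [astep_V (by omega)]
      exact i3 ha
  obtain ⟨i1, i2, i3, i4⟩ := b1 q.JT le_rfl
  -- the shift
  have hso' : ∃ s', (i + 1 ≤ s' ∧ s' = if a = 0 then i + 1 else k) ∧
      P3 q A0 k R Y0 a i q.JT n2 n3 (arun q A0 k R W vf α (tm q.JT k a i 1 0)) ∧
      SO q A0 s' (arun q A0 k R W vf α (tm q.JT k a i 1 0)) ∧
      (1 ≤ a → VP (arun q A0 k R W vf α (tm q.JT k a i 1 0)).V) ∧
      ∀ A, (arun q A0 k R W vf α (tm q.JT k a i 1 0)).Y A < W := by
    rw [← tm_ph, arun_tm (by omega) (by norm_num) (by omega)]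
    by_cases ha : a = 0
    · subst ha
      have e1 : s = i := by rw [hs, if_pos rfl]
      have e2 : n3 = 0 := by rw [hn3, if_pos rfl]
      rw [e1] at i2
      obtain ⟨c1, c2⟩ := step_shift (vf := vf) hh i1 e2 hik i2 i4
      exact ⟨i + 1, ⟨le_rfl, by rw [if_pos rfl]⟩, c1, c2, fun h => absurd h (by norm_num),
        astep_Y_lt hW i4⟩
    · rw [noop_of (knd_JT le_rfl) i4 (by omega) (by omega)]
      refine ⟨k, ⟨by omega, by rw [if_neg ha]⟩, i1, ?_, i3, i4⟩
      rw [hs, if_neg ha] at i2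
      exact i2
  obtain ⟨s', ⟨hs1, hs2⟩, c1, c2, c3, c4⟩ := hso'
  clear i1 i2 i3 i4 b1
  -- undoing
  have b2 : ∀ j ≤ q.JT, (P3 q A0 k R Y0 a i q.JT (n2 - j) n3
      (arun q A0 k R W vf α (tm q.JT k a i 1 j)) ∧
      SO q A0 s' (arun q A0 k R W vf α (tm q.JT k a i 1 j)) ∧
      (1 ≤ a → VP (arun q A0 k R W vf α (tm q.JT k a i 1 j)).V) ∧
      ∀ A, (arun q A0 k R W vf α (tm q.JT k a i 1 j)).Y A < W) := by
    intro j
    induction j with
    | zero => exact fun _ => ⟨c1, c2, c3, c4⟩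
    | succ j ih =>
      intro hj
      obtain ⟨i1, i2, i3, i4⟩ := ih (by omega)
      rw [arun_tm (by omega) (by norm_num) (by omega)]
      by_cases hi0 : i = 0
      · rw [noop_of (by
          unfold knd
          rw [if_neg (by omega), if_neg (by omega), if_pos hi, if_pos hi0]) i4 (by omega)
          (by omega)]
        have e : n2 - (j + 1) = n2 - j := by rw [hn2, if_pos hi0]; omega
        rw [e]
        exact ⟨i1, i2, i3, i4⟩
      · have e1 : n2 = q.JT := by rw [hn2, if_neg hi0]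
        have e2 : n2 - j = (q.JT - (j + 1)) + 1 := by omega
        have e3 : n2 - (j + 1) = q.JT - (j + 1) := by omega
        have e4 : q.JT - 1 - (q.JT - (j + 1)) = j := by omega
        rw [e2] at i1
        have r := step_undo1 (vf := vf) hh i1 hi0 hi (fun i' hi' => i2.2 i' (by omega)) (by omega)
        rw [e4] at r
        rw [e3]
        refine ⟨r, i2.of_eq (astep_O (by omega)), fun ha => ?_, astep_Y_lt hW i4⟩
        rw [astep_V (by omega)]
        exact i3 ha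
  obtain ⟨i1, i2, i3, i4⟩ := b2 q.JT le_rfl
  have e0 : n2 - q.JT = 0 := by rw [hn2]; split_ifs <;> omega
  rw [e0] at i1
  rw [← tm_i, arun_tm (by omega) (by norm_num) (by omega),
    noop_of (knd_JT le_rfl) i4 (by omega) (by omega)]
  obtain ⟨u1, u2, u3⟩ := i1
  refine ⟨fun h1 => ?_, fun h1 => ?_, fun h1 => absurd h1 (by omega), ?_, fun h1 => ?_, i4⟩
  · unfold P3
    rw [if_neg (by omega), rg_succ h1, pg_succ h1.le, tg_succ h1, Nat.add_sub_cancel]
    exact ⟨u2.zero_iff, u1, u3⟩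
  · unfold P3
    rw [if_neg (Nat.succ_ne_zero i), rg_succ' h1, pg_succ h1.le, tg_succ' h1, Nat.add_sub_cancel]
    refine ⟨?_, u1, u2.zero_iff⟩
    rw [← h1] at u3
    exact u3
  · have e : Min.min (i + 1) k = i + 1 := by omega
    rw [e, ← hs2]
    exact i2
  · exact i3 (by omega)

/-- The last stage of a sweep. -/
theorem stage_eq (hh : Hyp q A0 k W Y0)
    (hv : ∀ M o : ℕ → ℕ, (∀ i, o i < q.B) → (∀ i ≤ k, q.XA A0 M ((k + 1) % 2) i = As q A0 o i) →
      VP (Min.min (vf M) 1)) {α : AS} {a i : ℕ} (hi : i = k - a) (hak : a ≤ k)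
    (h : InvS q A0 k (W / (q.p * q.p)) W Y0 VP a i
      (arun q A0 k (W / (q.p * q.p)) W vf α (tm q.JT k a i 0 0))) :
    InvS q A0 k (W / (q.p * q.p)) W Y0 VP a (i + 1)
      (arun q A0 k (W / (q.p * q.p)) W vf α (tm q.JT k a (i + 1) 0 0)) := by
  set R := W / (q.p * q.p) with hR
  set n2 := if i = 0 then 0 else q.JT with hn2
  set n3 := if a = 0 then 0 else q.JT with hn3
  have hW := hh.Wpos
  have hk0 := hh.hk
  have hso := h.so
  have e0 : (if a = 0 then Min.min i k else k) = k := by split_ifs <;> omega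
  rw [e0] at hso
  -- nothing happens
  have b1 : ∀ j ≤ q.JT, arun q A0 k R W vf α (tm q.JT k a i 0 j) =
      arun q A0 k R W vf α (tm q.JT k a i 0 0) := by
    intro j
    induction j with
    | zero => exact fun _ => rfl
    | succ j ih =>
      intro hj
      rw [arun_tm (by omega) (by norm_num) (by omega), ih (by omega), noop_of _ h.yw (by omega)
        (by omega)]
      unfold knd
      rw [if_neg (by omega), if_pos rfl, if_neg (by omega)]
  -- the verdict
  have hvd : P3 q A0 k R Y0 a i n3 n2 0 (arun q A0 k R W vf α (tm q.JT k a i 1 0)) ∧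
      SO q A0 k (arun q A0 k R W vf α (tm q.JT k a i 1 0)) ∧
      VP (arun q A0 k R W vf α (tm q.JT k a i 1 0)).V ∧
      ∀ A, (arun q A0 k R W vf α (tm q.JT k a i 1 0)).Y A < W := by
    rw [← tm_ph, arun_tm (by omega) (by norm_num) (by omega), b1 _ le_rfl]
    obtain ⟨e1, e2⟩ := astep_noop (q := q) (A0 := A0) (R := R) (vf := vf)
      (knd_JT (q := q) (k := k) (a := a) (i := i) (ph := 0) (j := q.JT) le_rfl) h.yw
    have e3 : (astep q A0 k R W vf a i 0 q.JT
        (arun q A0 k R W vf α (tm q.JT k a i 0 0))).O =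
        (arun q A0 k R W vf α (tm q.JT k a i 0 0)).O := astep_O (by omega)
    refine ⟨(h.eq hi).of_eq e1 e2 e3, hso.of_eq e3, ?_, astep_Y_lt hW h.yw⟩
    by_cases ha : a = 0
    · subst ha
      have hik : i = k := by omega
      subst hik
      exact step_verd hh hv (h.eq hi) hso
    · rw [astep_V (by omega)]
      exact h.vv (Or.inl (by omega))
  obtain ⟨c1, c2, c3, c4⟩ := hvd
  -- undoing
  have b2 : ∀ j ≤ q.JT, (P3 q A0 k R Y0 a i (n3 - j) n2 0
      (arun q A0 k R W vf α (tm q.JT k a i 1 j)) ∧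
      SO q A0 k (arun q A0 k R W vf α (tm q.JT k a i 1 j)) ∧
      VP (arun q A0 k R W vf α (tm q.JT k a i 1 j)).V ∧
      ∀ A, (arun q A0 k R W vf α (tm q.JT k a i 1 j)).Y A < W) := by
    intro j
    induction j with
    | zero => exact fun _ => ⟨c1, c2, c3, c4⟩
    | succ j ih =>
      intro hj
      obtain ⟨i1, i2, i3, i4⟩ := ih (by omega)
      rw [arun_tm (by omega) (by norm_num) (by omega)]
      by_cases ha : a = 0
      · rw [noop_of (by
          unfold knd
          rw [if_neg (by omega), if_neg (by omega), if_neg (by omega), if_pos hi, if_pos ha]) i4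
            (by omega) (by omega)]
        have e : n3 - (j + 1) = n3 - j := by rw [hn3, if_pos ha]; omega
        rw [e]
        exact ⟨i1, i2, i3, i4⟩
      · have e1 : n3 = q.JT := by rw [hn3, if_neg ha]
        have e2 : n3 - j = (q.JT - (j + 1)) + 1 := by omega
        have e3 : n3 - (j + 1) = q.JT - (j + 1) := by omega
        have e4 : q.JT - 1 - (q.JT - (j + 1)) = j := by omega
        rw [e2] at i1
        have r := step_undo2 (vf := vf) hh i1 ha hi (fun i' hi' => i2.2 i' (by omega)) (by omega)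
        rw [e4] at r
        rw [e3]
        refine ⟨r, i2.of_eq (astep_O (by omega)), ?_, astep_Y_lt hW i4⟩
        rw [astep_V (by omega)]
        exact i3
  obtain ⟨i1, i2, i3, i4⟩ := b2 q.JT le_rfl
  have e0 : n3 - q.JT = 0 := by rw [hn3]; split_ifs <;> omega
  rw [e0] at i1
  rw [← tm_i, arun_tm (by omega) (by norm_num) (by omega),
    noop_of (knd_JT le_rfl) i4 (by omega) (by omega)]
  obtain ⟨u1, u2, u3⟩ := i1
  refine ⟨fun h1 => absurd h1 (by omega), fun h1 => absurd h1 (by omega), fun _ => ?_, ?_,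
    fun _ => i3, i4⟩
  · unfold Post
    have r1 : rg k a i = (a + 2) % 3 := by unfold rg; rw [if_pos hi]
    have r2 : pg k a i = a % 3 := by unfold pg; rw [if_pos hi]
    have r3 : tg k a i = (a + 1) % 3 := by unfold tg; rw [if_pos hi]
    rw [r1] at u1
    rw [r2] at u2
    rw [r3] at u3
    refine ⟨?_, u3.zr, u1.zr⟩
    have e5 : (if k - a = 0 then 0 else q.JT) = n2 := by rw [hn2, hi]
    have e6 : k - a - 1 = i - 1 := by rw [hi]
    rw [e5, e6]
    exact u2
  · have e : (if a = 0 then Min.min (i + 1) k else k) = k := by split_ifs <;> omega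
    rw [e]
    exact i2

/-- A stage without work. -/
theorem stage_gt {R : ℕ} {α : AS} {a i : ℕ} (hi : k - a < i) (hik : i ≤ k)
    (h : InvS q A0 k R W Y0 VP a i (arun q A0 k R W vf α (tm q.JT k a i 0 0))) :
    InvS q A0 k R W Y0 VP a (i + 1) (arun q A0 k R W vf α (tm q.JT k a (i + 1) 0 0)) := by
  have ha : a ≠ 0 := by omega
  have b1 : ∀ ph < 2, arun q A0 k R W vf α (tm q.JT k a i ph 0) =
      arun q A0 k R W vf α (tm q.JT k a i 0 0) → ∀ j ≤ q.JT + 1,
      arun q A0 k R W vf α (tm q.JT k a i ph j) =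
      arun q A0 k R W vf α (tm q.JT k a i 0 0) := by
    intro ph hph h0 j
    induction j with
    | zero => exact fun _ => h0
    | succ j ih =>
      intro hj
      rw [arun_tm (by omega) hph (by omega), ih (by omega), noop_of _ h.yw (by omega)
        (by omega)]
      unfold knd
      rcases Nat.lt_or_ge j q.JT with h1 | h1
      · rw [if_neg (by omega)]
        by_cases hp : ph = 0
        · rw [if_pos hp, if_neg (by omega)]
        · rw [if_neg hp, if_neg (by omega), if_neg (by omega)]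
      · rw [if_pos h1]
  have h1 := b1 0 (by norm_num) rfl (q.JT + 1) le_rfl
  rw [tm_ph] at h1
  have h2 := b1 1 (by norm_num) h1 (q.JT + 1) le_rfl
  rw [tm_i] at h2
  rw [h2]
  refine ⟨fun h1 => absurd h1 (by omega), fun h1 => absurd h1 (by omega), fun _ => h.gt hi, ?_,
    fun _ => h.vv (Or.inl (by omega)), h.yw⟩
  have := h.so
  rw [if_neg ha] at this ⊢
  exact this

/-- One sweep. -/
theorem sweep (hh : Hyp q A0 k W Y0)
    (hv : ∀ M o : ℕ → ℕ, (∀ i, o i < q.B) → (∀ i ≤ k, q.XA A0 M ((k + 1) % 2) i = As q A0 o i) →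
      VP (Min.min (vf M) 1)) {α : AS} {a : ℕ} (hak : a ≤ k)
    (h : InvS q A0 k (W / (q.p * q.p)) W Y0 VP a 0
      (arun q A0 k (W / (q.p * q.p)) W vf α (tm q.JT k a 0 0 0))) :
    InvS q A0 k (W / (q.p * q.p)) W Y0 VP a (k + 1)
      (arun q A0 k (W / (q.p * q.p)) W vf α (tm q.JT k a (k + 1) 0 0)) := by
  have : ∀ i ≤ k + 1, InvS q A0 k (W / (q.p * q.p)) W Y0 VP a i
      (arun q A0 k (W / (q.p * q.p)) W vf α (tm q.JT k a i 0 0)) := by
    intro i
    induction i with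
    | zero => exact fun _ => h
    | succ i ih =>
      intro hi
      rcases lt_trichotomy i (k - a) with h1 | h1 | h1
      · exact stage_lt hh h1 (ih (by omega))
      · exact stage_eq hh hv h1 hak (ih (by omega))
      · exact stage_gt h1 (by omega) (ih (by omega))
  exact this _ le_rfl

/-- From a sweep to the next one. -/
theorem next_sweep {R : ℕ} {α : AS} {a : ℕ} (hak : a < k)
    (h : InvS q A0 k R W Y0 VP a (k + 1) α) : InvS q A0 k R W Y0 VP (a + 1) 0 α := by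
  obtain ⟨u1, u2, u3⟩ := h.gt (by omega)
  rw [if_neg (by omega)] at u1
  have hso := h.so
  have e0 : (if a = 0 then Min.min (k + 1) k else k) = k := by split_ifs <;> omega
  rw [e0] at hso
  refine ⟨fun h1 => ?_, fun h1 => ?_, fun h1 => absurd h1 (by omega), ?_,
    fun _ => h.vv (Or.inr (by omega)), h.yw⟩
  · unfold P3
    have r3 : tg k (a + 1) 0 = a % 3 := by unfold tg; rw [if_neg (by omega)]; omega
    have r4 := rg_lt k (a + 1) 0
    have r5 := pg_lt k (a + 1) 0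
    have r1 : rg k (a + 1) 0 = (a + 1) % 3 ∨ rg k (a + 1) 0 = (a + 2) % 3 := by
      have := rg_ne_tg k (a + 1) 0
      rw [r3] at this
      omega
    have r2 : pg k (a + 1) 0 = (a + 1) % 3 ∨ pg k (a + 1) 0 = (a + 2) % 3 := by
      have := pg_ne_tg k (a + 1) 0
      rw [r3] at this
      omega
    rw [if_pos rfl, if_neg (Nat.succ_ne_zero a)]
    refine ⟨?_, ?_, ?_⟩
    · rcases r1 with r | r
      · rw [r]; exact u2.up
      · rw [r]; exact u3.up
    · rcases r2 with r | r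
      · rw [r]; exact u2.up
      · rw [r]; exact u3.up
    · rw [r3]
      have e : k - (a + 1) = k - a - 1 := by omega
      rw [e]
      exact u1
  · unfold P3
    have r1 : rg k (a + 1) 0 = a % 3 := by unfold rg; rw [if_pos h1]; omega
    have r2 : pg k (a + 1) 0 = (a + 1) % 3 := by unfold pg; rw [if_pos h1]
    have r3 : tg k (a + 1) 0 = (a + 2) % 3 := by unfold tg; rw [if_pos h1]
    rw [if_pos rfl, if_neg (Nat.succ_ne_zero a), r1, r2, r3]
    refine ⟨?_, u2.up, u3.up⟩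
    have e : k - a - 1 = 0 := by omega
    rw [e] at u1
    exact u1
  · rw [if_neg (Nat.succ_ne_zero a)]
    exact hso

/-- All sweeps restore the tape and find the verdict. -/
theorem all_sweeps (hh : Hyp q A0 k W Y0)
    (hv : ∀ M o : ℕ → ℕ, (∀ i, o i < q.B) → (∀ i ≤ k, q.XA A0 M ((k + 1) % 2) i = As q A0 o i) →
      VP (Min.min (vf M) 1)) {α : AS} (hY : α.Y = Y0) (hO : α.O = 0) :
    (∀ A < 3 * q.JT, (arun q A0 k (W / (q.p * q.p)) W vf α
      (tm q.JT k (k + 1) 0 0 0)).Y A = Y0 A) ∧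
    VP (arun q A0 k (W / (q.p * q.p)) W vf α (tm q.JT k (k + 1) 0 0 0)).V := by
  have hk := hh.hk
  have h0 : InvS q A0 k (W / (q.p * q.p)) W Y0 VP 0 0
      (arun q A0 k (W / (q.p * q.p)) W vf α (tm q.JT k 0 0 0 0)) := by
    have e : tm q.JT k 0 0 0 0 = 0 := by simp [tm]
    rw [e]
    have hz : ∀ ρ, Zr q Y0 ρ α := fun ρ j _ => by rw [hY]
    refine ⟨fun _ => ?_, fun h1 => absurd h1 (by omega), fun h1 => absurd h1 (by omega), ?_,
      fun h1 => absurd h1 (by omega), fun A => by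
        show α.Y A < W
        rw [hY]; exact hh.y0 A⟩
    · rw [if_pos rfl]
      exact ⟨(hz _).up, (hz _).up, (hz _).up⟩
    · show SO q A0 (if 0 = 0 then Min.min 0 k else k) α
      rw [if_pos rfl, Nat.zero_min]
      refine ⟨?_, fun i' hi' => absurd hi' (Nat.not_lt_zero _)⟩
      rw [hO]; simp
  have h1 : ∀ a ≤ k, InvS q A0 k (W / (q.p * q.p)) W Y0 VP a (k + 1)
      (arun q A0 k (W / (q.p * q.p)) W vf α (tm q.JT k (a + 1) 0 0 0)) := by
    intro a
    induction a with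
    | zero =>
      intro _
      rw [← tm_a]
      exact sweep hh hv (by omega) h0
    | succ a ih =>
      intro ha
      rw [← tm_a]
      exact sweep hh hv ha (next_sweep (by omega) (ih (by omega)))
  have h2 := h1 k le_rfl
  refine ⟨fun A hA => ?_, h2.vv (Or.inr (by omega))⟩
  obtain ⟨u1, u2, u3⟩ := h2.gt (by omega)
  rw [if_pos (Nat.sub_self k)] at u1
  have u1' := u1.zr
  have hJ := hh.hJ
  have hA3 : A / q.JT < 3 := Nat.div_lt_of_lt_mul (by rw [Nat.mul_comm]; exact hA)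
  have hmod := Nat.mod_lt A hJ
  have e : A / q.JT * q.JT + A % q.JT = A := by rw [Nat.mul_comm]; exact Nat.div_add_mod A q.JT
  have h3 : A / q.JT = k % 3 ∨ A / q.JT = (k + 1) % 3 ∨ A / q.JT = (k + 2) % 3 := by
    clear e
    generalize A / q.JT = c at hA3
    have h4 : c = 0 ∨ c = 1 ∨ c = 2 := by omega
    rcases h4 with h4 | h4 | h4 <;> rw [h4] <;> omega
  rw [← e]
  rcases h3 with r | r | r
  · rw [r]; exact u1' _ hmod
  · rw [r]; exact u2 _ hmod
  · rw [r]; exact u3 _ hmod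

end

end Vale.Agent.P313.Cat
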