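import Vale.Agent.P313.H463.Cat3
import Vale.Agent.P313.H463.Cat7

/-!
The steps of the abstract machine, bit by bit on the tape.
-/

namespace Vale.Agent.P313.Cat

open Finset Prm

/-- Replace the digit number `c`. -/
def dupd (B F c f : ℕ) : ℕ := F % B ^ c + B ^ c * (f + B * (F / B ^ c / B))

theorem dupd_lt {B F c f N : ℕ} (hB : 0 < B) (hc : c < N) (hF : F < B ^ N) (hf : f < B) :
    dupd B F c f < B ^ N := by
  unfold dupd
  obtain ⟨d, rfl⟩ : ∃ d, N = c + 1 + d := ⟨N - c - 1, by omega⟩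
  have hBc : 0 < B ^ c := Nat.pow_pos hB
  have h1 : F / B ^ c / B < B ^ d := by
    rw [Nat.div_div_eq_div_mul]
    apply Nat.div_lt_of_lt_mul
    calc F < B ^ (c + 1 + d) := hF
      _ = B ^ c * B * B ^ d := by rw [pow_add, pow_succ]
  have h2 := Nat.mod_lt F hBc
  have h3 : f + B * (F / B ^ c / B) + 1 ≤ B * B ^ d := by
    calc f + B * (F / B ^ c / B) + 1 ≤ B + B * (F / B ^ c / B) := by omega
      _ = B * (F / B ^ c / B + 1) := by ring
      _ ≤ B * B ^ d := Nat.mul_le_mul_left _ h1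
  have h4 := Nat.mul_le_mul_left (B ^ c) h3
  calc F % B ^ c + B ^ c * (f + B * (F / B ^ c / B)) <
        B ^ c * (f + B * (F / B ^ c / B) + 1) := by rw [Nat.mul_succ]; omega
    _ ≤ B ^ c * (B * B ^ d) := h4
    _ = B ^ (c + 1 + d) := by rw [pow_add, pow_succ]; ring

theorem dupd_dig {B F c f A : ℕ} (hB : 0 < B) (hf : f < B) :
    dupd B F c f / B ^ A % B = if A = c then f else F / B ^ A % B := by
  unfold dupd
  have hBc : 0 < B ^ c := Nat.pow_pos hB
  have h2 := Nat.mod_lt F hBc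
  split_ifs with h
  · subst h
    rw [Nat.add_mul_div_left _ _ hBc, Nat.div_eq_of_lt h2, zero_add, Nat.add_mul_mod_self_left,
      Nat.mod_eq_of_lt hf]
  · rcases Nat.lt_or_ge A c with h3 | h3
    · obtain ⟨d, rfl⟩ : ∃ d, c = A + (d + 1) := ⟨c - A - 1, by omega⟩
      have hBA : 0 < B ^ A := Nat.pow_pos hB
      have e1 : ∀ t, (F % B ^ (A + (d + 1)) + B ^ (A + (d + 1)) * t) / B ^ A % B =
          F % B ^ (A + (d + 1)) / B ^ A % B := by
        intro t
        rw [show B ^ (A + (d + 1)) * t = B ^ A * (B * (B ^ d * t)) by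
          rw [pow_add, pow_succ]; ring, Nat.add_mul_div_left _ _ hBA, Nat.add_mul_mod_self_left]
      rw [e1, pow_add, Nat.mod_mul_right_div_self]
      exact Nat.mod_mod_of_dvd _ (Dvd.intro_left _ (pow_succ B d).symm)
    · obtain ⟨d, rfl⟩ : ∃ d, A = c + (d + 1) := ⟨A - c - 1, by omega⟩
      have e1 : (F % B ^ c + B ^ c * (f + B * (F / B ^ c / B))) / B ^ (c + (d + 1)) =
          F / B ^ c / B / B ^ d := by
        rw [pow_add, ← Nat.div_div_eq_div_mul, Nat.add_mul_div_left _ _ hBc,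
          Nat.div_eq_of_lt h2, zero_add, pow_succ', ← Nat.div_div_eq_div_mul,
          Nat.add_mul_div_left _ _ hB, Nat.div_eq_of_lt hf, zero_add]
      rw [e1, pow_add, ← Nat.div_div_eq_div_mul, pow_succ', ← Nat.div_div_eq_div_mul]

/-- Number of bits of a cell. -/
def B1 (q : Prm) : ℕ := Nat.log 2 ((q.p * q.p) ^ kb) + 1

theorem B1_pos (q : Prm) : 0 < B1 q := Nat.succ_pos _

theorem lt_B1 (q : Prm) : (q.p * q.p) ^ kb < 2 ^ B1 q := Nat.lt_pow_succ_log_self (by norm_num) _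

theorem B1_le {q : Prm} (hp : 0 < q.p) : 2 ^ B1 q ≤ 2 * (q.p * q.p) ^ kb := by
  unfold B1
  have h : (q.p * q.p) ^ kb ≠ 0 := (Nat.pow_pos (Nat.mul_pos hp hp)).ne'
  have := Nat.pow_log_le_self 2 h
  rw [pow_succ]
  omega

/-- Base of the flags. -/
def FB : ℕ := kb + 1

/-- Number of steps of the abstract machine. -/
def TT (q : Prm) (k : ℕ) : ℕ := (q.JT + 1) * (2 * ((k + 1) * (k + 1)))

theorem TT_eq (q : Prm) (k : ℕ) : tm q.JT k (k + 1) 0 0 0 = TT q k := by unfold tm TT; ring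

/-- Base for the time. -/
def M1 (q : Prm) (k : ℕ) : ℕ := (B1 q + 1) * TT q k + 1

/-- Components of the number. -/
def dS (q : Prm) (k Z : ℕ) : ℕ := Z % M1 q k
def dM (q : Prm) (k Z : ℕ) : ℕ := dS q k Z / (B1 q + 1)
def dE (q : Prm) (k Z : ℕ) : ℕ := dS q k Z % (B1 q + 1)
def dj (q : Prm) (k Z : ℕ) : ℕ := dM q k Z % (q.JT + 1)
def dh (q : Prm) (k Z : ℕ) : ℕ := dM q k Z / (q.JT + 1) % 2
def di (q : Prm) (k Z : ℕ) : ℕ := dM q k Z / (q.JT + 1) / 2 % (k + 1)
def da (q : Prm) (k Z : ℕ) : ℕ := dM q k Z / (q.JT + 1) / 2 / (k + 1)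
def dV (q : Prm) (k Z : ℕ) : ℕ := Z / M1 q k % 2
def dW (q : Prm) (k Z : ℕ) : ℕ := Z / M1 q k / 2 % 2 ^ B1 q
def dF (q : Prm) (k Z : ℕ) : ℕ := Z / M1 q k / 2 / 2 ^ B1 q % FB ^ (3 * q.JT)
def dO (q : Prm) (k Z : ℕ) : ℕ := Z / M1 q k / 2 / 2 ^ B1 q / FB ^ (3 * q.JT)

/-- The number. -/
def enc (q : Prm) (k s V W' F O : ℕ) : ℕ :=
  s + M1 q k * (V + 2 * (W' + 2 ^ B1 q * (F + FB ^ (3 * q.JT) * O)))

section

variable {q : Prm} {k s V W' F O : ℕ}

theorem enc_S (h : s < M1 q k) : dS q k (enc q k s V W' F O) = s := by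
  unfold dS enc; rw [Nat.add_mul_mod_self_left, Nat.mod_eq_of_lt h]

theorem enc_1 (h : s < M1 q k) : enc q k s V W' F O / M1 q k =
    V + 2 * (W' + 2 ^ B1 q * (F + FB ^ (3 * q.JT) * O)) := by
  unfold enc
  rw [Nat.add_mul_div_left _ _ (by unfold M1; omega), Nat.div_eq_of_lt h, zero_add]

theorem enc_V (h : s < M1 q k) (hV : V < 2) : dV q k (enc q k s V W' F O) = V := by
  unfold dV; rw [enc_1 h, Nat.add_mul_mod_self_left, Nat.mod_eq_of_lt hV]

theorem enc_2 (h : s < M1 q k) (hV : V < 2) : enc q k s V W' F O / M1 q k / 2 =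
    W' + 2 ^ B1 q * (F + FB ^ (3 * q.JT) * O) := by
  rw [enc_1 h, Nat.add_mul_div_left _ _ (by norm_num), Nat.div_eq_of_lt hV, zero_add]

theorem enc_W (h : s < M1 q k) (hV : V < 2) (hW : W' < 2 ^ B1 q) :
    dW q k (enc q k s V W' F O) = W' := by
  unfold dW; rw [enc_2 h hV, Nat.add_mul_mod_self_left, Nat.mod_eq_of_lt hW]

theorem enc_3 (h : s < M1 q k) (hV : V < 2) (hW : W' < 2 ^ B1 q) :
    enc q k s V W' F O / M1 q k / 2 / 2 ^ B1 q = F + FB ^ (3 * q.JT) * O := by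
  rw [enc_2 h hV, Nat.add_mul_div_left _ _ (Nat.two_pow_pos _), Nat.div_eq_of_lt hW, zero_add]

theorem FB_pos : 0 < FB ^ (3 * q.JT) := Nat.pow_pos (Nat.succ_pos _)

theorem enc_F (h : s < M1 q k) (hV : V < 2) (hW : W' < 2 ^ B1 q) (hF : F < FB ^ (3 * q.JT)) :
    dF q k (enc q k s V W' F O) = F := by
  unfold dF; rw [enc_3 h hV hW, Nat.add_mul_mod_self_left, Nat.mod_eq_of_lt hF]

theorem enc_O (h : s < M1 q k) (hV : V < 2) (hW : W' < 2 ^ B1 q) (hF : F < FB ^ (3 * q.JT)) :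
    dO q k (enc q k s V W' F O) = O := by
  unfold dO
  rw [enc_3 h hV hW, Nat.add_mul_div_left _ _ FB_pos, Nat.div_eq_of_lt hF, zero_add]

end

/-- The abstract state read from an oracle. -/
def dec (q : Prm) (k : ℕ) (O : ℕ → ℕ) : AS where
  Y := fun A => P313.rdw (B1 q) (fun n => O (n + 1)) A
  F := fun A => dF q k (O 0) / FB ^ A % FB
  O := dO q k (O 0)
  V := dV q k (O 0)

/-- The cell of the step. -/
def cc (q : Prm) (k Z : ℕ) : ℕ := cell q.JT k (da q k Z) (di q k Z) (dh q k Z) (dj q k Z)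

/-- The position of the step. -/
def pfu (q : Prm) (k : ℕ) (O : ℕ → ℕ) : ℕ := cc q k (O 0) * B1 q + (dE q k (O 0) - 1)

/-- The bit of the step. -/
def ffu (q : Prm) (k : ℕ) (O : ℕ → ℕ) : ℕ :=
  if dE q k (O 0) = 0 then O (cc q k (O 0) * B1 q + 1)
  else dW q k (O 0) / 2 ^ (dE q k (O 0) - 1) % 2

/-- The new number, where `α` is the new abstract state. -/
def zfu (q : Prm) (k : ℕ) (O : ℕ → ℕ) (α : AS) : ℕ :=
  if dE q k (O 0) = 0 then
    enc q k (dS q k (O 0) + 1) α.V (α.Y (cc q k (O 0)))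
      (dupd FB (dF q k (O 0)) (cc q k (O 0)) (α.F (cc q k (O 0)))) α.O
  else O 0 + 1

/-- One step of the abstract machine at the time given by the number. -/
noncomputable def sst (q : Prm) (A0 : ℕ → ℕ → ℕ) (k : ℕ) (vf : (ℕ → ℕ) → ℕ) (O : ℕ → ℕ) : AS :=
  astep q A0 k (2 ^ B1 q / (q.p * q.p)) (2 ^ B1 q) vf (da q k (O 0)) (di q k (O 0))
    (dh q k (O 0)) (dj q k (O 0)) (dec q k O)

section

variable {q : Prm} {A0 : ℕ → ℕ → ℕ} {k : ℕ} {vf : (ℕ → ℕ) → ℕ}

theorem arun_V {R W : ℕ} {α : AS} (h : α.V < 2) : ∀ m, (arun q A0 k R W vf α m).V < 2 := by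
  intro m
  induction m with
  | zero => exact h
  | succ m ih =>
    show (if _ then _ else _) < 2
    split_ifs
    · exact lt_of_le_of_lt (min_le_right _ _) (by norm_num)
    · exact ih

theorem arun_O {R W : ℕ} {α : AS} (hB : 0 < q.B) (h : α.O = 0) :
    ∀ m, (arun q A0 k R W vf α m).O < q.B ^ k := by
  intro m
  induction m with
  | zero => show α.O < _; rw [h]; exact Nat.pow_pos hB
  | succ m ih =>
    show (if _ then _ else _) < _
    split_ifs
    · exact Nat.mod_lt _ (Nat.pow_pos hB)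
    · exact ih

theorem rdw_cell {w H c v : ℕ} {t t' : ℕ → Bool} (hv : v < 2 ^ w) (hc : (c + 1) * w ≤ H)
    (h1 : ∀ b < w, t' (c * w + b) = decide (v / 2 ^ b % 2 ≠ 0))
    (h2 : ∀ n, n < c * w ∨ (c + 1) * w ≤ n → t' n = t n) :
    P313.rdw w (TS.OB t' H) = Function.update (P313.rdw w (TS.OB t H)) c v := by
  funext A
  by_cases hA : A = c
  · subst hA
    rw [Function.update_self]
    refine rdw_eq (fun i hi => ?_) hv
    unfold TS.OB
    rw [h1 i hi]
    have : A * w + i < H := by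
      have e : (A + 1) * w = A * w + w := by ring
      omega
    simp only [this, true_and]
    exact bit_ite _ _
  · rw [Function.update_of_ne hA]
    unfold P313.rdw
    refine sum_congr rfl fun i hi => ?_
    have hi' := mem_range.1 hi
    have : t' (A * w + i) = t (A * w + i) := by
      apply h2
      rcases Nat.lt_or_ge A c with h3 | h3
      · left
        have := Nat.mul_le_mul_right w (show A + 1 ≤ c from h3)
        have e : (A + 1) * w = A * w + w := by ring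
        omega
      · right
        have := Nat.mul_le_mul_right w (show c + 1 ≤ A by omega)
        omega
    unfold TS.OB
    rw [this]

theorem TT_mod {m : ℕ} (hm : m < TT q k) : m / (q.JT + 1) / 2 / (k + 1) < k + 1 := by
  apply Nat.div_lt_of_lt_mul
  apply Nat.div_lt_of_lt_mul
  apply Nat.div_lt_of_lt_mul
  exact hm

theorem enc_lt {s V W' F O : ℕ} (hs : s < M1 q k) (hV : V < 2) (hW : W' < 2 ^ B1 q)
    (hF : F < FB ^ (3 * q.JT)) (hO : O < q.B ^ k) : enc q k s V W' F O <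
      M1 q k * (2 * (2 ^ B1 q * (FB ^ (3 * q.JT) * q.B ^ k))) := by
  have st : ∀ a b X Y : ℕ, a < X → b < Y → a + X * b < X * Y := by
    intro a b X Y h1 h2
    have := Nat.mul_le_mul_left X (show b + 1 ≤ Y from h2)
    rw [Nat.mul_succ] at this
    omega
  unfold enc
  exact st _ _ _ _ hs (st _ _ _ _ hV (st _ _ _ _ hW (st _ _ _ _ hF hO)))

theorem enc_succ {s V W' F O : ℕ} : enc q k (s + 1) V W' F O = enc q k s V W' F O + 1 := by
  unfold enc; omega

theorem pfu_lt (hJ : 0 < q.JT) (O : ℕ → ℕ) : pfu q k O < 3 * q.JT * B1 q := by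
  have h1 : cc q k (O 0) < 3 * q.JT := cell_lt hJ
  have h2 : dE q k (O 0) < B1 q + 1 := Nat.mod_lt _ (Nat.succ_pos _)
  have h3 := Nat.mul_le_mul_right (B1 q) (show cc q k (O 0) + 1 ≤ 3 * q.JT from h1)
  have h4 : (cc q k (O 0) + 1) * B1 q = cc q k (O 0) * B1 q + B1 q := by ring
  have h5 := B1_pos q
  unfold pfu
  omega

/-- The abstract run for the tape `c0`. -/
noncomputable def ar (q : Prm) (A0 : ℕ → ℕ → ℕ) (k : ℕ) (vf : (ℕ → ℕ) → ℕ) (c0 : ℕ → Bool)
    (m : ℕ) : AS :=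
  arun q A0 k (2 ^ B1 q / (q.p * q.p)) (2 ^ B1 q) vf
    ⟨P313.rdw (B1 q) (TS.OB c0 (3 * q.JT * B1 q)), fun _ => 0, 0, 0⟩ m

theorem ar_succ {c0 : ℕ → Bool} {m : ℕ} : ar q A0 k vf c0 (m + 1) =
    astep q A0 k (2 ^ B1 q / (q.p * q.p)) (2 ^ B1 q) vf (m / (q.JT + 1) / 2 / (k + 1))
      (m / (q.JT + 1) / 2 % (k + 1)) (m / (q.JT + 1) % 2) (m % (q.JT + 1))
      (ar q A0 k vf c0 m) := rfl

/-- The relation between the machine and the abstract machine, between two macro steps. -/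
structure Rel (q : Prm) (A0 : ℕ → ℕ → ℕ) (k : ℕ) (vf : (ℕ → ℕ) → ℕ) (c0 : ℕ → Bool) (m : ℕ)
    (cz : (ℕ → Bool) × ℕ) : Prop where
  ex : ∃ W' Fe, W' < 2 ^ B1 q ∧ Fe < FB ^ (3 * q.JT) ∧
    cz.2 = enc q k ((B1 q + 1) * m) (ar q A0 k vf c0 m).V W' Fe (ar q A0 k vf c0 m).O ∧
    (ar q A0 k vf c0 m).F = fun A => Fe / FB ^ A % FB
  hY : (ar q A0 k vf c0 m).Y = P313.rdw (B1 q) (TS.OB cz.1 (3 * q.JT * B1 q))
  out : ∀ n, 3 * q.JT * B1 q ≤ n → cz.1 n = c0 n

theorem lt_M1 {m e : ℕ} (hm : m < TT q k) (he : e ≤ B1 q + 1) : (B1 q + 1) * m + e < M1 q k := by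
  have := Nat.mul_le_mul_left (B1 q + 1) (show m + 1 ≤ TT q k from hm)
  rw [Nat.mul_succ] at this
  unfold M1
  omega

/-- A macro step. -/
theorem mstep {ff pf zf : TS.Fn 1} {x : List Bool} {B : ℕ} {c0 : ℕ → Bool} (hJ : 0 < q.JT)
    (hB : 0 < q.B)
    (hp : ∀ c Z, pf (TS.IZ x c Z (3 * q.JT * B1 q)) (fun _ => B) =
      pfu q k (TS.IZ x c Z (3 * q.JT * B1 q)).O)
    (hf : ∀ c Z, ff (TS.IZ x c Z (3 * q.JT * B1 q)) (fun _ => B) =
      ffu q k (TS.IZ x c Z (3 * q.JT * B1 q)).O)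
    (hz : ∀ c Z, zf (TS.IZ x c Z (3 * q.JT * B1 q)) (fun _ => B) =
      zfu q k (TS.IZ x c Z (3 * q.JT * B1 q)).O
        (sst q A0 k vf (TS.IZ x c Z (3 * q.JT * B1 q)).O)) {m : ℕ}
    (hm : m < TT q k)
    (h : Rel q A0 k vf c0 m
      (TS.czS ff pf zf x B (3 * q.JT * B1 q) c0 ((B1 q + 1) * m))) :
    (∀ e ≤ B1 q + 1, (TS.czS ff pf zf x B (3 * q.JT * B1 q) c0 ((B1 q + 1) * m + e)).2 <
      M1 q k * (2 * (2 ^ B1 q * (FB ^ (3 * q.JT) * q.B ^ k)))) ∧
    Rel q A0 k vf c0 (m + 1)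
      (TS.czS ff pf zf x B (3 * q.JT * B1 q) c0 ((B1 q + 1) * (m + 1))) := by
  obtain ⟨⟨W', Fe, hW', hFe, hZ, hF⟩, hY, hout⟩ := h
  set H := 3 * q.JT * B1 q with hH
  set α := ar q A0 k vf c0 m with hα
  set α' := ar q A0 k vf c0 (m + 1) with hα'
  set cl := cell q.JT k (m / (q.JT + 1) / 2 / (k + 1)) (m / (q.JT + 1) / 2 % (k + 1))
    (m / (q.JT + 1) % 2) (m % (q.JT + 1)) with hcl
  set C := (TS.czS ff pf zf x B H c0 ((B1 q + 1) * m)).1 with hC
  set Z := (TS.czS ff pf zf x B H c0 ((B1 q + 1) * m)).2 with hZd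
  have hclJ : cl < 3 * q.JT := cell_lt hJ
  have hV : α.V < 2 := arun_V (by norm_num) m
  have hV' : α'.V < 2 := arun_V (by norm_num) (m + 1)
  have hO : α.O < q.B ^ k := arun_O hB rfl m
  have hO' : α'.O < q.B ^ k := arun_O hB rfl (m + 1)
  have hs0 : (B1 q + 1) * m < M1 q k := lt_M1 hm (Nat.zero_le _)
  have hcells : (cl + 1) * B1 q ≤ H := Nat.mul_le_mul_right _ hclJ
  have hcells' : cl * B1 q + B1 q ≤ H := by
    have e : (cl + 1) * B1 q = cl * B1 q + B1 q := by ring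
    omega
  have hB1 := B1_pos q
  -- the first micro step
  have e0 : (TS.IZ x C Z H).O 0 = Z := rfl
  have eM : ∀ e ≤ B1 q, ((B1 q + 1) * m + e) / (B1 q + 1) = m := by
    intro e he
    rw [Nat.mul_add_div (by omega), Nat.div_eq_of_lt (by omega), add_zero]
  have eE : ∀ e ≤ B1 q, ((B1 q + 1) * m + e) % (B1 q + 1) = e := by
    intro e he
    rw [Nat.mul_add_mod, Nat.mod_eq_of_lt (by omega)]
  have hdec : dec q k (TS.IZ x C Z H).O = α := by
    have d1 : (fun A => P313.rdw (B1 q) (fun n => (TS.IZ x C Z H).O (n + 1)) A) = α.Y := by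
      rw [hY]
      rfl
    have d2 : (fun A => dF q k ((TS.IZ x C Z H).O 0) / FB ^ A % FB) = α.F := by
      rw [e0, hZ, enc_F hs0 hV hW' hFe, hF]
    have d3 : dO q k ((TS.IZ x C Z H).O 0) = α.O := by
      rw [e0, hZ, enc_O hs0 hV hW' hFe]
    have d4 : dV q k ((TS.IZ x C Z H).O 0) = α.V := by
      rw [e0, hZ, enc_V hs0 hV]
    unfold dec
    rw [d1, d2, d3, d4]
  have hdS : dS q k Z = (B1 q + 1) * m := by rw [hZ, enc_S hs0]
  have hdM : dM q k Z = m := by
    unfold dM; rw [hdS]; have := eM 0 (Nat.zero_le _); rwa [add_zero] at this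
  have hdE : dE q k Z = 0 := by
    unfold dE; rw [hdS]; have := eE 0 (Nat.zero_le _); rwa [add_zero] at this
  have hsst : sst q A0 k vf (TS.IZ x C Z H).O = α' := by
    unfold sst
    rw [hdec, hα', ar_succ, ← hα]
    unfold da di dh dj
    rw [e0, hdM]
  have hcc : cc q k Z = cl := by unfold cc da di dh dj; rw [hdM]
  have hF1 : α'.F cl < FB := by
    rw [hα', ar_succ, ← hα]
    unfold astep
    simp only
    rw [← hcl, Function.update_self]
    split_ifs
    · exact Nat.lt_succ_of_le (flg_le _ _ _)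
    · rw [hF]; exact Nat.mod_lt _ (Nat.succ_pos _)
  have hYlt : α'.Y cl < 2 ^ B1 q := by
    rw [hα', ar_succ, ← hα]
    unfold astep
    simp only
    rw [← hcl, Function.update_self]
    exact Nat.mod_lt _ (Nat.two_pow_pos _)
  set Fe' := dupd FB Fe cl (α'.F cl) with hFe'
  have hFe'lt : Fe' < FB ^ (3 * q.JT) := dupd_lt (Nat.succ_pos _) hclJ hFe hF1
  have step1 : TS.czS ff pf zf x B H c0 ((B1 q + 1) * m + 1) =
      (C, enc q k ((B1 q + 1) * m + 1) α'.V (α'.Y cl) Fe' α'.O) := by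
    show (Function.update C (pf (TS.IZ x C Z H) (fun _ => B))
      (decide (ff (TS.IZ x C Z H) (fun _ => B) ≠ 0)), zf (TS.IZ x C Z H) (fun _ => B)) = _
    rw [hp, hf, hz, hsst]
    refine Prod.ext ?_ ?_
    · show Function.update C _ _ = C
      unfold pfu ffu
      rw [e0, hdE, if_pos rfl, hcc]
      have e1 : (TS.IZ x C Z H).O (cl * B1 q + 1) = TS.OB C H (cl * B1 q) := rfl
      rw [e1, Nat.zero_sub, add_zero]
      have e2 : decide (TS.OB C H (cl * B1 q) ≠ 0) = C (cl * B1 q) := by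
        unfold TS.OB
        have : cl * B1 q < H := by omega
        cases hcb : C (cl * B1 q) <;> simp [this]
      rw [e2, Function.update_eq_self]
    · show zfu q k _ _ = _
      unfold zfu
      rw [e0, hdE, if_pos rfl, hcc, hdS, hFe']
      rw [hZ, enc_F hs0 hV hW' hFe]
  have hZall : ∀ e, 1 ≤ e → e ≤ B1 q + 1 →
      TS.czS ff pf zf x B H c0 ((B1 q + 1) * m + e) =
      ((fun n => if cl * B1 q ≤ n ∧ n < cl * B1 q + (e - 1) then
        decide (α'.Y cl / 2 ^ (n - cl * B1 q) % 2 ≠ 0) else C n),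
        enc q k ((B1 q + 1) * m + e) α'.V (α'.Y cl) Fe' α'.O) := by
    intro e he1
    induction e, he1 using Nat.le_induction with
    | base =>
      intro _
      rw [step1]
      refine Prod.ext ?_ rfl
      funext n
      simp only
      rw [if_neg (by omega)]
    | succ e he1 ih =>
      intro he
      have ih := ih (by omega)
      have hse : (B1 q + 1) * m + e < M1 q k := lt_M1 hm (by omega)
      set C1 := (TS.czS ff pf zf x B H c0 ((B1 q + 1) * m + e)).1 with hC1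
      set Z1 := (TS.czS ff pf zf x B H c0 ((B1 q + 1) * m + e)).2 with hZ1
      have hZ1e : Z1 = enc q k ((B1 q + 1) * m + e) α'.V (α'.Y cl) Fe' α'.O := by
        rw [hZ1, ih]
      have hC1e : C1 = (fun n => if cl * B1 q ≤ n ∧ n < cl * B1 q + (e - 1) then
        decide (α'.Y cl / 2 ^ (n - cl * B1 q) % 2 ≠ 0) else C n) := by rw [hC1, ih]
      have f0 : (TS.IZ x C1 Z1 H).O 0 = Z1 := rfl
      have fS : dS q k Z1 = (B1 q + 1) * m + e := by rw [hZ1e, enc_S hse]
      have fM : dM q k Z1 = m := by unfold dM; rw [fS, eM e (by omega)]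
      have fE : dE q k Z1 = e := by unfold dE; rw [fS, eE e (by omega)]
      have fcc : cc q k Z1 = cl := by unfold cc da di dh dj; rw [fM]
      have fW : dW q k Z1 = α'.Y cl := by rw [hZ1e, enc_W hse hV' hYlt]
      show (Function.update C1 (pf (TS.IZ x C1 Z1 H) (fun _ => B))
        (decide (ff (TS.IZ x C1 Z1 H) (fun _ => B) ≠ 0)), zf (TS.IZ x C1 Z1 H) (fun _ => B)) = _
      rw [hp, hf, hz]
      refine Prod.ext ?_ ?_
      · show Function.update C1 _ _ = _
        unfold pfu ffu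
        rw [f0, fE, if_neg (by omega), fcc, fW]
        funext n
        rw [Function.update_apply]
        by_cases hn : n = cl * B1 q + (e - 1)
        · rw [if_pos hn]
          show _ = (if _ then _ else _)
          rw [if_pos (by omega)]
          have e9 : n - cl * B1 q = e - 1 := by omega
          rw [e9]
        · rw [if_neg hn, hC1e]
          simp only
          have : (cl * B1 q ≤ n ∧ n < cl * B1 q + (e - 1)) ↔
              (cl * B1 q ≤ n ∧ n < cl * B1 q + (e + 1 - 1)) := by omega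
          simp only [this]
      · show zfu q k _ _ = _
        unfold zfu
        rw [f0, fE, if_neg (by omega), ← add_assoc, enc_succ, hZ1e]
  refine ⟨fun e he => ?_, ?_⟩
  · rcases Nat.eq_zero_or_pos e with h0 | h0
    · subst h0
      rw [add_zero, ← hZd, hZ]
      exact enc_lt hs0 hV hW' hFe hO
    · rw [hZall e h0 he]
      exact enc_lt (lt_M1 hm he) hV' hYlt hFe'lt hO'
  · have hlast := hZall (B1 q + 1) (by omega) le_rfl
    have e1 : (B1 q + 1) * m + (B1 q + 1) = (B1 q + 1) * (m + 1) := by ring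
    rw [e1] at hlast
    rw [hlast]
    refine ⟨⟨α'.Y cl, Fe', hYlt, hFe'lt, rfl, ?_⟩, ?_, fun n hn => ?_⟩
    · funext A
      rw [hFe', dupd_dig (show 0 < FB from Nat.succ_pos _) hF1]
      have : α'.F = Function.update α.F cl (α'.F cl) := by
        rw [hα', ar_succ, ← hα]
        unfold astep
        simp only
        rw [← hcl, Function.update_self]
      rw [← hα', this, Function.update_self, Function.update_apply, hF]
    · simp only
      have : α'.Y = Function.update α.Y cl (α'.Y cl) := by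
        rw [hα', ar_succ, ← hα]
        unfold astep
        simp only
        rw [← hcl, Function.update_self]
      rw [← hα']
      refine (this.trans (by rw [hY])).trans (rdw_cell hYlt hcells (fun b hb => ?_)
        (fun n hn => ?_)).symm
      · rw [if_pos (by omega), Nat.add_sub_cancel_left]
      · have e : (cl + 1) * B1 q = cl * B1 q + B1 q := by ring
        rw [if_neg (by omega)]
    · simp only
      rw [if_neg (by omega)]
      exact hout n hn

/-- All macro steps. -/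
theorem macros {ff pf zf : TS.Fn 1} {x : List Bool} {B : ℕ} {c0 : ℕ → Bool} (hJ : 0 < q.JT)
    (hB : 0 < q.B)
    (hp : ∀ c Z, pf (TS.IZ x c Z (3 * q.JT * B1 q)) (fun _ => B) =
      pfu q k (TS.IZ x c Z (3 * q.JT * B1 q)).O)
    (hf : ∀ c Z, ff (TS.IZ x c Z (3 * q.JT * B1 q)) (fun _ => B) =
      ffu q k (TS.IZ x c Z (3 * q.JT * B1 q)).O)
    (hz : ∀ c Z, zf (TS.IZ x c Z (3 * q.JT * B1 q)) (fun _ => B) =
      zfu q k (TS.IZ x c Z (3 * q.JT * B1 q)).O
        (sst q A0 k vf (TS.IZ x c Z (3 * q.JT * B1 q)).O)) :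
    (∀ s ≤ (B1 q + 1) * TT q k, (TS.czS ff pf zf x B (3 * q.JT * B1 q) c0 s).2 <
      M1 q k * (2 * (2 ^ B1 q * (FB ^ (3 * q.JT) * q.B ^ k)))) ∧
    Rel q A0 k vf c0 (TT q k)
      (TS.czS ff pf zf x B (3 * q.JT * B1 q) c0 ((B1 q + 1) * TT q k)) := by
  have hrel : ∀ m ≤ TT q k, Rel q A0 k vf c0 m
      (TS.czS ff pf zf x B (3 * q.JT * B1 q) c0 ((B1 q + 1) * m)) := by
    intro m
    induction m with
    | zero =>
      intro _
      refine ⟨⟨0, 0, Nat.two_pow_pos _, FB_pos, ?_, ?_⟩, rfl, fun _ _ => rfl⟩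
      · show 0 = enc q k ((B1 q + 1) * 0) 0 0 0 0
        simp [enc]
      · show (fun _ => 0) = _
        funext A
        simp
    | succ m ih =>
      intro hm
      exact (mstep hJ hB hp hf hz hm (ih (by omega))).2
  refine ⟨fun s hs => ?_, hrel _ le_rfl⟩
  rcases Nat.lt_or_ge (s / (B1 q + 1)) (TT q k) with h1 | h1
  · have h2 := (mstep hJ hB hp hf hz h1 (hrel _ h1.le)).1 (s % (B1 q + 1))
      (Nat.mod_lt _ (Nat.succ_pos _)).le
    rwa [Nat.div_add_mod] at h2
  · have h2 : s = (B1 q + 1) * TT q k := by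
      have h3 := Nat.mul_le_mul_left (B1 q + 1) h1
      have h4 := Nat.mul_div_le s (B1 q + 1)
      omega
    rw [h2]
    obtain ⟨W', Fe, hW', hFe, hZ, _⟩ := (hrel _ le_rfl).ex
    rw [hZ]
    exact enc_lt (by unfold M1; omega) (arun_V (by norm_num) _) hW' hFe (arun_O hB rfl _)

/-- The tape is restored and the verdict is right. -/
theorem micro_final {ff pf zf : TS.Fn 1} {x : List Bool} {B : ℕ} {VP : ℕ → Prop} {c0 : ℕ → Bool}
    (hok : ∃ εG : ℝ, q.Ok εG) (hok2 : q.Ok2 k) (hok3 : Ok3 q k) (hA : IsAut A0 q.N) (hk : 0 < k)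
    (hJ : 0 < q.JT)
    (hv : ∀ M o : ℕ → ℕ, (∀ i, o i < q.B) → (∀ i ≤ k, q.XA A0 M ((k + 1) % 2) i = As q A0 o i) →
      VP (Min.min (vf M) 1))
    (hp : ∀ c Z, pf (TS.IZ x c Z (3 * q.JT * B1 q)) (fun _ => B) =
      pfu q k (TS.IZ x c Z (3 * q.JT * B1 q)).O)
    (hf : ∀ c Z, ff (TS.IZ x c Z (3 * q.JT * B1 q)) (fun _ => B) =
      ffu q k (TS.IZ x c Z (3 * q.JT * B1 q)).O)
    (hz : ∀ c Z, zf (TS.IZ x c Z (3 * q.JT * B1 q)) (fun _ => B) =
      zfu q k (TS.IZ x c Z (3 * q.JT * B1 q)).O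
        (sst q A0 k vf (TS.IZ x c Z (3 * q.JT * B1 q)).O)) :
    (∀ s ≤ (B1 q + 1) * TT q k, (TS.czS ff pf zf x B (3 * q.JT * B1 q) c0 s).2 <
      M1 q k * (2 * (2 ^ B1 q * (FB ^ (3 * q.JT) * q.B ^ k)))) ∧
    (TS.czS ff pf zf x B (3 * q.JT * B1 q) c0 ((B1 q + 1) * TT q k)).1 = c0 ∧
    VP (dV q k (TS.czS ff pf zf x B (3 * q.JT * B1 q) c0 ((B1 q + 1) * TT q k)).2) := by
  obtain ⟨εG, H⟩ := id hok
  obtain ⟨h1, ⟨⟨W', Fe, hW', hFe, hZ, hF⟩, hY, hout⟩⟩ :=
    macros (q := q) (A0 := A0) (k := k) (vf := vf) (c0 := c0) hJ H.hB hp hf hz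
  refine ⟨h1, ?_⟩
  have hy0 : ∀ (c : ℕ → Bool) (A : ℕ), P313.rdw (B1 q) (TS.OB c (3 * q.JT * B1 q)) A < 2 ^ B1 q := by
    intro c A
    have hle : ∀ w (O : ℕ → ℕ), (∀ n, O n ≤ 1) → ∀ A, P313.rdw w O A < 2 ^ w := by
      intro w O hO A
      unfold P313.rdw
      have : ∑ i ∈ range w, 2 ^ i * O (A * w + i) ≤ ∑ i ∈ range w, 2 ^ i :=
        sum_le_sum fun i _ => (Nat.mul_le_mul_left _ (hO _)).trans (by rw [mul_one])
      have h3 : ∀ w, ∑ i ∈ range w, 2 ^ i + 1 = 2 ^ w := by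
        intro w
        induction w with
        | zero => simp
        | succ w ih => rw [sum_range_succ, pow_succ]; omega
      have := h3 w
      omega
    exact hle _ _ (fun n => TS.OB_le _ _ _) A
  have hh : Hyp q A0 k (2 ^ B1 q) (P313.rdw (B1 q) (TS.OB c0 (3 * q.JT * B1 q))) :=
    { ok := hok, ok2 := hok2, ok3 := hok3, aut := hA, w1 := (lt_B1 q).le
      w2 := B1_le H.hp.pos, hk := hk, hJ := hJ, y0 := hy0 c0 }
  obtain ⟨a1, a2⟩ := all_sweeps (vf := vf) hh hv
    (α := ⟨P313.rdw (B1 q) (TS.OB c0 (3 * q.JT * B1 q)), fun _ => 0, 0, 0⟩) rfl rfl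
  rw [TT_eq] at a1 a2
  change ∀ A < 3 * q.JT, (ar q A0 k vf c0 (TT q k)).Y A = _ at a1
  change VP (ar q A0 k vf c0 (TT q k)).V at a2
  constructor
  · funext n
    rcases Nat.lt_or_ge n (3 * q.JT * B1 q) with hn | hn
    · have hB1 := B1_pos q
      have hA3 : n / B1 q < 3 * q.JT := Nat.div_lt_of_lt_mul (by rw [Nat.mul_comm]; exact hn)
      have e1 := a1 _ hA3
      rw [hY] at e1
      -- equal words have equal bits
      have hbit : ∀ (c : ℕ → Bool) (A i : ℕ), i < B1 q → A < 3 * q.JT →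
          P313.rdw (B1 q) (TS.OB c (3 * q.JT * B1 q)) A / 2 ^ i % 2 =
            (if c (A * B1 q + i) = true then 1 else 0) := by
        intro c A i hi hA
        have hlt : ∀ i < B1 q, A * B1 q + i < 3 * q.JT * B1 q := by
          intro i hi
          have := Nat.mul_le_mul_right (B1 q) (show A + 1 ≤ 3 * q.JT from hA)
          have e : (A + 1) * B1 q = A * B1 q + B1 q := by ring
          omega
        have key : ∀ (w : ℕ) (g : ℕ → ℕ), (∀ n, g n ≤ 1) → ∀ i < w,
            (∑ b ∈ range w, 2 ^ b * g b) / 2 ^ i % 2 = g i := by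
          intro w g hg i hi
          obtain ⟨d, rfl⟩ : ∃ d, w = i + (d + 1) := ⟨w - i - 1, by omega⟩
          rw [sum_range_add, sum_range_succ']
          have h3 : ∀ w, ∑ b ∈ range w, 2 ^ b * g b < 2 ^ w := by
            intro w
            induction w with
            | zero => simp
            | succ w ih =>
              rw [sum_range_succ, pow_succ]
              have := Nat.mul_le_mul_left (2 ^ w) (hg w)
              omega
          have h4 : ∑ b ∈ range d, 2 ^ (i + (b + 1)) * g (i + (b + 1)) =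
              2 ^ i * (2 * ∑ b ∈ range d, 2 ^ b * g (i + (b + 1))) := by
            rw [mul_sum, mul_sum]
            refine sum_congr rfl fun b _ => ?_
            rw [pow_add, pow_succ]; ring
          rw [h4, add_zero, ← Nat.mul_add, Nat.add_mul_div_left _ _ (Nat.two_pow_pos _),
            Nat.div_eq_of_lt (h3 i), zero_add, Nat.mul_add_mod]
          exact Nat.mod_eq_of_lt (by have := hg i; omega)
        unfold P313.rdw
        rw [key (B1 q) (fun b => TS.OB c (3 * q.JT * B1 q) (A * B1 q + b))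
          (fun n => TS.OB_le _ _ _) i hi]
        unfold TS.OB
        simp only [hlt i hi, true_and]
      have hmod := Nat.mod_lt n hB1
      have b1 := hbit (TS.czS ff pf zf x B (3 * q.JT * B1 q) c0 ((B1 q + 1) * TT q k)).1
        (n / B1 q) (n % B1 q) hmod hA3
      have b2 := hbit c0 (n / B1 q) (n % B1 q) hmod hA3
      have e2 : n / B1 q * B1 q + n % B1 q = n := by
        rw [Nat.mul_comm]; exact Nat.div_add_mod n (B1 q)
      rw [e1, b2, e2] at b1
      generalize (TS.czS ff pf zf x B (3 * q.JT * B1 q) c0 ((B1 q + 1) * TT q k)).1 n = u at b1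
      cases u <;> cases hc : c0 n <;> simp [hc] at b1 <;> rfl
    · exact hout n hn
  · have hVf : (ar q A0 k vf c0 (TT q k)).V < 2 := arun_V (by norm_num) _
    rw [hZ, enc_V (by unfold M1; omega) hVf]
    exact a2

end

end Vale.Agent.P313.Cat
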