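import Vale.Agent.P313.H463.Cat8

/-!
The steps of the machine are computable with small cost.
-/

namespace Vale.Agent.P313.TS.Q

open Finset

variable {m : ℕ}

theorem LFP.comp2 {P : Inp → ℕ → ℕ → Prop} {f g : Fn m}
    (hP : LFP (fun I a => P I (a 0) (a 1) : Inp → (Fin 2 → ℕ) → Prop)) (hf : LF f) (hg : LF g) :
    LFP (fun I a => P I (f I a) (g I a)) :=
  LF.comp2 (F := fun I u v => ind (P I u v)) hP hf hg

/-- The number of the oracle. -/
theorem lf_Z : LF (fun I _ => I.O 0 : Fn m) := LF.ora LF.zero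

section abs

variable {JT k a i ph j : Fn m}

theorem lf_rg (hk : LF k) (ha : LF a) (hi : LF i) :
    LF (fun I b => Cat.rg (k I b) (a I b) (i I b)) := by
  unfold Cat.rg
  exact LF.ite (LFP.eq hi (hk.sub ha)) ((ha.add (LF.const 2)).mod (LF.const 3))
    ((ha.add ((((hk.sub (LF.const 1)).sub ha).sub hi).mod (LF.const 2))).mod (LF.const 3))

theorem lf_pg (hk : LF k) (ha : LF a) (hi : LF i) :
    LF (fun I b => Cat.pg (k I b) (a I b) (i I b)) := by
  unfold Cat.pg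
  exact LF.ite (LFP.eq hi (hk.sub ha)) (ha.mod (LF.const 3))
    (((ha.add (LF.const 1)).sub ((((hk.sub (LF.const 1)).sub ha).sub hi).mod (LF.const 2))).mod
      (LF.const 3))

theorem lf_knd (hJ : LF JT) (hk : LF k) (ha : LF a) (hi : LF i) (hp : LF ph) (hj : LF j) :
    LF (fun I b => Cat.knd (JT I b) (k I b) (a I b) (i I b) (ph I b) (j I b)) := by
  unfold Cat.knd
  have hlt := LFP.lt hi (hk.sub ha)
  exact LF.ite (LFP.le hJ hj) LF.zero
    (LF.ite (LFP.eq hp LF.zero) (LF.ite hlt (LF.const 1) LF.zero)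
      (LF.ite hlt (LF.ite (LFP.eq hi LF.zero) LF.zero (LF.const 2))
        (LF.ite (LFP.eq hi (hk.sub ha)) (LF.ite (LFP.eq ha LF.zero) LF.zero (LF.const 3))
          LF.zero)))

theorem lf_cell (hJ : LF JT) (hk : LF k) (ha : LF a) (hi : LF i) (hp : LF ph) (hj : LF j) :
    LF (fun I b => Cat.cell (JT I b) (k I b) (a I b) (i I b) (ph I b) (j I b)) := by
  unfold Cat.cell
  have hK := lf_knd hJ hk ha hi hp hj
  have hr := (hJ.sub (LF.const 1)).sub hj
  exact LF.ite (LFP.eq hK LF.zero) LF.zero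
    (LF.ite (LFP.eq hK (LF.const 1)) (((lf_rg hk ha hi).mul hJ).add hj)
      (LF.ite (LFP.eq hK (LF.const 2)) (((lf_pg hk ha hi).mul hJ).add hr)
        (((lf_rg hk ha hi).mul hJ).add hr)))

theorem lf_stg (hJ : LF JT) (hk : LF k) (ha : LF a) (hi : LF i) (hp : LF ph) (hj : LF j) :
    LF (fun I b => Cat.stg (JT I b) (k I b) (a I b) (i I b) (ph I b) (j I b)) := by
  unfold Cat.stg
  exact LF.ite (LFP.eq (lf_knd hJ hk ha hi hp hj) (LF.const 2)) (hi.sub (LF.const 1)) hi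

theorem lf_jj (hJ : LF JT) (hk : LF k) (ha : LF a) (hi : LF i) (hp : LF ph) (hj : LF j) :
    LF (fun I b => Cat.jj (JT I b) (k I b) (a I b) (i I b) (ph I b) (j I b)) := by
  unfold Cat.jj
  exact LF.ite (LFP.eq (lf_knd hJ hk ha hi hp hj) (LF.const 1)) hj
    ((hJ.sub (LF.const 1)).sub hj)

end abs

section cells

variable {D R W x y f t Bg : Fn m} {G : Inp → ℕ → ℕ → Prop}

theorem lf_dg (hD : LF D) (hx : LF x) (ht : LF t) :
    LF (fun I b => Cat.dg (D I b) (x I b) (t I b)) := by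
  unfold Cat.dg
  exact (LF.divPow hD hx ht).mod hD

theorem lf_vl (hD : LF D) (hR : LF R) (hx : LF x) (hf : LF f) :
    LF (fun I b => Cat.vl (D I b) (R I b) (x I b) (f I b)) := by
  unfold Cat.vl
  exact LF.ite (LFP.lt hf (LF.const _)) (lf_dg hD hx hf) (hx.div hR)

theorem lf_flg (hG : LFP (fun I a => G I (a 0) (a 1) : Inp → (Fin 2 → ℕ) → Prop)) (hB : LF Bg)
    (hD : LF D) (hx : LF x) : LF (fun I b => Cat.flg (D I b) (G I (Bg I b)) (x I b)) := by
  unfold Cat.flg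
  have h1 := LF.least (k := m) (n := fun _ _ => Cat.kb)
    (P := fun I c => G I (Bg I (Fin.tail c)) (Cat.dg (D I (Fin.tail c)) (x I (Fin.tail c)) (c 0)))
    (LFP.comp2 hG hB.weak (lf_dg hD.weak hx.weak (LF.proj 0))) (LF.const _)
  refine h1.congr (fun I b => ?_)
  simp only [Fin.tail_cons, Fin.cons_zero]
  rfl

theorem lfp_bad (hG : LFP (fun I a => G I (a 0) (a 1) : Inp → (Fin 2 → ℕ) → Prop)) (hB : LF Bg)
    (hD : LF D) (hx : LF x) : LFP (fun I b => Cat.BadX (D I b) (G I (Bg I b)) (x I b)) := by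
  unfold Cat.BadX
  have h1 := LFP.all (k := m) (n := fun _ _ => Cat.kb)
    (P := fun I c => ¬ G I (Bg I (Fin.tail c))
      (Cat.dg (D I (Fin.tail c)) (x I (Fin.tail c)) (c 0)))
    (LFP.not (LFP.comp2 hG hB.weak (lf_dg hD.weak hx.weak (LF.proj 0)))) (LF.const _)
  refine h1.congr (fun I b => ?_)
  simp only [Fin.tail_cons, Fin.cons_zero]

theorem lf_rk (hG : LFP (fun I a => G I (a 0) (a 1) : Inp → (Fin 2 → ℕ) → Prop)) (hB : LF Bg)
    (hD : LF D) (hx : LF x) : LF (fun I b => Cat.rk (D I b) (G I (Bg I b)) (x I b)) := by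
  unfold Cat.rk
  have h1 := LF.sum (k := m) (n := x)
    (f := fun I c => ind (Cat.BadX (D I (Fin.tail c)) (G I (Bg I (Fin.tail c))) (c 0)))
    (lfp_bad (m := m + 1) (x := fun _ c => c 0) hG hB.weak hD.weak (LF.proj 0)) hx
  refine h1.congr (fun I b => ?_)
  simp only [Fin.tail_cons, Fin.cons_zero]

theorem lf_bc (hG : LFP (fun I a => G I (a 0) (a 1) : Inp → (Fin 2 → ℕ) → Prop)) (hB : LF Bg)
    (hD : LF D) (hR : LF R) (hx : LF x) :
    LF (fun I b => Cat.bc (D I b) (R I b) (G I (Bg I b)) (x I b)) := by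
  unfold Cat.bc
  have h1 := LF.least (k := m) (n := D)
    (P := fun I c => G I (Bg I (Fin.tail c)) (c 0))
    (LFP.comp2 hG hB.weak (LF.proj 0)) hD
  have h2 : LF (fun I b => P313.leastBelow (G I (Bg I b)) (D I b)) := by
    refine h1.congr (fun I b => ?_)
    simp only [Fin.tail_cons, Fin.cons_zero]
    rfl
  exact LF.ite (LFP.lt (lf_flg hG hB hD hx) (LF.const _)) hx
    ((lf_rk hG hB hD hx).add (hR.mul h2))

theorem lf_uc (hG : LFP (fun I a => G I (a 0) (a 1) : Inp → (Fin 2 → ℕ) → Prop)) (hB : LF Bg)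
    (hD : LF D) (hR : LF R) (hW : LF W) (hy : LF y) (hf : LF f) :
    LF (fun I b => Cat.uc (D I b) (R I b) (W I b) (G I (Bg I b)) (y I b) (f I b)) := by
  unfold Cat.uc
  have h1 := LF.least (k := m) (n := W)
    (P := fun I c => Cat.BadX (D I (Fin.tail c)) (G I (Bg I (Fin.tail c))) (c 0) ∧
      Cat.rk (D I (Fin.tail c)) (G I (Bg I (Fin.tail c))) (c 0) = y I (Fin.tail c) % R I (Fin.tail c))
    (LFP.and (lfp_bad (m := m + 1) (x := fun _ c => c 0) hG hB.weak hD.weak (LF.proj 0))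
      (LFP.eq (lf_rk (m := m + 1) (x := fun _ c => c 0) hG hB.weak hD.weak (LF.proj 0))
        (hy.weak.mod hR.weak))) hW
  have h2 : LF (fun I b => P313.leastBelow (fun z => Cat.BadX (D I b) (G I (Bg I b)) z ∧
      Cat.rk (D I b) (G I (Bg I b)) z = y I b % R I b) (W I b)) := by
    refine h1.congr (fun I b => ?_)
    simp only [Fin.tail_cons, Fin.cons_zero]
    rfl
  exact LF.ite (LFP.lt hf (LF.const _)) hy h2

/-- Replacing a digit. -/
theorem lf_dupd {B F c f N : Fn m} (hB : LF B) (hF : LF F) (hc : LF c) (hf : LF f) (hN : LF N)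
    (h : ∀ I b, B I b ^ c I b ≤ N I b) :
    LF (fun I b => Cat.dupd (B I b) (F I b) (c I b) (f I b)) := by
  have hp : LF (fun I b => B I b ^ c I b) :=
    (LF.powMin hB hc hN).congr (fun I b => min_eq_left ((h I b).trans (Nat.le_succ _)))
  unfold Cat.dupd
  exact (hF.mod hp).add (hp.mul (hf.add (hB.mul ((hF.div hp).div hB))))

end cells

theorem two_B1_le (q : Prm) : 2 ^ Cat.B1 q ≤ 2 * (q.p * q.p) ^ Cat.kb + 2 := by
  rcases Nat.eq_zero_or_pos q.p with h | h
  · unfold Cat.B1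
    rw [h, Nat.zero_mul, zero_pow (by norm_num [Cat.kb])]
    simp
  · exact (Cat.B1_le h).trans (Nat.le_add_right _ _)

section par

variable {π : List Bool → Prm} (hT : PrmT (fun I => π I.word)) {ks : List Bool → ℕ}
  (lks : ∀ k, LF (fun I _ => ks I.word : Fn k))

include hT

theorem lf_pp : LF (fun I _ => (π I.word).p * (π I.word).p : Fn m) := (hT.p m).mul (hT.p m)

theorem lf_B1 : LF (fun I _ => Cat.B1 (π I.word) : Fn m) := by
  unfold Cat.B1
  exact (LF.log2 ((lf_pp hT).powConst _)).succ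

theorem lf_W : LF (fun I _ => 2 ^ Cat.B1 (π I.word) : Fn m) :=
  LF.powOfLe (LF.const 2) (lf_B1 hT)
    (B := fun I _ => 2 * ((π I.word).p * (π I.word).p) ^ Cat.kb + 2)
    (((LF.const 2).mul ((lf_pp hT).powConst _)).add (LF.const 2)).pb
    (fun I _ => two_B1_le (π I.word))

theorem lf_FJ (h2J : ∀ x, 2 ^ (π x).J ≤ (π x).P) :
    LF (fun I _ => Cat.FB ^ (3 * (π I.word).JT) : Fn m) := by
  refine LF.powOfLe (LF.const _) ((LF.const 3).mul (lf_JT hT))
    (B := fun I _ => ((π I.word).P * 2 ^ (π I.word).J2) ^ 30)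
    ((((hT.P m).mul (hT.TJ2 m)).powConst 30).pb) (fun I _ => ?_)
  have h1 : Cat.FB ≤ 2 ^ 10 := by norm_num [Cat.FB, Cat.kb]
  calc Cat.FB ^ (3 * (π I.word).JT) ≤ (2 ^ 10) ^ (3 * (π I.word).JT) := Nat.pow_le_pow_left h1 _
    _ = (2 ^ (π I.word).J * 2 ^ (π I.word).J2) ^ 30 := by
        unfold Prm.JT
        rw [← pow_add, ← pow_mul, ← pow_mul]; congr 1; ring
    _ ≤ _ := Nat.pow_le_pow_left (Nat.mul_le_mul_right _ (h2J _)) _

include lks

theorem lf_TT : LF (fun I _ => Cat.TT (π I.word) (ks I.word) : Fn m) := by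
  unfold Cat.TT
  exact (lf_JT hT).succ.mul ((LF.const 2).mul ((lks m).succ.mul (lks m).succ))

theorem lf_M1 : LF (fun I _ => Cat.M1 (π I.word) (ks I.word) : Fn m) := by
  unfold Cat.M1
  exact ((lf_B1 hT).succ.mul (lf_TT hT lks)).succ

theorem lf_dS : LF (fun I _ => Cat.dS (π I.word) (ks I.word) (I.O 0) : Fn m) := by
  unfold Cat.dS; exact lf_Z.mod (lf_M1 hT lks)

theorem lf_dM : LF (fun I _ => Cat.dM (π I.word) (ks I.word) (I.O 0) : Fn m) := by
  unfold Cat.dM; exact (lf_dS hT lks).div (lf_B1 hT).succ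

theorem lf_dE : LF (fun I _ => Cat.dE (π I.word) (ks I.word) (I.O 0) : Fn m) := by
  unfold Cat.dE; exact (lf_dS hT lks).mod (lf_B1 hT).succ

theorem lf_dj : LF (fun I _ => Cat.dj (π I.word) (ks I.word) (I.O 0) : Fn m) := by
  unfold Cat.dj; exact (lf_dM hT lks).mod (lf_JT hT).succ

theorem lf_dh : LF (fun I _ => Cat.dh (π I.word) (ks I.word) (I.O 0) : Fn m) := by
  unfold Cat.dh; exact ((lf_dM hT lks).div (lf_JT hT).succ).mod (LF.const 2)

theorem lf_di : LF (fun I _ => Cat.di (π I.word) (ks I.word) (I.O 0) : Fn m) := by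
  unfold Cat.di
  exact (((lf_dM hT lks).div (lf_JT hT).succ).div (LF.const 2)).mod (lks m).succ

theorem lf_da : LF (fun I _ => Cat.da (π I.word) (ks I.word) (I.O 0) : Fn m) := by
  unfold Cat.da
  exact (((lf_dM hT lks).div (lf_JT hT).succ).div (LF.const 2)).div (lks m).succ

theorem lf_dV : LF (fun I _ => Cat.dV (π I.word) (ks I.word) (I.O 0) : Fn m) := by
  unfold Cat.dV; exact (lf_Z.div (lf_M1 hT lks)).mod (LF.const 2)

theorem lf_dW : LF (fun I _ => Cat.dW (π I.word) (ks I.word) (I.O 0) : Fn m) := by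
  unfold Cat.dW; exact ((lf_Z.div (lf_M1 hT lks)).div (LF.const 2)).mod (lf_W hT)

theorem lf_dF (h2J : ∀ x, 2 ^ (π x).J ≤ (π x).P) :
    LF (fun I _ => Cat.dF (π I.word) (ks I.word) (I.O 0) : Fn m) := by
  unfold Cat.dF
  exact (((lf_Z.div (lf_M1 hT lks)).div (LF.const 2)).div (lf_W hT)).mod (lf_FJ hT h2J)

theorem lf_dO (h2J : ∀ x, 2 ^ (π x).J ≤ (π x).P) :
    LF (fun I _ => Cat.dO (π I.word) (ks I.word) (I.O 0) : Fn m) := by
  unfold Cat.dO
  exact (((lf_Z.div (lf_M1 hT lks)).div (LF.const 2)).div (lf_W hT)).div (lf_FJ hT h2J)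

theorem lf_cc : LF (fun I _ => Cat.cc (π I.word) (ks I.word) (I.O 0) : Fn m) := by
  unfold Cat.cc
  exact lf_cell (lf_JT hT) (lks m) (lf_da hT lks) (lf_di hT lks) (lf_dh hT lks) (lf_dj hT lks)

theorem lf_decY {A : Fn m} (hA : LF A) :
    LF (fun I b => (Cat.dec (π I.word) (ks I.word) I.O).Y (A I b)) := by
  have h1 := LF.sum (k := m) (n := fun I _ => Cat.B1 (π I.word))
    (f := fun I c => Min.min (2 ^ c 0) (2 ^ Cat.B1 (π I.word) + 1) *
      I.O (A I (Fin.tail c) * Cat.B1 (π I.word) + c 0 + 1))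
    ((LF.powMin (LF.const 2) (LF.proj 0) (lf_W hT)).mul
      (LF.ora (((hA.weak.mul (lf_B1 hT)).add (LF.proj 0)).succ))) (lf_B1 hT)
  refine h1.congr (fun I b => ?_)
  show _ = P313.rdw (Cat.B1 (π I.word)) (fun n => I.O (n + 1)) (A I b)
  unfold P313.rdw
  refine sum_congr rfl fun i hi => ?_
  simp only [Fin.tail_cons, Fin.cons_zero]
  rw [min_eq_left]
  exact (Nat.pow_le_pow_right (by norm_num) (mem_range.1 hi).le).trans (Nat.le_succ _)

theorem lf_decF (h2J : ∀ x, 2 ^ (π x).J ≤ (π x).P) {A : Fn m} (hA : LF A) :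
    LF (fun I b => (Cat.dec (π I.word) (ks I.word) I.O).F (A I b)) := by
  show LF (fun I b => Cat.dF (π I.word) (ks I.word) (I.O 0) / Cat.FB ^ (A I b) % Cat.FB)
  exact (LF.divPow (LF.const _) (lf_dF hT lks h2J) hA).mod (LF.const _)

/-- The memory read by the tests. -/
def rdI (π : List Bool → Prm) (ks : List Bool → ℕ) (I : Inp) (idx : ℕ) : ℕ :=
  Cat.mmr (π I.word) (ks I.word) (2 ^ Cat.B1 (π I.word) / ((π I.word).p * (π I.word).p))
    (Cat.da (π I.word) (ks I.word) (I.O 0)) (Cat.di (π I.word) (ks I.word) (I.O 0))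
    (Cat.dec (π I.word) (ks I.word) I.O) idx

theorem lf_rdI (h2J : ∀ x, 2 ^ (π x).J ≤ (π x).P) : LF (fun I a => rdI π ks I (a 0) : Fn 1) := by
  unfold rdI Cat.mmr Cat.arr Cat.od
  have hJ := lf_JT (k := 1) hT
  have h0 := LF.proj (k := 1) 0
  have hda := lf_da (m := 1) hT lks
  have hdi := lf_di (m := 1) hT lks
  have hρ := LF.ite (LFP.eq (h0.div hJ) (hdi.mod (LF.const 2))) (lf_rg (lks 1) hda hdi)
    (lf_pg (lks 1) hda hdi)
  have hc := (hρ.mul hJ).add (h0.mod hJ)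
  exact LF.ite (LFP.lt h0 ((LF.const 2).mul hJ))
    (lf_vl (lf_pp hT) ((lf_W hT).div (lf_pp hT)) (lf_decY hT lks hc) (lf_decF hT lks h2J hc))
    ((LF.divPow (hT.B 1) (lf_dO hT lks h2J) (h0.sub ((LF.const 2).mul hJ))).mod (hT.B 1))

end par

section step

variable {π : List Bool → Prm} (hT : PrmT (fun I => π I.word)) {ks : List Bool → ℕ}
  (lks : ∀ k, LF (fun I _ => ks I.word : Fn k))

/-- One step with arbitrary tests. -/
noncomputable def gst (q : Prm) (k R W : ℕ) (TH TO : ℕ → Prop) (vv bi bk a i ph j : ℕ)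
    (α : Cat.AS) : Cat.AS where
  Y := Function.update α.Y (Cat.cell q.JT k a i ph j) ((
    if Cat.knd q.JT k a i ph j = 0 then α.Y (Cat.cell q.JT k a i ph j)
    else if Cat.knd q.JT k a i ph j = 1 then
      Cat.bc (q.p * q.p) R TH (α.Y (Cat.cell q.JT k a i ph j))
    else Cat.uc (q.p * q.p) R W TH (α.Y (Cat.cell q.JT k a i ph j))
      (α.F (Cat.cell q.JT k a i ph j))) % W)
  F := Function.update α.F (Cat.cell q.JT k a i ph j) (
    if Cat.knd q.JT k a i ph j = 1 then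
      Cat.flg (q.p * q.p) TH (α.Y (Cat.cell q.JT k a i ph j))
    else α.F (Cat.cell q.JT k a i ph j))
  O := if ph = 0 ∧ j = q.JT ∧ a = 0 ∧ i < k then
      (α.O + bi * P313.leastBelow TO q.B) % bk
    else α.O
  V := if ph = 0 ∧ j = q.JT ∧ a = 0 ∧ i = k then Min.min vv 1 else α.V

/-- The step of the machine, for computable tests `GH` and `GO` and a computable verdict. -/
noncomputable def stepc (π : List Bool → Prm) (ks : List Bool → ℕ) (GH GO : Inp → ℕ → ℕ → Prop)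
    (vvI : Inp → ℕ → ℕ) (I : Inp) (Bg : ℕ) : Cat.AS :=
  gst (π I.word) (ks I.word) (2 ^ Cat.B1 (π I.word) / ((π I.word).p * (π I.word).p))
    (2 ^ Cat.B1 (π I.word)) (GH I Bg) (GO I Bg) (vvI I Bg)
    (Min.min ((π I.word).B ^ Cat.di (π I.word) (ks I.word) (I.O 0)) (Bg + 1))
    (Min.min ((π I.word).B ^ ks I.word) (Bg + 1))
    (Cat.da (π I.word) (ks I.word) (I.O 0)) (Cat.di (π I.word) (ks I.word) (I.O 0))
    (Cat.dh (π I.word) (ks I.word) (I.O 0)) (Cat.dj (π I.word) (ks I.word) (I.O 0))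
    (Cat.dec (π I.word) (ks I.word) I.O)

variable {GH GO : Inp → ℕ → ℕ → Prop} {vvI : Inp → ℕ → ℕ}
  (hGH : LFP (fun I a => GH I (a 0) (a 1) : Inp → (Fin 2 → ℕ) → Prop))
  (hGO : LFP (fun I a => GO I (a 0) (a 1) : Inp → (Fin 2 → ℕ) → Prop))
  (hvv : LF (fun I a => vvI I (a 0) : Fn 1)) (h2J : ∀ x, 2 ^ (π x).J ≤ (π x).P)

include hT lks

theorem lf_kc : LF (fun I _ => Cat.knd (π I.word).JT (ks I.word)
    (Cat.da (π I.word) (ks I.word) (I.O 0)) (Cat.di (π I.word) (ks I.word) (I.O 0))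
    (Cat.dh (π I.word) (ks I.word) (I.O 0)) (Cat.dj (π I.word) (ks I.word) (I.O 0)) : Fn m) :=
  lf_knd (lf_JT hT) (lks m) (lf_da hT lks) (lf_di hT lks) (lf_dh hT lks) (lf_dj hT lks)

include hGH h2J

theorem lf_stepY {Bg : Fn m} (hB : LF Bg) :
    LF (fun I b => (stepc π ks GH GO vvI I (Bg I b)).Y (Cat.cc (π I.word) (ks I.word) (I.O 0))) := by
  have hK := lf_kc (m := m) hT lks
  have hD := lf_pp (m := m) hT
  have hW := lf_W (m := m) hT
  have hR := hW.div hD
  have hc := lf_cc (m := m) hT lks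
  have hy := lf_decY hT lks hc
  have hf := lf_decF hT lks h2J hc
  have h1 := LF.ite (LFP.eq hK LF.zero) hy (LF.ite (LFP.eq hK (LF.const 1))
    (lf_bc hGH hB hD hR hy) (lf_uc hGH hB hD hR hW hy hf))
  refine (h1.mod hW).congr (fun I b => ?_)
  unfold stepc gst Cat.cc
  simp only [Function.update_self]

theorem lf_stepF {Bg : Fn m} (hB : LF Bg) :
    LF (fun I b => (stepc π ks GH GO vvI I (Bg I b)).F (Cat.cc (π I.word) (ks I.word) (I.O 0))) := by
  have hK := lf_kc (m := m) hT lks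
  have hD := lf_pp (m := m) hT
  have hc := lf_cc (m := m) hT lks
  have hy := lf_decY hT lks hc
  have hf := lf_decF hT lks h2J hc
  have h1 := LF.ite (LFP.eq hK (LF.const 1)) (lf_flg hGH hB hD hy) hf
  refine h1.congr (fun I b => ?_)
  unfold stepc gst Cat.cc
  simp only [Function.update_self]

omit hGH
include hGO

theorem lf_stepO {Bg : Fn m} (hB : LF Bg) :
    LF (fun I b => (stepc π ks GH GO vvI I (Bg I b)).O) := by
  have ha := lf_da (m := m) hT lks
  have hi := lf_di (m := m) hT lks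
  have hh := lf_dh (m := m) hT lks
  have hj := lf_dj (m := m) hT lks
  have hO := lf_dO (m := m) hT lks h2J
  have h1 := LF.least (k := m) (n := fun I _ => (π I.word).B)
    (P := fun I c => GO I (Bg I (Fin.tail c)) (c 0))
    (LFP.comp2 hGO hB.weak (LF.proj 0)) (hT.B m)
  have h2 : LF (fun I b => P313.leastBelow (GO I (Bg I b)) (π I.word).B) := by
    refine h1.congr (fun I b => ?_)
    simp only [Fin.tail_cons, Fin.cons_zero]
    rfl
  exact LF.ite ((LFP.eq hh LF.zero).and ((LFP.eq hj (lf_JT hT)).and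
    ((LFP.eq ha LF.zero).and (LFP.lt hi (lks m)))))
    ((hO.add ((LF.powMin (hT.B m) hi hB).mul h2)).mod (LF.powMin (hT.B m) (lks m) hB)) hO

omit hGO h2J
include hvv

theorem lf_stepV {Bg : Fn m} (hB : LF Bg) :
    LF (fun I b => (stepc π ks GH GO vvI I (Bg I b)).V) := by
  have ha := lf_da (m := m) hT lks
  have hi := lf_di (m := m) hT lks
  have hh := lf_dh (m := m) hT lks
  have hj := lf_dj (m := m) hT lks
  exact LF.ite ((LFP.eq hh LF.zero).and ((LFP.eq hj (lf_JT hT)).and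
    ((LFP.eq ha LF.zero).and (LFP.eq hi (lks m)))))
    (LF.min (LF.comp1 hvv hB) (LF.const 1)) (lf_dV hT lks)

omit hvv

theorem lf_pfF : LF (fun I _ => Cat.pfu (π I.word) (ks I.word) I.O : Fn m) := by
  unfold Cat.pfu
  exact ((lf_cc hT lks).mul (lf_B1 hT)).add ((lf_dE hT lks).sub (LF.const 1))

theorem lf_ffF : LF (fun I _ => Cat.ffu (π I.word) (ks I.word) I.O : Fn m) := by
  unfold Cat.ffu
  exact LF.ite (LFP.eq (lf_dE hT lks) LF.zero)
    (LF.ora (((lf_cc hT lks).mul (lf_B1 hT)).add (LF.const 1)))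
    ((LF.divPow (LF.const 2) (lf_dW hT lks) ((lf_dE hT lks).sub (LF.const 1))).mod (LF.const 2))

include hGH hGO hvv h2J

theorem lf_zfF (hJT : ∀ x, 0 < (π x).JT) : LF (fun I a => Cat.zfu (π I.word) (ks I.word) I.O
    (stepc π ks GH GO vvI I (a 0)) : Fn 1) := by
  unfold Cat.zfu Cat.enc
  have hB := LF.proj (k := 1) 0
  have hV := lf_stepV (GH := GH) (GO := GO) hT lks hvv hB
  have hY := lf_stepY (GO := GO) (vvI := vvI) hT lks hGH h2J hB
  have hF := lf_stepF (GO := GO) (vvI := vvI) hT lks hGH h2J hB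
  have hO := lf_stepO (GH := GH) (vvI := vvI) hT lks hGO h2J hB
  have hM := lf_M1 (m := 1) hT lks
  have hW := lf_W (m := 1) hT
  have hFJ := lf_FJ (m := 1) hT h2J
  have hd := lf_dupd (m := 1) (LF.const Cat.FB) (lf_dF hT lks h2J) (lf_cc hT lks) hF hFJ
    (fun I b => Nat.pow_le_pow_right (Nat.succ_pos _) (Cat.cell_lt (hJT I.word)).le)
  exact LF.ite (LFP.eq (lf_dE hT lks) LF.zero)
    ((lf_dS hT lks).succ.add (hM.mul (hV.add ((LF.const 2).mul (hY.add (hW.mul
      (hd.add (hFJ.mul hO))))))))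
    lf_Z.succ

end step

end Vale.Agent.P313.TS.Q
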